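import Crest.Agent.X212.Wrd81.Comm

/-!
# X212 / WORDS, part 3 (helper81): words, their smoothness, equivariance and density, format-free.

A word is a list of letters applied to a seed: `wd op s [t₁, …, tₙ] = op t₁ (… (op tₙ s))`.
-/

set_option autoImplicit false
set_option linter.unusedSectionVars false
open scoped RealInnerProductSpace ContDiff Topology
open Set Filter Function

noncomputable section
namespace Crest.Agent.X212.Wrd81

/-- the word `l` in the letters `op` applied to the seed `s` -/
def wd {τ α : Type*} (op : τ → α → α) (s : α) (l : List τ) : α := l.foldr op s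

section basic
variable {τ α β : Type*}

@[simp] lemma wd_nil (op : τ → α → α) (s : α) : wd op s [] = s := rfl

@[simp] lemma wd_cons (op : τ → α → α) (s : α) (t : τ) (l : List τ) :
    wd op s (t :: l) = op t (wd op s l) := rfl

lemma wd_append (op : τ → α → α) (s : α) (l l' : List τ) :
    wd op s (l ++ l') = wd op (wd op s l') l := List.foldr_append

/-- a property of the seed preserved by the letters holds for all words -/
lemma wd_ind {op : τ → α → α} {s : α} {p : α → Prop} (h0 : p s) (h : ∀ t a, p a → p (op t a))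
    (l : List τ) : p (wd op s l) := by
  induction l with
  | nil => exact h0
  | cons t l ih => exact h t _ ih

/-- a relation between the seeds preserved by the letters holds for all words (equivariance,
comparison of Sobolev levels, limits, splitting across necks) -/
lemma wd_rel {op : τ → α → α} {op' : τ → β → β} {s : α} {s' : β} {r : α → β → Prop}
    (h0 : r s s') (h : ∀ t a b, r a b → r (op t a) (op' t b)) (l : List τ) :
    r (wd op s l) (wd op' s' l) := by
  induction l with
  | nil => exact h0
  | cons t l ih => exact h t _ _ ih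

lemma wd_map {op : τ → α → α} {op' : τ → β → β} (φ : α → β) (s : α)
    (h : ∀ t a, φ (op t a) = op' t (φ a)) (l : List τ) : φ (wd op s l) = wd op' (φ s) l :=
  wd_rel (r := fun a b => φ a = b) rfl (fun t a b hab => by rw [h, hab]) l

/-- words of a family are computed member by member -/
lemma wd_family {X : Type*} (op : τ → X → α → α) (s : X → α) (l : List τ) (x : X) :
    wd (fun t (u : X → α) y => op t y (u y)) s l x = wd (fun t => op t x) (s x) l :=
  wd_map (op := fun t (u : X → α) y => op t y (u y)) (fun u => u x) s (fun _ _ => rfl) l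

end basic

section smooth
variable {τ X E E' : Type*} [NormedAddCommGroup X] [NormedSpace ℝ X] [NormedAddCommGroup E]
  [NormedSpace ℝ E] [NormedAddCommGroup E'] [NormedSpace ℝ E']

theorem contDiffAt_wd {n : WithTop ℕ∞} {op : τ → X → E →L[ℝ] E} {s : X → E} {x : X}
    (hop : ∀ t, ContDiffAt ℝ n (op t) x) (hs : ContDiffAt ℝ n s x) (l : List τ) :
    ContDiffAt ℝ n (fun y => wd (fun t => op t y) (s y) l) x := by
  induction l with
  | nil => exact hs
  | cons t l ih => exact (hop t).clm_apply ih

theorem contDiffOn_wd {n : WithTop ℕ∞} {op : τ → X → E →L[ℝ] E} {s : X → E} {U : Set X}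
    (hop : ∀ t, ContDiffOn ℝ n (op t) U) (hs : ContDiffOn ℝ n s U) (l : List τ) :
    ContDiffOn ℝ n (fun y => wd (fun t => op t y) (s y) l) U := by
  induction l with
  | nil => exact hs
  | cons t l ih => exact (hop t).clm_apply ih

theorem continuousAt_wd {Y : Type*} [TopologicalSpace Y] {op : τ → Y → E →L[ℝ] E} {s : Y → E}
    {x : Y} (hop : ∀ t, ContinuousAt (op t) x) (hs : ContinuousAt s x) (l : List τ) :
    ContinuousAt (fun y => wd (fun t => op t y) (s y) l) x := by
  induction l with
  | nil => exact hs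
  | cons t l ih => exact (hop t).clm_apply ih

/-- the resolvent `j ∘ (L x)⁻¹` -/
def rsv (j : E' →L[ℝ] E) (L : E' →L[ℝ] E) : E →L[ℝ] E := j.comp L.inverse

/-- the set of parameters where `L` is invertible is open -/
theorem isOpen_inv [CompleteSpace E'] {Y : Type*} [TopologicalSpace Y] {L : Y → E' →L[ℝ] E}
    (hL : Continuous L) : IsOpen {y | (L y).IsInvertible} :=
  ContinuousLinearEquiv.isOpen.preimage hL

theorem contDiffAt_inverse [CompleteSpace E'] {n : WithTop ℕ∞} {L : X → E' →L[ℝ] E} {x : X}
    (hL : ContDiffAt ℝ n L x) (hx : (L x).IsInvertible) :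
    ContDiffAt ℝ n (fun y => (L y).inverse) x := by
  obtain ⟨e, he⟩ := hx
  have := contDiffAt_map_inverse (𝕜 := ℝ) (n := n) e
  rw [he] at this
  exact this.comp x hL

theorem contDiffAt_rsv [CompleteSpace E'] {n : WithTop ℕ∞} (j : E' →L[ℝ] E)
    {L : X → E' →L[ℝ] E} {x : X} (hL : ContDiffAt ℝ n L x) (hx : (L x).IsInvertible) :
    ContDiffAt ℝ n (fun y => rsv j (L y)) x :=
  contDiffAt_const.clm_comp (contDiffAt_inverse hL hx)

lemma rsv_apply (j : E' →L[ℝ] E) {L : E' →L[ℝ] E} (hL : L.IsInvertible) (u : E') :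
    rsv j L (L u) = j u := by
  simp [rsv, hL.inverse_apply_eq.2 rfl]

/-- inverses of intertwined invertible operators are intertwined -/
lemma inverse_intertwine {F F' : Type*} [NormedAddCommGroup F] [NormedSpace ℝ F]
    [NormedAddCommGroup F'] [NormedSpace ℝ F'] {L : E' →L[ℝ] E} {L' : F' →L[ℝ] F}
    (hL : L.IsInvertible) (hL' : L'.IsInvertible) {a : E → F} {b : E' → F'}
    (h : ∀ u, a (L u) = L' (b u)) (f : E) : L'.inverse (a f) = b (L.inverse f) := by
  obtain ⟨e, rfl⟩ := hL
  obtain ⟨u, rfl⟩ := e.surjective f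
  have h1 : (e : E' →L[ℝ] E).inverse (e u) = u := by simp
  rw [h1, hL'.inverse_apply_eq]
  exact h u

end smooth

section dens
variable {τ σ S H : Type*} [AddCommGroup S] [Module ℝ S] [NormedAddCommGroup H]
  [InnerProductSpace ℝ H] [CompleteSpace H]

/-- all words in the letters `op` on the seeds `s` -/
def wds {α : Type*} (op : τ → α → α) (s : σ → α) : Set α := range fun p : σ × List τ => wd op (s p.1) p.2

lemma wd_mem_wds {α : Type*} (op : τ → α → α) (s : σ → α) (j : σ) (l : List τ) :
    wd op (s j) l ∈ wds op s := ⟨(j, l), rfl⟩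

lemma op_mem_wds {α : Type*} {op : τ → α → α} {s : σ → α} (t : τ) {a : α} (h : a ∈ wds op s) :
    op t a ∈ wds op s := by
  obtain ⟨⟨j, l⟩, rfl⟩ := h
  exact ⟨(j, t :: l), rfl⟩

/-- the closed span of the words is stable under the letters -/
lemma op_mem_cl (op : τ → H →L[ℝ] H) (s : σ → H) (t : τ) {x : H}
    (hx : x ∈ cl (wds (fun t => op t) s)) : op t x ∈ cl (wds (fun t => op t) s) :=
  map_cl (isClosed_cl _) (op t) (fun _ hw => mem_cl (op_mem_wds (op := fun t => op t) t hw)) hx

/-- the projector onto the closed span of the words -/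
def prj (op : τ → H →L[ℝ] H) (s : σ → H) : H →L[ℝ] H :=
  (cl (wds (fun t => op t) s)).starProjection

lemma prj_wd (op : τ → H →L[ℝ] H) (s : σ → H) (j : σ) (l : List τ) :
    prj op s (wd (fun t => op t) (s j) l) = wd (fun t => op t) (s j) l :=
  Submodule.starProjection_eq_self_iff.2 (mem_cl (wd_mem_wds _ _ j l))

lemma prj_seed (op : τ → H →L[ℝ] H) (s : σ → H) (j : σ) : prj op s (s j) = s j :=
  prj_wd op s j []

lemma prj_idem (op : τ → H →L[ℝ] H) (s : σ → H) (x : H) : prj op s (prj op s x) = prj op s x :=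
  Submodule.starProjection_eq_self_iff.2 (Submodule.starProjection_apply_mem _ x)

lemma prj_symm (op : τ → H →L[ℝ] H) (s : σ → H) (x y : H) :
    ⟪prj op s x, y⟫ = ⟪x, prj op s y⟫ :=
  Submodule.inner_starProjection_left_eq_right _ x y

lemma prj_eq_self_iff (op : τ → H →L[ℝ] H) (s : σ → H) {x : H} :
    prj op s x = x ↔ x ∈ cl (wds (fun t => op t) s) := Submodule.starProjection_eq_self_iff

/-- an operator `T` such that `T` and an adjoint `T'` map the words into their closed span
commutes with the projector -/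
lemma prj_comm' (op : τ → H →L[ℝ] H) (s : σ → H) {T T' : H →L[ℝ] H}
    (adj : ∀ x y, ⟪T x, y⟫ = ⟪x, T' y⟫)
    (hT : ∀ x ∈ cl (wds (fun t => op t) s), T x ∈ cl (wds (fun t => op t) s))
    (hT' : ∀ x ∈ cl (wds (fun t => op t) s), T' x ∈ cl (wds (fun t => op t) s)) (x : H) :
    prj op s (T x) = T (prj op s x) := proj_comm _ T T' adj hT hT' x

/-- the projector commutes with a letter whose adjoint is a multiple of a letter -/
lemma prj_comm (op : τ → H →L[ℝ] H) (s : σ → H) {t t' : τ} (c : ℝ)
    (adj : ∀ x y, ⟪op t x, y⟫ = c * ⟪x, op t' y⟫) (x : H) :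
    prj op s (op t x) = op t (prj op s x) :=
  prj_comm' op s (T' := c • op t') (fun x y => by simp [adj, inner_smul_right])
    (fun _ hx => op_mem_cl op s t hx)
    (fun _ hx => Submodule.smul_mem _ c (op_mem_cl op s t' hx)) x

/-- a closed subspace containing the seeds and stable under the letters contains the span -/
lemma cl_wds_le (op : τ → H →L[ℝ] H) (s : σ → H) {U : Submodule ℝ H} (hU : IsClosed (U : Set H))
    (h0 : ∀ j, s j ∈ U) (h : ∀ t, ∀ x ∈ U, op t x ∈ U) : cl (wds (fun t => op t) s) ≤ U := by
  refine cl_le hU ?_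
  rintro _ ⟨⟨j, l⟩, rfl⟩
  exact wd_ind (p := fun a => a ∈ U) (h0 j) (fun t a ha => h t a ha) l

/-- **density in a stronger norm.**  `E` is a Sobolev space, `j : E → H` the inclusion,
`K : H → E` a power of the resolvent with `j ∘ K = ` the word `l₀`.  Then `K x` lies in the closed
span in `E` of the words, for every `x` in the `L²`-closed span of the words. -/
theorem mem_closure_strong {E : Type*} [NormedAddCommGroup E] [NormedSpace ℝ E]
    (op : τ → H →L[ℝ] H) (s : σ → H) (opE : τ → E → E) (sE : σ → E) (j : E → H)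
    (hj : Injective j) (hop : ∀ t u, j (opE t u) = op t (j u)) (hs : ∀ i, j (sE i) = s i)
    (K : H →L[ℝ] E) (l₀ : List τ) (hK : ∀ x, j (K x) = wd (fun t => op t) x l₀) {x : H}
    (hx : x ∈ cl (wds (fun t => op t) s)) :
    K x ∈ (Submodule.span ℝ (wds opE sE)).topologicalClosure := by
  have : cl (wds (fun t => op t) s) ≤
      ((Submodule.span ℝ (wds opE sE)).topologicalClosure).comap (K : H →ₗ[ℝ] E) := by
    refine cl_le ((Submodule.isClosed_topologicalClosure _).preimage K.continuous) ?_
    rintro _ ⟨⟨i, l⟩, rfl⟩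
    have e : K (wd (fun t => op t) (s i) l) = wd opE (sE i) (l₀ ++ l) := by
      apply hj
      rw [hK, wd_map (op := opE) (op' := fun t => op t) j _ hop, hs, wd_append]
    change K (wd (fun t => op t) (s i) l) ∈ (Submodule.span ℝ (wds opE sE)).topologicalClosure
    rw [e]
    exact Submodule.le_topologicalClosure _ (Submodule.subset_span (wd_mem_wds _ _ i _))
  exact this hx

/-- bilinear terms: the closed span of `B u u'` over words contains `B a b` for `a, b` in the closed
span of the words -/
theorem bil_mem_closure {E E' F : Type*} [NormedAddCommGroup E] [NormedSpace ℝ E]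
    [NormedAddCommGroup E'] [NormedSpace ℝ E'] [NormedAddCommGroup F] [NormedSpace ℝ F]
    (B : E →L[ℝ] E' →L[ℝ] F) {W : Set E} {W' : Set E'} {U : Submodule ℝ F}
    (hU : IsClosed (U : Set F)) (h : ∀ u ∈ W, ∀ u' ∈ W', B u u' ∈ U) {a : E} {b : E'}
    (ha : a ∈ (Submodule.span ℝ W).topologicalClosure)
    (hb : b ∈ (Submodule.span ℝ W').topologicalClosure) : B a b ∈ U := by
  have h1 : ∀ u ∈ W, B u b ∈ U := fun u hu =>
    Submodule.topologicalClosure_minimal (t := U.comap (B u : E' →ₗ[ℝ] F)) _
      (Submodule.span_le.2 fun u' hu' => h u hu u' hu') (hU.preimage (B u).continuous) hb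
  exact Submodule.topologicalClosure_minimal (t := U.comap (B.flip b : E →ₗ[ℝ] F)) _
    (Submodule.span_le.2 fun u hu => h1 u hu) (hU.preimage (B.flip b).continuous) ha

theorem lin_mem_closure {E F : Type*} [NormedAddCommGroup E] [NormedSpace ℝ E]
    [NormedAddCommGroup F] [NormedSpace ℝ F] (T : E →L[ℝ] F) {W : Set E} {U : Submodule ℝ F}
    (hU : IsClosed (U : Set F)) (h : ∀ u ∈ W, T u ∈ U) {a : E}
    (ha : a ∈ (Submodule.span ℝ W).topologicalClosure) : T a ∈ U :=
  Submodule.topologicalClosure_minimal (t := U.comap (T : E →ₗ[ℝ] F)) _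
    (Submodule.span_le.2 fun u hu => h u hu) (hU.preimage T.continuous) ha

/-- **the commutant lemma for words.**  If the resolvent is a letter, the projector onto the closed
span of the words is induced by a map `Q` of the smooth sections commuting with `L`. -/
theorem exists_Q (r : Res S H) (op : τ → H →L[ℝ] H) (s : σ → H) {g : τ} (hg : op g = r.G) :
    ∃ Q : S →ₗ[ℝ] S, (∀ u, r.ι (Q u) = prj op s (r.ι u)) ∧ (∀ u, Q (r.L u) = r.L (Q u)) ∧
      (∀ u, Q (Q u) = Q u) := by
  have hP : ∀ x, prj op s (r.G x) = r.G (prj op s x) := fun x => by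
    rw [← hg]
    exact prj_comm op s (t' := g) 1 (fun x y => by rw [hg, r.symm, one_mul]) x
  refine ⟨r.lift _ (r.exists_of_comm hP), r.ι_lift _ _, r.comm_L hP (r.ι_lift _ _), fun u => ?_⟩
  apply r.inj
  rw [r.ι_lift, r.ι_lift, prj_idem]

end dens

end Crest.Agent.X212.Wrd81
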