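import Crest.Agent.X212.Wrd81.Gau
import Crest.Agent.X212.Abel74.Defs

/-!
# X212 / WORDS, part 14 (helper81): adjoint words on arbitrary seeds.
-/

set_option autoImplicit false
set_option linter.unusedSectionVars false
noncomputable section
open scoped Manifold ContDiff Topology InnerProductSpace
open MeasureTheory Set Function Filter

namespace Crest.Agent.X212.Wrd81
open An Sob92 Wz78

variable {E : Type} [NormedAddCommGroup E] [NormedSpace ℝ E] [FiniteDimensional ℝ E]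
  [MeasurableSpace E] [BorelSpace E]
  {HM : Type} [TopologicalSpace HM] {I : ModelWithCorners ℝ E HM} [I.Boundaryless]
  {M : Type} [TopologicalSpace M] [ChartedSpace HM M] [IsManifold I ∞ M]
  [MeasurableSpace M] [T2Space M] [BorelSpace M] [SecondCountableTopology M]
  {ι : Type} [Fintype ι] {ι' : Type} [Fintype ι'] {lam : Type} [Fintype lam] {r n : ℕ}

section gen
variable {V : Type} [NormedAddCommGroup V] [InnerProductSpace ℝ V] [FiniteDimensional ℝ V]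
  {F : Fr I M ι} {A : ι → M → V →L[ℝ] V} {K Ω : Set M} {𝒲 : Set (M → V)} {π : M → V →L[ℝ] V}

/-- a parallel projector which fixes the solution fixes the right hand side -/
lemma Prj.fix_rhs (h : Prj K Ω F A 𝒲 π) (hA : ∀ a, Sm I (A a)) {s u : M → V} (hu : F.IsRes A s u)
    (h1 : ∀ x, π x (u x) = u x) (x : M) : π x (s x) = s x := by
  have := Mp86.isRes_map hA h.sm ⟨1, fun x => norm_prj_le (h.symm x) (h.idem x)⟩
    (fun x => itw_of_nabE fun a => h.nabE a x) hu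
  simp only [h1] at this
  exact (this.2.2 x).symm.trans (hu.2.2 x)

end gen

variable (c : Cfg M ι lam r) (B : Base M ι lam) (G : Geo I M ι lam) (K Ω : Set M)

/-- the values of the adjoint words on the seeds `𝒮` -/
def AWs (F : Fr I M ι) (𝒮 : Set (M → c.m.A)) : Set (M → c.m.A) :=
  {w | ∃ s ∈ 𝒮, ∃ l, LlIn I Ω l ∧ w = wd (c.la F) s l}

/-- the seeds of the syntax -/
def Sds (F : Fr I M ι) : Set (M → c.m.A) := {s | ∃ t, SdIn I Ω t ∧ s = c.sd F t}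

/-- the projector of the adjoint words -/
structure AP (𝒮 : Set (M → c.m.A)) (σ : M → CL c.m.A c.m.A) : Prop
    extends Prj K (Ω ∩ K) G.F (c.m.adW c.W) (AWs c Ω G.F 𝒮) σ where
  smw : ∀ w ∈ AWs c Ω G.F 𝒮, Sm I w
  g : ∀ x v, c.m.pg x (σ x v) = σ x v

/-- no proper parallel sub-bundle of `g` contains the curvature on `K` -/
def Full : Prop := ∀ σ : M → CL c.m.A c.m.A, Sm I σ → (∀ x v w, ⟪σ x v, w⟫_ℝ = ⟪v, σ x w⟫_ℝ) →
  (∀ x v, σ x (σ x v) = σ x v) → (∀ x v, c.m.pg x (σ x v) = σ x v) →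
  (∀ a x, nabE I G.F.e (c.m.adW c.W) a σ x = 0) →
  (∀ x ∈ K, ∀ s, σ x (c.m.Fg G.F c.W x s) = c.m.Fg G.F c.W x s) → ∀ x ∈ K, σ x = c.m.pg x

variable {c B G K Ω} {𝒮 : Set (M → c.m.A)} {σ : M → CL c.m.A c.m.A}

lemma aw_ind {F : Fr I M ι} {P : (M → c.m.A) → Prop} (h0 : ∀ s ∈ 𝒮, P s)
    (h : ∀ t a, LaIn I Ω t → P a → P (c.la F t a)) : ∀ w ∈ AWs c Ω F 𝒮, P w := by
  rintro _ ⟨s, hs, l, hl, rfl⟩
  induction l with
  | nil => exact h0 s hs
  | cons t u ih => exact h t _ (hl t List.mem_cons_self) (ih fun t k => hl t (List.mem_cons_of_mem _ k))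

lemma la_mem {F : Fr I M ι} {t : La M} (ht : LaIn I Ω t) {w : M → c.m.A} (hw : w ∈ AWs c Ω F 𝒮) :
    c.la F t w ∈ AWs c Ω F 𝒮 := let ⟨s, hs, l, hl, e⟩ := hw; ⟨s, hs, t :: l, hl.cons ht, e ▸ rfl⟩

lemma seed_mem {F : Fr I M ι} {s : M → c.m.A} (hs : s ∈ 𝒮) : s ∈ AWs c Ω F 𝒮 :=
  ⟨s, hs, [], llIn_nil, rfl⟩

namespace Pc
variable (h : Pc c B G K Ω)
include h

lemma res_g {s : M → c.m.A} (hs : ∀ x, s x ∈ c.m.gS x) (x : M) :
    G.F.res (c.m.adW c.W) s x ∈ c.m.gS x := by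
  have sg := Std94.sm_pg h.hB h.ok
  rw [← h.ra.res_prj sg inner_pg pg_pg (pg_par h.ok h.conn sg) (fun x => pg_of_mem (hs x)) x]
  exact pg_mem x _

lemma famA (hs : ∀ s ∈ 𝒮, Sm I s) : Fam K (Ω ∩ K) G.F (c.m.adW c.W) (AWs c Ω G.F 𝒮) :=
  ⟨h.cl, h.opn, inter_subset_right, by rw [sdiff_inter_self_eq_sdiff, h.null],
    aw_ind hs fun t a ht ha => by
      cases t
      exacts [sm_smul ht.sm ha, Mp86.sm_res _ _ _],
    fun f hf _ => la_mem (t := .mul f) (hf.mono inter_subset_left), fun _ => la_mem (t := .G) trivial⟩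

theorem exists_ap (hs : ∀ s ∈ 𝒮, Sm I s) (hg : ∀ s ∈ 𝒮, ∀ x, s x ∈ c.m.gS x) :
    ∃ σ, AP c G K Ω 𝒮 σ := by
  obtain ⟨σ, p⟩ := (h.famA hs).exists_prj h.ra
  refine ⟨σ, p, (h.famA hs).sm, fun x v => (p.le h.cl.2 (Std94.sm_pg h.hB h.ok) inner_pg
    (fun w hw x => pg_of_mem (aw_ind (P := fun w => ∀ x, w x ∈ c.m.gS x) hg
      (fun t a _ ha x => ?_) w hw x)) x v).2⟩
  cases t
  exacts [Submodule.smul_mem _ _ (ha x), h.res_g ha x]

lemma sm_Fg (s : ι × ι) : Sm I fun y => c.m.Fg G.F c.W y s :=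
  Wz78.sm_Fg h.hG h.conn (Std94.sm_pg h.hB h.ok) s

lemma sm_sd : ∀ s ∈ Sds c Ω G.F, Sm I s := by
  rintro _ ⟨t, ht, rfl⟩
  cases t
  exacts [(h.sm_qL.clm_apply (h.sm_sw _ ⟨_, ht.1, rfl⟩)).clm_apply (h.sm_sw _ ⟨_, ht.2, rfl⟩),
    Mp86.sm_res _ _ _]

lemma g_sd : ∀ s ∈ Sds c Ω G.F, ∀ x, s x ∈ c.m.gS x := by
  rintro _ ⟨t, -, rfl⟩
  cases t
  exacts [fun _ => q_mem _ _, h.res_g (h.res_g fun x =>
    Submodule.sum_mem _ fun s _ => Submodule.smul_mem _ _ (Fg_mem _ s))]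

theorem exists_ap' : ∃ σ, AP c G K Ω (Sds c Ω G.F) σ := h.exists_ap h.sm_sd h.g_sd

end Pc

namespace AP
variable (h : Pc c B G K Ω) (p : AP c G K Ω 𝒮 σ) {F' : Pre I M ι'} {k : ℕ}
include h p

/-- **density of the curvature row in the bundle generated by the seeds** -/
theorem ap_two {𝒯 : Set (M → Fm (ι × ι) c.m.A)}
    (hT : ∀ g, Tf I Ω g → ∀ g', Tf I Ω g' → ∀ f, Tf I Ω f → ∀ w ∈ AWs c Ω G.F 𝒮,
      (fun x => c.m.p2 B x (wg G.F c.m.A g g' x (f x • w x))) ∈ 𝒯) {u : M → Fm (ι × ι) c.m.A}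
    (hu : Sm I u) (hc : HasCompactSupport u) (hs : tsupport u ⊆ Ω ∩ K)
    (hq : ∀ x, c.m.p2 B x (u x) = u x) (hσ : ∀ x ∈ K, ∀ s, σ x (u x s) = u x s) :
    u ∈ Ap F' k 𝒯 := by
  refine mem_two h.hB h.hG.P p.sm p.symm p.idem h.opn (fun g hg g' hg' f hf b => ?_) hu hc hs
    fun x => ?_
  · have hg := hg.mono inter_subset_left
    have hg' := hg'.mono inter_subset_left
    have hT' := h.sm_pw hg.sm hg'.sm
    convert p.loc (F' := F') (k := k) (𝒯' := 𝒯) h.opn hT' (fun f hf w hw => Ap.of_mem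
      (smul_mem_tst hf.sm hf.hcs (hT'.clm_apply (p.smw w hw))) ?_) hf (contMDiff_const (c := b))
      using 3 with x
    · ext1 s
      simp [Md.p2, wg_apply, p.g]
    · simpa only [map_smul, ContinuousLinearMap.comp_apply] using
        hT g hg g' hg' f (hf.mono inter_subset_left) w hw
  · by_cases hx : x ∈ K
    · conv_rhs => rw [← hq x]
      ext1 s
      simp only [Md.p2, idx_apply, hσ x hx]
      exact Finset.sum_congr rfl fun t _ => by rw [← hσ x hx t, p.g]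
    · rw [image_eq_zero_of_notMem_tsupport fun k => hx (hs k).2, map_zero]

variable {π : M → En (Fin c.m.N)}

/-- the projector fixes the quadratic map on the bundle of the spinor words -/
theorem fix_q (q : SP c G K Ω π) (hS : Sds c Ω G.F ⊆ 𝒮) {x : M} (hx : x ∈ K) (a b : c.m.V) :
    σ x (c.m.q x (π x a) (π x b)) = c.m.q x (π x a) (π x b) := by
  have e : ∀ y z u v, ⟪opL (c.m.pg y (z - σ y z)) v, u⟫_ℝ =
      ⟪z, c.m.q y u v - σ y (c.m.q y u v)⟫_ℝ := fun y z u v => by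
    rw [← inner_q, inner_sub_left, inner_sub_right, p.symm]
  refine (sub_eq_zero.1 (ext_inner_left ℝ fun z => ?_)).symm
  rw [← e, ← q.symm, q.orth₂ h.sm_sw (ζ := fun y => opL (c.m.pg y (z - σ y z)))
    (opL.contMDiff.comp ((Std94.sm_pg h.hB h.ok).clm_apply
      (contMDiff_const.sub (p.sm.clm_apply contMDiff_const)))) h.cl.2 Subset.rfl ?_ hx]
  · simp
  · rintro _ ⟨u, hu, rfl⟩ _ ⟨v, hv, rfl⟩ y hy
    have := p.fix _ (seed_mem (hS ⟨.q v u, ⟨hv, hu⟩, rfl⟩)) y hy.1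
    simp only [Cfg.sd] at this
    rw [e, this, sub_self, inner_zero_right]

/-- **(D3)** at a point of type S the projector fixes the reduction -/
theorem fix_xi (q : SP c G K Ω π) (hS : Sds c Ω G.F ⊆ 𝒮) {x : M} (hx : x ∈ K) (h0 : π x ≠ 0)
    {ξ : c.m.A} (hξ : ξ ∈ c.m.gS x) (sq : opL ξ * opL ξ = -c.m.p x)
    (hJ : ∀ a, opL ξ (π x a) = c.m.J (π x a)) : σ x ξ = ξ := by
  obtain ⟨b, hb⟩ : ∃ b, π x b ≠ 0 := by
    by_contra! k
    exact h0 (ContinuousLinearMap.ext k)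
  have e : π x (c.m.J (π x b)) = c.m.J (π x b) := by
    rw [← mul_apply_eq_comp, (q.hf x).J, mul_apply_eq_comp, q.idem]
  have := p.fix_q h q hS hx (c.m.J (π x b)) b
  rw [Abel74.q_eq h.hB h.ok hξ sq (hJ _) (hJ _), map_smul, e] at this
  refine smul_right_injective _ (div_ne_zero (inner_self_ne_zero.2 fun k => hb ?_) (by norm_num)) this
  have := congrArg c.m.J k
  rwa [← mul_apply_eq_comp, h.ok.Jsq, map_zero, neg_apply, neg_eq_zero] at this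

/-- the projector fixes the curvature -/
theorem fix_Fg (hS : ∀ f g g', SdIn I Ω (.cv f g g') → c.sd G.F (.cv f g g') ∈ 𝒮) :
    ∀ x ∈ K, ∀ s, σ x (c.m.Fg G.F c.W x s) = c.m.Fg G.F c.W x s := fun x hx s => by
  have c1 : Fam K (Ω ∩ K) G.F (c.m.adW c.W) ∅ := ⟨h.cl, h.opn, inter_subset_right,
    by rw [sdiff_inter_self_eq_sdiff, h.null], by simp, by simp, by simp⟩
  refine c1.ext (p.sm.clm_apply (h.sm_Fg s)).continuous (h.sm_Fg s).continuous h.cl.2 Subset.rfl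
    (fun x hx => ?_) x hx
  obtain ⟨f, hf, f1⟩ := exists_tf (I := I) (h.opn.mem_nhds hx.2)
  obtain ⟨g, hg, e⟩ := exists_tf_D G.F (h.op.mem_nhds hx.2.1) s.1
  obtain ⟨g', hg', e'⟩ := exists_tf_D G.F (h.op.mem_nhds hx.2.1) s.2
  let w : M → c.m.A := fun y =>
    ∑ t : ι × ι, (f y * G.F.D t.1 g y * G.F.D t.2 g' y) • c.m.Fg G.F c.W y t
  have w0 : ∀ y ∉ tsupport f, w y = 0 := fun y hy => by
    simp [w, image_eq_zero_of_notMem_tsupport hy]
  obtain ⟨a1, -, a2⟩ := h.ra.isRes_tst (w := w) (contMDiff_finsetSum fun t _ => sm_smul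
    ((hf.sm.mul (G.F.sm_D hg.sm _)).mul (G.F.sm_D hg'.sm _)) (h.sm_Fg t))
    (HasCompactSupport.intro hf.hcs w0)
  have a3 := p.fix_rhs h.ra.mc.sm a1 (p.fix_rhs h.ra.mc.sm a2 fun y => by
    by_cases hy : y ∈ K
    · exact p.fix _ (seed_mem (hS f g g' ⟨hf.mono inter_subset_left, hg, hg'⟩)) y hy
    · rw [h.ra.res_off h.cl (h.ra.res_off h.cl fun z hz => w0 z fun k => hz (hf.sub k).2) y hy,
        map_zero]) x
  have a4 : w x = c.m.Fg G.F c.W x s := by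
    have b : ∀ a, ∑ t, B.P s.2 t x • c.m.Fg G.F c.W x (a, t) = c.m.Fg G.F c.W x (a, s.2) :=
      fun a => by
        rw [← neg_inj, ← Fg_swap h.hG h.conn, Prod.swap_prod_mk, ← Fg_proj h.hG h.conn,
          ← Finset.sum_neg_distrib]
        exact Finset.sum_congr rfl fun t _ => by rw [← smul_neg, ← Fg_swap h.hG h.conn]; rfl
    simp only [w, f1, one_smul, e, e', h.hG.P, Fintype.sum_prod_type, mul_smul, ← Finset.smul_sum,
      b, Fg_proj h.hG h.conn]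
  rwa [a4] at a3

end AP

variable {F' : Pre I M ι'} {k : ℕ} {P : Tm M lam r n → Prop} {u : M → Fm (ι × ι) c.m.A}

theorem AP.ap_ad (h : Pc c B G K Ω) (p : AP c G K Ω (Sds c Ω G.F) σ)
    (P3 : ∀ g g' t f l, P (.ad g g' ⟨t, .mul f :: l⟩)) (hu : Sm I u) (hc : HasCompactSupport u) (hs : tsupport u ⊆ Ω ∩ K)
    (hq : ∀ x, c.m.p2 B x (u x) = u x) (hσ : ∀ x ∈ K, ∀ s, σ x (u x s) = u x s) :
    u ∈ Ap F' k (TC c B Ω G.F P) := by
  refine p.ap_two h ?_ hu hc hs hq hσ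
  rintro g hg g' hg' f hf _ ⟨_, ⟨t, ht, rfl⟩, l, hl, rfl⟩
  exact ⟨.ad g g' ⟨t, .mul f :: l⟩, ⟨hg, hg', ht, hl.cons hf⟩, P3 _ _ _ _ _,
    by simp only [Cfg.tC, ← wg_apply]; rfl⟩

/-- **(D4)** curvature row at a point with full holonomy -/
theorem Pc.ap_full (h : Pc c B G K Ω) (hF : Full c G K)
    (P3 : ∀ g g' t f l, P (.ad g g' ⟨t, .mul f :: l⟩)) (hu : Sm I u) (hc : HasCompactSupport u) (hs : tsupport u ⊆ Ω ∩ K)
    (hq : ∀ x, c.m.p2 B x (u x) = u x) : u ∈ Ap F' k (TC c B Ω G.F P) := by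
  obtain ⟨σ, p⟩ := h.exists_ap'
  refine p.ap_ad h P3 hu hc hs hq fun x hx s => ?_
  rw [hF σ p.sm p.symm p.idem p.g p.nabE (p.fix_Fg h fun _ _ _ k => ⟨_, k, rfl⟩) x hx, ← hq x]
  exact pg_of_mem (p2_mem _ s)

end Crest.Agent.X212.Wrd81
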