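import Crest.Agent.X212.Wrd81.Cut
import Crest.Agent.X212.An.Gauge

/-!
# X212 / WORDS, part 12 (helper81): terms with test data supported in an open set.
-/

set_option autoImplicit false
set_option linter.unusedSectionVars false
noncomputable section
open scoped Manifold ContDiff Topology InnerProductSpace
open MeasureTheory Set Function Filter

namespace Crest.Agent.X212.Wrd81
open An Sob92

variable {E : Type} [NormedAddCommGroup E] [NormedSpace ℝ E] [FiniteDimensional ℝ E]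
  [MeasurableSpace E] [BorelSpace E]
  {HM : Type} [TopologicalSpace HM] {I : ModelWithCorners ℝ E HM} [I.Boundaryless]
  {M : Type} [TopologicalSpace M] [ChartedSpace HM M] [IsManifold I ∞ M]
  [MeasurableSpace M] [T2Space M] [BorelSpace M] [SecondCountableTopology M]
  {ι : Type} [Fintype ι] {lam : Type} [Fintype lam] {r n : ℕ}

section defs
variable (I) (Ω : Set M)

/-- test sections of the line -/
structure Tv (s : M → Eu lam) : Prop where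
  sm : Sm I s
  hcs : HasCompactSupport s
  sub : tsupport s ⊆ Ω

def LtIn : Lt M → Prop
  | .mul f => Tf I Ω f
  | .cl g => Tf I Ω g
  | _ => True

def SwIn (w : SW M) : Prop := ∀ t ∈ w, LtIn I Ω t

def LaIn : La M → Prop
  | .mul f => Tf I Ω f
  | .G => True

def LlIn (l : List (La M)) : Prop := ∀ t ∈ l, LaIn I Ω t

def SdIn : Sd M → Prop
  | .q u v => SwIn I Ω u ∧ SwIn I Ω v
  | .cv f g h => Tf I Ω f ∧ Tf I Ω g ∧ Tf I Ω h

def AwIn (ξ : AW M) : Prop := SdIn I Ω ξ.s ∧ LlIn I Ω ξ.l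

def SgIn (g : Sg M lam) : Prop := Tv I Ω g.s ∧ SwIn I Ω g.u ∧ SwIn I Ω g.v

def CoIn : Co M lam r → Prop
  | .z _ => True
  | .s g L => SgIn I Ω g ∧ ∀ g' ∈ L, SgIn I Ω g'

/-- terms all of whose data are test functions in `Ω` and whose value is supported in `Ω` -/
def TmIn : Tm M lam r n → Prop
  | .lin u => SwIn I Ω u ∧ ∃ f w, u = .mul f :: w
  | .anti d s u => CoIn I Ω d ∧ Tv I Ω s ∧ SwIn I Ω u
  | .ad g h ξ => Tf I Ω g ∧ Tf I Ω h ∧ AwIn I Ω ξ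
  | .adj d s g h u v l => CoIn I Ω d ∧ Tv I Ω s ∧ Tf I Ω g ∧ Tf I Ω h ∧ SwIn I Ω u ∧ SwIn I Ω v ∧
      LlIn I Ω l
  | .adn f g h φ L => Tf I Ω f ∧ Tf I Ω g ∧ Tf I Ω h ∧ ContDiff ℝ ∞ φ ∧
      (∃ C, ∀ t, 0 ≤ t → φ t ^ 2 * t ≤ C) ∧ ∀ ξ ∈ L, AwIn I Ω ξ
  | .cut _ _ g => SgIn I Ω g
  | .cz _ _ _ => True

end defs

variable {Ω : Set M} (F : Fr I M ι)

lemma Tf.tv {f : M → ℝ} (h : Tf I Ω f) (s : Eu lam) : Tv I Ω fun x => f x • s :=
  ⟨sm_smul h.sm contMDiff_const, h.hcs.smul_right, (tsupport_smul_subset_left _ _).trans h.sub⟩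

lemma swIn_nil : SwIn I Ω [] := fun _ h => nomatch h

lemma llIn_nil : LlIn I Ω [] := fun _ h => nomatch h

lemma SwIn.cons {t : Lt M} {w : SW M} (h : SwIn I Ω w) (ht : LtIn I Ω t) : SwIn I Ω (t :: w) :=
  List.forall_mem_cons.2 ⟨ht, h⟩

lemma LlIn.cons {t : La M} {l : List (La M)} (h : LlIn I Ω l) (ht : LaIn I Ω t) :
    LlIn I Ω (t :: l) := List.forall_mem_cons.2 ⟨ht, h⟩

lemma Tf.cb {f : M → ℝ} (h : Tf I Ω f) : F.Cb f := Cb_of_hcs h.sm h.hcs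

lemma Tf.cd {f : M → ℝ} (h : Tf I Ω f) : F.Cd f :=
  ⟨h.sm, fun a => Cb_of_hcs (F.sm_D h.sm a) (F.hcs_D h.hcs a)⟩

lemma SwIn.ok {w : SW M} (h : SwIn I Ω w) : SW.OK F w := fun t ht => by
  have := h t ht
  cases t
  exacts [Tf.cb F this, Tf.cd F this, trivial, trivial]

lemma LlIn.ok {l : List (La M)} (h : LlIn I Ω l) : ∀ t ∈ l, La.OK F t := fun t ht => by
  have := h t ht
  cases t
  exacts [Tf.cb F this, trivial]

lemma AwIn.ok {ξ : AW M} (h : AwIn I Ω ξ) : ξ.OK F := by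
  obtain ⟨s, l⟩ := ξ
  refine ⟨?_, h.2.ok F⟩
  cases s
  exacts [⟨h.1.1.ok F, h.1.2.ok F⟩, ⟨h.1.1.cb F, h.1.2.1.cd F, h.1.2.2.cd F⟩]

lemma SgIn.ok {g : Sg M lam} (h : SgIn I Ω g) : g.OK F :=
  ⟨h.1.sm, h.1.hcs, h.2.1.ok F, h.2.2.ok F⟩

lemma CoIn.ok {d : Co M lam r} (h : CoIn I Ω d) : d.OK F := by
  cases d
  exacts [trivial, ⟨h.1.ok F, fun g hg => (h.2 g hg).ok F⟩]

theorem TmIn.ok {T : Tm M lam r n} (h : TmIn I Ω T) : T.OK F := by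
  cases T
  exacts [h.1.ok F, ⟨h.1.ok F, Cb_of_hcs h.2.1.sm h.2.1.hcs, h.2.2.ok F⟩,
    ⟨h.1.cd F, h.2.1.cd F, h.2.2.ok F⟩,
    ⟨h.1.ok F, Cb_of_hcs h.2.1.sm h.2.1.hcs, h.2.2.1.cd F, h.2.2.2.1.cd F, h.2.2.2.2.1.ok F,
      h.2.2.2.2.2.1.ok F, h.2.2.2.2.2.2.ok F⟩,
    ⟨h.1.cb F, h.2.1.cd F, h.2.2.1.cd F, h.2.2.2.1, h.2.2.2.2.1, fun ξ k => (h.2.2.2.2.2 ξ k).ok F⟩,
    SgIn.ok F h, trivial]

omit F in
/-- the values of a term vanish off a compact subset of `Ω`, for all configurations -/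
theorem TmIn.supp {T : Tm M lam r n} (h : TmIn I Ω T) : ∃ K, IsCompact K ∧ K ⊆ Ω ∧
    ∀ (c : Cfg M ι lam r) (B : Base M ι lam) (F : Fr I M ι), ∀ x ∉ K,
      c.tD B F T x = 0 ∧ c.tC B F T x = 0 := by
  have z : ∀ {N : Type} [Zero N] {f : M → N} {x : M}, x ∉ tsupport f → f x = 0 :=
    image_eq_zero_of_notMem_tsupport
  have d : ∀ (F : Fr I M ι) {g : M → ℝ} {x : M}, x ∉ tsupport g → ∀ a, F.D a g x = 0 :=
    fun F g x hx a => z fun k => hx (F.tsupport_D g a k)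
  cases T with
  | lin u =>
    obtain ⟨h, f, w, rfl⟩ := h
    have hf : Tf I Ω f := h _ List.mem_cons_self
    exact ⟨_, hf.hcs, hf.sub, fun c B F x hx =>
      ⟨by simp [Cfg.tD, Cfg.sw, wd, Cfg.lt, z hx], rfl⟩⟩
  | anti d s u => exact ⟨_, h.2.1.hcs, h.2.1.sub, fun c B F x hx =>
      ⟨by simp [Cfg.tD, cs, z hx], rfl⟩⟩
  | ad g k ξ => exact ⟨_, h.1.hcs, h.1.sub, fun c B F x hx =>
      ⟨rfl, by simp [Cfg.tC, d F hx, ← Pi.zero_def]⟩⟩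
  | adj _ s g k u v l => exact ⟨_, h.2.2.1.hcs, h.2.2.1.sub, fun c B F x hx =>
      ⟨rfl, by simp [Cfg.tC, d F hx, ← Pi.zero_def]⟩⟩
  | adn f g k φ L => exact ⟨_, h.1.hcs, h.1.sub, fun c B F x hx =>
      ⟨rfl, by simp [Cfg.tC, z hx, ← Pi.zero_def]⟩⟩
  | cut => exact ⟨∅, isCompact_empty, empty_subset _, fun _ _ _ _ _ => ⟨rfl, rfl⟩⟩
  | cz => exact ⟨∅, isCompact_empty, empty_subset _, fun _ _ _ _ _ => ⟨rfl, rfl⟩⟩

omit F in
/-- every term is fixed by a test function -/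
theorem TmIn.loc (hΩ : IsOpen Ω) {T : Tm M lam r n} (h : TmIn I Ω T) : ∃ f, Tf I Ω f ∧
    ∀ (c : Cfg M ι lam r) (B : Base M ι lam) (F : Fr I M ι) (x : M),
      f x • c.tD B F T x = c.tD B F T x ∧ f x • c.tC B F T x = c.tC B F T x := by
  obtain ⟨K, h1, h2, h3⟩ := h.supp (ι := ι)
  obtain ⟨f, hf, f1⟩ := exists_tf_one (I := I) h1 hΩ h2
  refine ⟨f, hf, fun c B F x => ?_⟩
  by_cases hx : x ∈ K
  · simp [f1 x hx]
  · simp [h3 c B F x hx]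

end Crest.Agent.X212.Wrd81
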