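import Crest.Agent.X212.Wrd81.Cut
import Crest.Agent.X212.Map77.Qm

/-!
# X212 / WORDS, part 15 (helper81): the cokernel of an elliptic operator is seen in every open set
of full measure.
-/

set_option autoImplicit false
set_option linter.unusedSectionVars false
noncomputable section
open scoped Manifold ContDiff Topology InnerProductSpace
open MeasureTheory Set Function Filter

namespace Crest.Agent.X212.Wrd81
open An Sob92 Ell97 Map77

/-- a closed subspace which contains the range and is dense at the lowest level is everything -/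
theorem pair_top {X Y : ℕ → Type*} [∀ k, NormedAddCommGroup (X k)] [∀ k, InnerProductSpace ℝ (X k)]
    [∀ k, NormedAddCommGroup (Y k)] [∀ k, InnerProductSpace ℝ (Y k)] [∀ k, CompleteSpace (X k)]
    [∀ k, CompleteSpace (Y k)] (P : Pair X Y) (k : ℕ) (N : Submodule ℝ (Y k))
    (hc : IsClosed (N : Set (Y k))) (hL : ∀ u, P.L k u ∈ N)
    (hd : ∀ U : Submodule ℝ (Y 0), IsClosed (U : Set (Y 0)) → (∀ y ∈ N, dn0 P.j k y ∈ U) →
      ∀ z, z ∈ U) (y : Y k) : y ∈ N := by
  induction k with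
  | zero => exact hd N hc (fun _ h => h) y
  | succ k ih =>
    let R := P.j (k + 1) ∘L P.swap.G k
    have a : ∀ y, R (P.j k y) + P.L (k + 1) (P.Ls (k + 2) (P.swap.G (k + 1) y)) = y := fun y =>
      (congrArg (fun z => P.j (k + 1) z + _) (P.swap.G_i k y)).trans (P.swap.Q_G (k + 1) y)
    have b := ih (N.comap (R : Y k →ₗ[ℝ] Y (k + 1))) (hc.preimage R.continuous) (fun u => by
      obtain ⟨w, rfl⟩ := P.surjX (k + 1) u
      have : P.L k (P.i (k + 1) (P.i (k + 2) w) + P.Ls (k + 1) (P.L (k + 2) w)) =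
          P.swap.Q k (P.L (k + 2) w) := by
        rw [map_add, ← P.Li, ← P.Li]; rfl
      change P.j (k + 1) (P.swap.G k _) ∈ N
      rw [this, Half.G_Q, P.Li]
      exact hL _) (fun U hU h => hd U hU fun y hy =>
        h (P.j k y) ((N.add_mem_iff_left (hL _)).1 ((a y).symm ▸ hy))) (P.j k y)
    exact a y ▸ add_mem b (hL _)

variable {E : Type} [NormedAddCommGroup E] [NormedSpace ℝ E] [FiniteDimensional ℝ E]
  [MeasurableSpace E] [BorelSpace E]
  {HM : Type} [TopologicalSpace HM] {I : ModelWithCorners ℝ E HM} [I.Boundaryless]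
  {M : Type} [TopologicalSpace M] [ChartedSpace HM M] [IsManifold I ∞ M]
  [MeasurableSpace M] [T2Space M] [BorelSpace M] [SecondCountableTopology M]
  {ι : Type} [Fintype ι] {ι' : Type} [Fintype ι']
  {V : Type} [NormedAddCommGroup V] [InnerProductSpace ℝ V] [FiniteDimensional ℝ V]
  {W : Type} [NormedAddCommGroup W] [InnerProductSpace ℝ W] [FiniteDimensional ℝ W]
  {k : ℕ} {Ω : Set M} {p : M → V →L[ℝ] V} {q : M → W →L[ℝ] W}

/-- null sets do not depend on the frame -/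
lemma null_frame (F : Pre I M ι) (F' : Pre I M ι') {S : Set M} (h : F.μ S = 0) : F'.μ S = 0 :=
  measure_null_of_locally_null S fun x _ => by
    obtain ⟨O, hO, c, hc⟩ := Prm93.meas_le_loc F F' x
    refine ⟨S ∩ O, inter_mem_nhdsWithin S hO, nonpos_iff_eq_zero.1 ?_⟩
    rw [← Measure.restrict_eq_self _ inter_subset_right]
    exact (hc _).trans (by simp [measure_mono_null inter_subset_left h])

/-- the closure of the sections supported in `Ω` -/
def HO (F : Pre I M ι) (k : ℕ) (q : M → W →L[ℝ] W) (Ω : Set M) : Submodule ℝ (F.H k q) :=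
  SpH F k q {u | tsupport u ⊆ Ω}

section
variable {F : Pre I M ι}

lemma isClosed_HO : IsClosed (HO F k q Ω : Set (F.H k q)) := isClosed_cl _

lemma toH_mem_HO (u : Sec I q) (h : tsupport u.1 ⊆ Ω) : F.toH k q u ∈ HO F k q Ω :=
  mem_cl ⟨u, h, rfl⟩

lemma HO_map {Z : Type*} [NormedAddCommGroup Z] [NormedSpace ℝ Z] {N : Submodule ℝ Z}
    (hN : IsClosed (N : Set Z)) (L : F.H k q →L[ℝ] Z)
    (h : ∀ u : Sec I q, tsupport u.1 ⊆ Ω → L (F.toH k q u) ∈ N) {y : F.H k q}
    (hy : y ∈ HO F k q Ω) : L y ∈ N :=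
  cl_le (U := N.comap (L : F.H k q →ₗ[ℝ] Z)) (hN.preimage L.continuous)
    (by rintro _ ⟨u, hu, rfl⟩; exact h u hu) hy

lemma smulH_mem_HO {g : M → ℝ} (hg : F.Cb g) (hs : tsupport g ⊆ Ω) (y : F.H k q) :
    smulH F k q g y ∈ HO F k q Ω := by
  induction y using H_ind with
  | hP => exact isClosed_HO.preimage (smulH F k q g).continuous
  | h u =>
    rw [RepT_toH (rep_smulH hg)]
    exact toH_mem_HO _ ((tsupport_smul_subset_left _ _).trans hs)

lemma tsupport_app {N N' : Type} [NormedAddCommGroup N] [NormedSpace ℝ N] [NormedAddCommGroup N']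
    [NormedSpace ℝ N'] (T : M → N →L[ℝ] N') (u : M → N) :
    tsupport (fun x => T x (u x)) ⊆ tsupport u := closure_mono fun x hx e => hx (by simp [e])

lemma tsupport_sec {K : Set M} (hK : IsClosed K) (h : ∀ x ∉ K, q x = 0) (u : Sec I q) :
    tsupport u.1 ⊆ K := closure_minimal (fun x hx => by_contra fun k => hx (by
      rw [← u.2.2.2 x, h x k, zero_apply])) hK

lemma HO_top {K : Set M} (hK : IsClosed K) (h : ∀ x ∉ K, q x = 0) (hΩ : K ⊆ Ω) (y : F.H k q) :
    y ∈ HO F k q Ω := by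
  induction y using H_ind with
  | hP => exact isClosed_HO
  | h u => exact toH_mem_HO u ((tsupport_sec hK h u).trans hΩ)

lemma HO_zero (hΩ : IsOpen Ω) (h0 : F.μ Ωᶜ = 0) (hq : F.Cb q) (hi : ∀ x v, q x (q x v) = q x v)
    (y : F.H 0 q) : y ∈ HO F 0 q Ω := by
  have hL := rep_mulH (k := 0) hq (Maps.of_left (p := triv M W) (q := q) hi)
  have h1 : HO F 0 (triv M W) Ω = ⊤ := by
    have := isClosed_HO (F := F) (k := 0) (q := triv M W) (Ω := Ω) |>.completeSpace_coe
    exact Submodule.orthogonal_eq_bot_iff.1 (eq_bot_iff.2 fun z hz =>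
      (l2d W F).eq_zero_of_orth hΩ h0 fun φ hφ => hz _ (toH_mem_HO φ hφ))
  induction y using H_ind with
  | hP => exact isClosed_HO
  | h u =>
    rw [← RepT_toH' hL ⟨u.1, mem_tst u.2.1 u.2.2.1⟩ u (funext u.2.2.2)]
    refine HO_map isClosed_HO _ (fun v hv => ?_) (h1 ▸ Submodule.mem_top)
    rw [RepT_toH hL]
    exact toH_mem_HO _ ((tsupport_app _ _).trans hv)

end

variable {F : Fr I M ι'} {G : Fr I M ι}

theorem cok0 {C C' : ℕ → ℝ} {A : Op M ι V W} (h1 : G.Tame C) (h2 : A.Good G C') (hc : A.Cliff G)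
    (hΩ : IsOpen Ω) (h0 : G.μ Ωᶜ = 0) {N : Submodule ℝ (G.H k A.q)}
    (hN : IsClosed (N : Set (G.H k A.q))) (hL : ∀ x, A.H G k x ∈ N)
    (hT : ∀ w : Sec I A.q, tsupport w.1 ⊆ Ω → G.toH k _ w ∈ N) (y : G.H k A.q) : y ∈ N := by
  refine pair_top (Ell97.pair (Ell97.reg V G) (Ell97.reg W G) h1 h2 hc) k N hN hL
    (fun U hU h z => HO_map hU (.id ℝ _) (fun u hu => ?_)
      (HO_zero hΩ h0 ⟨_, h2.q.cb⟩ (fun x v => h2.q.idem x v) z)) y
  rw [ContinuousLinearMap.id_apply, ← incl_toH (Nat.zero_le k), ← dn0_incl]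
  exact h _ (hT u hu)

/-- **Cokernel lemma.** -/
theorem cok (h : Tw F G) {A : Op M ι V W} (hA : Nc F.toPre G.P A) (hc : A.Cliff G) (e1 : A.p = p)
    (e2 : A.q = q) (hΩ : IsOpen Ω) (h0 : G.μ Ωᶜ = 0) {N : Submodule ℝ (F.H k q)}
    (hN : IsClosed (N : Set (F.H k q))) (hL : ∀ x, LH F.toPre G.toPre k p q A x ∈ N)
    (hT : ∀ w : Sec I q, tsupport w.1 ⊆ Ω → F.toH k _ w ∈ N) (y : F.H k q) : y ∈ N := by
  subst e1 e2
  obtain ⟨C, h1, h2⟩ := h.good hA
  let e : G.H k A.q →L[ℝ] F.H k A.q := (Prm93.chg k A.q h.cmp).symm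
  have := cok0 h1 h2 hc hΩ h0 (N := N.comap (e : G.H k A.q →ₗ[ℝ] F.H k A.q))
    (hN.preimage e.continuous) (fun x => ?_) (fun w hw => ?_) (Prm93.chg k A.q h.cmp y)
  · simpa [e] using this
  · simpa [e, h.conj hA k] using hL ((Prm93.chg (k + 1) A.p h.cmp).symm x)
  · simpa [e, ← Prm93.chg_toH h.cmp] using hT w hw

/-- the cokernel of the linearised monopole equations -/
theorem cok_lin {κ : Type} [Fintype κ] [DecidableEq κ] {d : Bd M ι κ} (h : d.Hy F G)
    {u : M → Cf ι κ} (hu : F.Cb u) (hΩ : IsOpen Ω) (h0 : G.μ Ωᶜ = 0)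
    {N : Submodule ℝ (F.H k d.pE)} (hN : IsClosed (N : Set (F.H k d.pE)))
    (hL : ∀ x, d.LL F.toPre G k u x ∈ N)
    (hT : ∀ w : Sec I d.pE, tsupport w.1 ⊆ Ω → F.toH k _ w ∈ N) (y : F.H k d.pE) : y ∈ N := by
  let e := sH F.toPre k d.g d.pE
  have := cok (p := d.pC) (q := ps d.g d.pE) h.toTw (h.nc_full hu) (h.cliff_full h.P u) rfl rfl hΩ
    h0 (N := N.comap e.toLinearMap) (hN.preimage e.continuous) (fun x => ?_) (fun w hw => ?_)
    (iH2 F.toPre k d.g d.pE y)
  · simpa [e] using this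
  · simpa [e, h.FF_eq hu x] using hL x
  · rw [Submodule.mem_comap, ContinuousLinearMap.coe_coe, RepT_toH rep_sH]
    exact hT _ ((tsupport_app (fun _ => s2 (HS κ) (Ef ι κ)) w.1).trans hw)

end Crest.Agent.X212.Wrd81
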