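import Crest.Agent.X212.Wrd81.Adj
import Crest.Agent.X212.Wrd81.Cok
import Crest.Agent.X212.Map77.Rp
import Crest.Agent.X212.Mod61.Hs

/-!
# X212 / WORDS, part 16 (helper81): the terms in the Banach model.
-/

set_option autoImplicit false
set_option linter.unusedSectionVars false
noncomputable section
open scoped Manifold ContDiff Topology InnerProductSpace
open MeasureTheory Set Function Filter

namespace Crest.Agent.X212.Wrd81
open An Sob92 Mod61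

variable {E : Type} [NormedAddCommGroup E] [NormedSpace ℝ E] [FiniteDimensional ℝ E]
  [MeasurableSpace E] [BorelSpace E]
  {HM : Type} [TopologicalSpace HM] {I : ModelWithCorners ℝ E HM} [I.Boundaryless]
  {M : Type} [TopologicalSpace M] [ChartedSpace HM M] [IsManifold I ∞ M]
  [MeasurableSpace M] [T2Space M] [BorelSpace M] [SecondCountableTopology M]
  {ι : Type} [Fintype ι] {lam : Type} [Fintype lam]
  {T : Type} [NormedAddCommGroup T] [NormedSpace ℝ T] {r n : ℕ}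

/-- the terms needed for density -/
def Bas : Tm M lam r n → Prop
  | .ad _ _ ξ => ∃ f l, ξ.l = .mul f :: l
  | .adn .. => False
  | _ => True

/-- one term as a perturbation -/
def tmX (𝔉 : Mod61.Fam I M ι lam T) (m : ℕ) (τ : Tm M lam r n) (t : T) : PtX M ι lam r n m :=
  ⟨⟨fun c => c.tD 𝔉.B (𝔉.G t).F τ, fun c => c.tC 𝔉.B (𝔉.G t).F τ, fun c => c.tS (𝔉.G t).F τ⟩,
    fun _ => 0⟩

variable {𝔉 : Mod61.Fam I M ι lam T} {o : Ref 𝔉} {m k : ℕ} {Ω K : Set M}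

variable (o Ω n m k) in
/-- equations supported in `Ω` -/
def Lc : Submodule ℝ (o.Y n m k) :=
  (HO 𝔉.F0.toPre k o.Pm Ω).prod ((HO 𝔉.F0.toPre k o.P2 Ω).prod ⊤)

lemma mem_Lc {e : o.Y n m k} :
    e ∈ Lc n o m k Ω ↔ e.1 ∈ HO 𝔉.F0.toPre k o.Pm Ω ∧ e.2.1 ∈ HO 𝔉.F0.toPre k o.P2 Ω := by
  simp [Lc]

variable (n Ω) in
/-- the hypotheses of the density theorem at a smooth point -/
structure Den (y : Pnt o r) : Prop where
  op : IsOpen Ω
  null : 𝔉.F0.μ (𝔉.Om \ Ω) = 0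
  ne : ∀ x ∈ 𝔉.Om', ∃ x' ∈ connectedComponent x, y.cfg.Φ x' ≠ 0
  co : (𝔉.Om' = ∅ ∧ n = 0) ∨ ∃ d, CoIn I Ω d ∧ y.cfg.co (𝔉.G y.t).F d ≠ 0
  full : Full y.cfg (𝔉.G y.t) (𝔉.Om \ 𝔉.Om')

variable (Ω) in
/-- `N` contains the values of the terms at `y` -/
def Has (y : Pnt o r) (N : Submodule ℝ (o.Y n m k)) : Prop :=
  ∀ τ : Tm M lam r n, TmIn I Ω τ → Bas τ → ∀ e, RepE (tmX 𝔉 m τ) y e → e ∈ N

lemma off_P2 {x : M} (hx : x ∉ 𝔉.Om) : o.P2 x = 0 := by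
  ext1 v; ext1 s; simp [Ref.P2, Ref.Pg, hx, Wz78.idx_apply]

lemma on_P2 {x : M} (hx : x ∈ 𝔉.Om) : o.P2 x = o.m.p2 𝔉.B x := by
  rw [Ref.P2, Ref.Pg, indicator_of_mem hx, Md.p2]

variable (h : 𝔉.OK) {y : Pnt o r}
include h

theorem pc (y : Pnt o r) (hK : IsClopen K) (hΩ : IsOpen Ω) (h0 : 𝔉.F0.μ (K \ Ω) = 0) :
    Pc y.cfg 𝔉.B (𝔉.G y.t) K Ω := by
  have a := y.ad0 h
  obtain ⟨C, hC⟩ := h.tameG _ y.ht
  have b := rh_conn (h.G _ y.ht) hC a.conn fun a =>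
    (h.mix _ y.ht).Cb (fun a b => (h.sS a b).cb _ y.ht) (by
      have := Cb_clm (Map77.oa a) (Map77.cb_uy h y)
      simp only [Map77.uy, Map77.oa_base] at this
      exact this)
  exact ⟨h.B, h.G _ y.ht, a.ok, a.conn, a.sm, fun x => by
    rw [← a.pos x, ← mul_apply_eq_comp, Wz78.p_pp a.ok], b.1, b.2, hK, hΩ, null_frame _ _ h0⟩

variable (D : Den n Ω y) {N : Submodule ℝ (o.Y n m k)} (hN : IsClosed (N : Set (o.Y n m k)))
  (hT : Has Ω y N) (hk : 4 ≤ k)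
include D

lemma Den.pc' : Pc y.cfg 𝔉.B (𝔉.G y.t) 𝔉.Om' Ω :=
  pc h y h.Om' D.op (measure_mono_null (sdiff_subset_sdiff_left h.sub) D.null)

include hN hT hk

/-- the Dirac row -/
theorem Den.exp_D {a : 𝔉.F0.H k o.Pm} (ha : a ∈ HO 𝔉.F0.toPre k o.Pm Ω) : (a, 0) ∈ N := by
  let L : 𝔉.F0.H k o.Pm →L[ℝ] o.Y n m k := .inl ℝ _ _
  refine HO_map hN L (fun u hu => ?_) ha
  have s := tsupport_sec h.Om'.1 (fun x hx => indicator_of_notMem hx _) u
  rcases D.co with d | ⟨d, d1, d2⟩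
  · obtain rfl : u = 0 := Subtype.ext (tsupport_eq_empty_iff.1 (subset_eq_empty s d.1))
    simpa only [map_zero] using zero_mem N
  obtain ⟨π, p⟩ := (D.pc' h).exists_sp
  have hi := (Map77.ok_bd o h).sm.idem
  have i2 := fun x v => congrArg (fun S : En (Fin o.m.N) => S v) (Wz78.pm_pm h.B o.ok x)
  refine Ap.map_H (rep_mulH (h.cPm o) (Maps.of_left hi)) (U := N.comap L.toLinearMap)
    (hN.preimage L.continuous) ?_ (p.ap_D (F' := 𝔉.F0.toPre) (k := k)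
      (P := fun τ : Tm M lam r n => Bas τ ∧ (∀ x, o.m.pm 𝔉.B x ((tmX 𝔉 m τ y.t).D y.cfg x) =
        (tmX 𝔉 m τ y.t).D y.cfg x) ∧ (tmX 𝔉 m τ y.t).C y.cfg = 0 ∧ (tmX 𝔉 m τ y.t).S y.cfg = 0)
      (D.pc' h) (p.ne_zero D.ne h.Om') d1 d2 ?_ ?_ u.2.1 u.2.2.1 (subset_inter hu s)
      fun x => ind_fix (u.2.2.2 x)) u (funext u.2.2.2).symm
  · rintro _ ⟨τ, t1, ⟨t2, t3, t4, t5⟩, rfl⟩ - w hw
    refine hT τ t1 t2 _ ⟨(val_toH h.sup hk w).trans (hw.trans (funext fun x => ?_)), ?_, t5.symm, rfl⟩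
    · by_cases hx : x ∈ 𝔉.Om'
      · rw [Ref.Pm, indicator_of_mem hx, indicator_of_mem hx]; exact t3 x
      · rw [Ref.Pm, indicator_of_notMem hx, indicator_of_notMem hx]; rfl
    · rw [t4, indicator_zero']; exact val_zero
  · exact fun u => ⟨trivial, fun x => i2 x _, rfl, rfl⟩
  · exact fun s u => ⟨trivial, fun x => i2 x _, rfl, rfl⟩

/-- the curvature row -/
theorem Den.exp_C {b : 𝔉.F0.H k o.P2} (hb : b ∈ HO 𝔉.F0.toPre k o.P2 Ω) : (0, b, 0) ∈ N := by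
  let L : 𝔉.F0.H k o.P2 →L[ℝ] o.Y n m k := .inr ℝ _ _ ∘L .inl ℝ _ _
  refine HO_map hN L (fun u hu => ?_) hb
  have s := tsupport_sec h.Om.1 (fun x hx => off_P2 hx) u
  have hi := ((Map77.ok_bd o h).prj2).idem
  have i2 := Std94.p2_p2 (m := o.m) h.B
  let P := fun τ : Tm M lam r n => Bas τ ∧ (∀ x, o.m.p2 𝔉.B x ((tmX 𝔉 m τ y.t).C y.cfg x) =
    (tmX 𝔉 m τ y.t).C y.cfg x) ∧ (tmX 𝔉 m τ y.t).D y.cfg = 0 ∧ (tmX 𝔉 m τ y.t).S y.cfg = 0
  have P3 : ∀ g g' t f l, P (.ad g g' ⟨t, .mul f :: l⟩) := fun _ _ _ _ _ =>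
    ⟨⟨_, _, rfl⟩, fun x => i2 x _, rfl, rfl⟩
  have c : ∀ {K}, IsClopen K → Sm I (K.indicator u.1) ∧ HasCompactSupport (K.indicator u.1) ∧
      tsupport (K.indicator u.1) ⊆ Ω ∩ K ∧
      ∀ x, o.m.p2 𝔉.B x (K.indicator u.1 x) = K.indicator u.1 x := fun {K} hK => by
    have e : support (K.indicator u.1) ⊆ K ∩ support u.1 := support_indicator.subset
    refine ⟨Eqv71.sm_ind hK fun x _ => u.2.1 x, u.2.2.1.mono (e.trans inter_subset_right),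
      subset_inter ((closure_mono (e.trans inter_subset_right)).trans hu)
        (closure_minimal (e.trans inter_subset_left) hK.1), fun x => ?_⟩
    by_cases hx : x ∈ K ∧ x ∈ 𝔉.Om
    · rw [indicator_of_mem hx.1, ← on_P2 hx.2, u.2.2.2]
    · rw [notMem_support.1 fun k => hx ⟨(e k).1, s (subset_closure (e k).2)⟩, map_zero]
  refine Ap.map_H (𝒯 := TC y.cfg 𝔉.B Ω (𝔉.G y.t).F P) (rep_mulH (h.cP2 o) (Maps.of_left hi))
    (U := N.comap L.toLinearMap) (hN.preimage L.continuous) ?_ ?_ u (funext u.2.2.2).symm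
  · rintro _ ⟨τ, t1, ⟨t2, t3, t4, t5⟩, rfl⟩ - w hw
    refine hT τ t1 t2 _ ⟨?_, (val_toH h.sup hk w).trans (hw.trans (funext fun x => ?_)), t5.symm, rfl⟩
    · rw [t4, indicator_zero']; exact val_zero
    · by_cases hx : x ∈ 𝔉.Om
      · rw [on_P2 hx, indicator_of_mem hx]; exact t3 x
      · rw [off_P2 hx, indicator_of_notMem hx]; rfl
  have e : u.1 = 𝔉.Om'.indicator u.1 + (𝔉.Om \ 𝔉.Om').indicator u.1 := by
    rw [Pi.add_def, ← indicator_union_of_disjoint disjoint_sdiff_right, union_sdiff_cancel h.sub,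
      indicator_eq_self.2 (subset_closure.trans s)]
  rw [e]
  refine add_mem ?_ ?_
  · rcases D.co with d | ⟨d, d1, d2⟩
    · rw [d.1, indicator_empty']; exact zero_mem _
    obtain ⟨π, p⟩ := (D.pc' h).exists_sp
    obtain ⟨c1, c2, c3, c4⟩ := c h.Om'
    exact p.ap_C (D.pc' h) (p.ne_zero D.ne h.Om') d1 d2 (fun _ _ _ _ _ => P3 _ _ _ _ _)
      (fun _ _ _ _ _ => ⟨trivial, fun x => i2 x _, rfl, rfl⟩) c1 c2 c3 c4
  · obtain ⟨c1, c2, c3, c4⟩ := c (h.Om.diff h.Om')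
    exact (pc h y (h.Om.diff h.Om') D.op (measure_mono_null (sdiff_subset_sdiff_left sdiff_subset)
      D.null)).ap_full D.full P3 c1 c2 c3 c4

omit h hN hk in
/-- the scalar rows -/
theorem Den.exp_S (s : Fin n → ℂ) : (0, 0, s, 0) ∈ N := by
  rcases D.co with d | ⟨d, d1, d2⟩
  · obtain rfl : s = 0 := funext fun i => (d.2 ▸ i).elim0
    exact zero_mem _
  have a : ∀ i w, ((0, 0, Pi.single i w, 0) : o.Y n m k) ∈ N := fun i w => by
    have z : ∀ {τ : Tm M lam r n}, TmIn I Ω τ → Bas τ → (tmX 𝔉 m τ y.t).D y.cfg = 0 →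
        (tmX 𝔉 m τ y.t).C y.cfg = 0 → ((0, 0, (tmX 𝔉 m τ y.t).S y.cfg, 0) : o.Y n m k) ∈ N :=
      fun t1 t2 t3 t4 => hT _ t1 t2 _ ⟨by rw [t3, indicator_zero']; exact val_zero,
        by rw [t4, indicator_zero']; exact val_zero, rfl, rfl⟩
    cases d with
    | z j => exact div_mul_cancel₀ w d2 ▸ z (τ := .cz i _ j) trivial trivial rfl rfl
    | s g L =>
      exact div_mul_cancel₀ w (div_ne_zero_iff.1 d2).1 ▸ z (τ := .cut i _ g) d1.1 trivial rfl rfl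
  have e : ((0, 0, s, 0) : o.Y n m k) = ∑ i, (0, 0, Pi.single i (s i), 0) := by
    simp [Prod.ext_iff, Prod.fst_sum, Prod.snd_sum, Finset.univ_sum_single]
  exact e ▸ sum_mem fun i _ => a i _

theorem Den.lc_le (hR : ∀ ρ, ∃ e ∈ N, e ∈ Lc n o m k Ω ∧ e.2.2.2 = ρ) : Lc n o m k Ω ≤ N := by
  intro e he
  obtain ⟨e', h1, h2, h3⟩ := hR e.2.2.2
  obtain ⟨h4, h5⟩ := mem_Lc.1 (sub_mem he h2)
  convert add_mem (add_mem (add_mem (D.exp_D h hN hT hk h4) (D.exp_C h hN hT hk h5))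
    (D.exp_S hT (e - e').2.2.1)) h1 using 1
  simp [Prod.ext_iff, h3]

end Crest.Agent.X212.Wrd81
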