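import Crest.Agent.X212.Sard93.Smale

/-!
# X212 / WORDS, part 2 (helper81): finitely many perturbation terms suffice, format-free.

* `exists_finset_top` : closed range of finite codimension + dense span of terms ⇒ finitely many
  terms span a complement;
* `pert`              : the perturbed equation `Φ x + ∑ p i • τ i x`, smooth, with onto derivative;
* `generic_near`      : generic small coefficients make all zeros near a compact set regular;
* `levels`            : the induction over levels / faces.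
-/

set_option autoImplicit false
set_option linter.unusedSectionVars false
open scoped ContDiff Topology
open Set Filter Function

noncomputable section
namespace Crest.Agent.X212.Wrd81

open Crest.Agent.X212.Sard93

variable {E F : Type*} [NormedAddCommGroup E] [NormedSpace ℝ E] [NormedAddCommGroup F]
  [NormedSpace ℝ F]

/-- a closed subspace of finite codimension and a family with dense joint span: finitely many
members of the family span a complement -/
theorem exists_finset_top {J : Type*} (R : Submodule ℝ F) (hR : IsClosed (R : Set F))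
    [FiniteDimensional ℝ (F ⧸ R)] (v : J → F)
    (hd : Dense ((R ⊔ Submodule.span ℝ (range v) : Submodule ℝ F) : Set F)) :
    ∃ s : Finset J, R ⊔ Submodule.span ℝ (v '' s) = ⊤ := by
  classical
  have := hR
  let ρ : F →L[ℝ] F ⧸ R := R.mkQL
  let N : Submodule ℝ (F ⧸ R) := Submodule.span ℝ (range fun j => ρ (v j))
  have hN : N = ⊤ := by
    have hc : IsClosed (N : Set (F ⧸ R)) := N.closed_of_finiteDimensional
    have h1 : (R ⊔ Submodule.span ℝ (range v) : Submodule ℝ F) ≤ N.comap (ρ : F →ₗ[ℝ] F ⧸ R) := by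
      refine sup_le (fun x hx => ?_) (Submodule.span_le.2 ?_)
      · have : ρ x = 0 := (Submodule.Quotient.mk_eq_zero _).2 hx
        change ρ x ∈ N
        rw [this]; exact N.zero_mem
      · rintro _ ⟨j, rfl⟩
        exact Submodule.subset_span ⟨j, rfl⟩
    have h2 : ∀ x, ρ x ∈ N := fun x =>
      closure_minimal h1 (hc.preimage ρ.continuous) (hd x)
    rw [eq_top_iff]
    intro c _
    obtain ⟨x, rfl⟩ := R.mkQ_surjective c
    exact h2 x
  have hfg : (⊤ : Submodule ℝ (F ⧸ R)).FG := Module.Finite.fg_top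
  obtain ⟨b, hb⟩ := hfg
  have hmem : ∀ c ∈ b, ∃ t : Finset J, c ∈ Submodule.span ℝ ((fun j => ρ (v j)) '' t) := by
    intro c _
    have : c ∈ N := hN ▸ Submodule.mem_top
    obtain ⟨T, hT, hc⟩ := Submodule.mem_span_finite_of_mem_span this
    rw [← image_univ] at hT
    obtain ⟨t, ht⟩ := Finset.subset_set_image_iff.1 hT
    exact ⟨t, by rw [← ht.2] at hc; simpa using hc⟩
  choose! t ht using hmem
  refine ⟨b.biUnion t, ?_⟩
  rw [eq_top_iff]
  intro x _
  have h3 : ρ x ∈ (Submodule.span ℝ (v '' (b.biUnion t : Finset J))).map (ρ : F →ₗ[ℝ] F ⧸ R) := by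
    have : (⊤ : Submodule ℝ (F ⧸ R)) ≤
        (Submodule.span ℝ (v '' (b.biUnion t : Finset J))).map (ρ : F →ₗ[ℝ] F ⧸ R) := by
      rw [← hb, Submodule.span_le, Submodule.map_span]
      intro c hc
      refine Submodule.span_mono ?_ (ht c hc)
      rintro _ ⟨j, hj, rfl⟩
      exact ⟨v j, ⟨j, by simpa using ⟨c, hc, hj⟩, rfl⟩, rfl⟩
    exact this Submodule.mem_top
  obtain ⟨y, hy, hxy⟩ := h3
  have : x - y ∈ R := (Submodule.Quotient.eq R).1 hxy.symm
  have e : x = (x - y) + y := by abel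
  rw [e]
  exact Submodule.add_mem_sup this hy

section pert
variable {ι : Type*} [Fintype ι]

/-- the perturbed equation -/
def pert (Φ : E → F) (τ : ι → E → F) (z : E × (ι → ℝ)) : F := Φ z.1 + ∑ i, z.2 i • τ i z.1

lemma pert_zero (Φ : E → F) (τ : ι → E → F) (x : E) : pert Φ τ (x, 0) = Φ x := by
  simp [pert]

lemma contDiffOn_pert {U : Set E} {Φ : E → F} {τ : ι → E → F} (hΦ : ContDiffOn ℝ ∞ Φ U)
    (hτ : ∀ i, ContDiffOn ℝ ∞ (τ i) U) : ContDiffOn ℝ ∞ (pert Φ τ) (U ×ˢ univ) := by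
  have h1 : MapsTo (Prod.fst : E × (ι → ℝ) → E) (U ×ˢ univ) U := fun z hz => hz.1
  refine (hΦ.comp contDiffOn_fst h1).add (ContDiffOn.sum fun i _ => ?_)
  exact (((contDiff_apply ℝ ℝ i).comp contDiff_snd).contDiffOn).smul
    ((hτ i).comp contDiffOn_fst h1)

lemma fderiv_pert_inr {Φ : E → F} {τ : ι → E → F} {z : E × (ι → ℝ)}
    (h : DifferentiableAt ℝ (pert Φ τ) z) (q : ι → ℝ) :
    fderiv ℝ (pert Φ τ) z (0, q) = ∑ i, q i • τ i z.1 := by
  obtain ⟨x, p⟩ := z
  let M : (ι → ℝ) →L[ℝ] F := ∑ i, (ContinuousLinearMap.proj i).smulRight (τ i x)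
  have hM : ∀ r, M r = ∑ i, r i • τ i x := fun r => by simp [M]
  have h1 : HasFDerivAt (fun r => pert Φ τ (x, r)) M p := by
    have : (fun r => pert Φ τ (x, r)) = fun r => Φ x + M r := by
      funext r; rw [hM]; rfl
    rw [this]
    exact M.hasFDerivAt.const_add _
  have h2 := h.hasFDerivAt.comp p (hasFDerivAt_prodMk_right x p)
  have h3 := h2.unique h1
  rw [← hM, ← h3]
  rfl

/-- the derivative of the perturbed equation is onto where the terms span a complement -/
lemma surj_pert {Φ : E → F} {τ : ι → E → F} {z : E × (ι → ℝ)}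
    (h : DifferentiableAt ℝ (pert Φ τ) z)
    (hs : (dE (pert Φ τ) z).range ⊔ Submodule.span ℝ (range fun i => τ i z.1) = ⊤) :
    Surjective (fderiv ℝ (pert Φ τ) z) := by
  intro f
  have : f ∈ (dE (pert Φ τ) z).range ⊔ Submodule.span ℝ (range fun i => τ i z.1) :=
    hs ▸ Submodule.mem_top
  obtain ⟨a, ⟨ξ, rfl⟩, b, hb, rfl⟩ := Submodule.mem_sup.1 this
  obtain ⟨q, rfl⟩ := (Submodule.mem_span_range_iff_exists_fun ℝ).1 hb
  refine ⟨(ξ, q), ?_⟩
  have e : ((ξ, q) : E × (ι → ℝ)) = (ξ, 0) + (0, q) := by simp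
  rw [e, map_add, fderiv_pert_inr h]
  rfl

lemma dE_pert_zero {U : Set E} (hU : IsOpen U) {Φ : E → F} {τ : ι → E → F}
    (hΦ : ContDiffOn ℝ ∞ Φ U) (hτ : ∀ i, ContDiffOn ℝ ∞ (τ i) U) {x : E} (hx : x ∈ U) :
    dE (pert Φ τ) (x, 0) = fderiv ℝ Φ x := by
  have hd : DifferentiableAt ℝ (pert Φ τ) (x, 0) :=
    ((contDiffOn_pert hΦ hτ).contDiffAt
      ((hU.prod isOpen_univ).mem_nhds ⟨hx, mem_univ _⟩)).differentiableAt (by simp)
  rw [dE_eq_fderiv hd]
  congr 1
  funext y
  exact pert_zero Φ τ y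

variable [CompleteSpace E] [CompleteSpace F]

/-- near one zero: generic coefficients make all nearby zeros regular -/
theorem generic_pt {U : Set E} (hU : IsOpen U) {Φ : E → F} {τ : ι → E → F}
    (hΦ : ContDiffOn ℝ ∞ Φ U) (hτ : ∀ i, ContDiffOn ℝ ∞ (τ i) U) {x₀ : E} (hx : x₀ ∈ U)
    (h0 : Φ x₀ = 0) (hF : (fderiv ℝ Φ x₀).IsFredholm)
    (hs : (fderiv ℝ Φ x₀).range ⊔ Submodule.span ℝ (range fun i => τ i x₀) = ⊤) :
    ∃ N ∈ 𝓝 (x₀, (0 : ι → ℝ)), ∀ᶠ p in residual (ι → ℝ), ∀ x, (x, p) ∈ N →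
      pert Φ τ (x, p) = 0 → Surjective (dE (pert Φ τ) (x, p)) := by
  have hO : IsOpen (U ×ˢ (univ : Set (ι → ℝ))) := hU.prod isOpen_univ
  have hz : (x₀, (0 : ι → ℝ)) ∈ U ×ˢ (univ : Set (ι → ℝ)) := ⟨hx, mem_univ _⟩
  have hd : DifferentiableAt ℝ (pert Φ τ) (x₀, 0) :=
    ((contDiffOn_pert hΦ hτ).contDiffAt (hO.mem_nhds hz)).differentiableAt (by simp)
  have e := dE_pert_zero hU hΦ hτ hx
  exact param_loc hO (contDiffOn_pert hΦ hτ) hz (by rw [pert_zero, h0]) (e ▸ hF)
    (surj_pert hd (e ▸ hs))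

/-- near a compact set of zeros -/
theorem generic_near {U : Set E} (hU : IsOpen U) {Φ : E → F} {τ : ι → E → F}
    (hΦ : ContDiffOn ℝ ∞ Φ U) (hτ : ∀ i, ContDiffOn ℝ ∞ (τ i) U) {K : Set E} (hK : IsCompact K)
    (hKU : K ⊆ U) (h0 : ∀ x ∈ K, Φ x = 0) (hF : ∀ x ∈ K, (fderiv ℝ Φ x).IsFredholm)
    (hs : ∀ x ∈ K, (fderiv ℝ Φ x).range ⊔ Submodule.span ℝ (range fun i => τ i x) = ⊤) :
    ∃ O ∈ 𝓝ˢ K, ∃ B ∈ 𝓝 (0 : ι → ℝ), ∀ᶠ p in residual (ι → ℝ), p ∈ B → ∀ x ∈ O,
      pert Φ τ (x, p) = 0 → Surjective (dE (pert Φ τ) (x, p)) := by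
  have key : ∀ x ∈ K, ∃ O ∈ 𝓝 x, ∃ B ∈ 𝓝 (0 : ι → ℝ), ∀ᶠ p in residual (ι → ℝ), p ∈ B →
      ∀ y ∈ O, pert Φ τ (y, p) = 0 → Surjective (dE (pert Φ τ) (y, p)) := by
    intro x hx
    obtain ⟨N, hN, h⟩ := generic_pt hU hΦ hτ (hKU hx) (h0 x hx) (hF x hx) (hs x hx)
    obtain ⟨O, hO, B, hB, hOB⟩ := mem_nhds_prod_iff.1 hN
    exact ⟨O, hO, B, hB, h.mono fun p hp hpB y hy => hp y (hOB ⟨hy, hpB⟩)⟩
  choose! O hO B hB h using key
  obtain ⟨t, htK, ht⟩ := hK.elim_nhds_subcover (fun x => interior (O x))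
    (fun x hx => interior_mem_nhds.2 (hO x hx))
  refine ⟨⋃ x ∈ t, interior (O x), ?_, ⋂ x ∈ t, B x, ?_, ?_⟩
  · exact (isOpen_biUnion fun x _ => isOpen_interior).mem_nhdsSet.2 ht
  · exact (Filter.biInter_finset_mem t).2 fun x hx => hB x (htK x hx)
  · have := (Filter.eventually_all_finset t).2 fun x hx => h x (htK x hx)
    refine this.mono fun p hp hpB y hy => ?_
    obtain ⟨x, hx, hy⟩ := mem_iUnion₂.1 hy
    exact hp x hx (mem_iInter₂.1 hpB x hx) y (interior_subset hy)

end pert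

/-- finitely many terms span a complement of the range near one point -/
theorem fin_near_pt [CompleteSpace E] [CompleteSpace F] {X J : Type*} [TopologicalSpace X]
    {T : X → E →L[ℝ] F} {v : J → X → F} {x₀ : X} (hT : ContinuousAt T x₀)
    (hv : ∀ j, ContinuousAt (v j) x₀) (hF : (T x₀).IsFredholm)
    (hd : Dense (((T x₀).range ⊔ Submodule.span ℝ (range fun j => v j x₀) : Submodule ℝ F) :
      Set F)) :
    ∃ s : Finset J, ∀ᶠ x in 𝓝 x₀,
      (T x).range ⊔ Submodule.span ℝ ((fun j => v j x) '' s) = ⊤ := by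
  classical
  have := hF.finite_coker
  obtain ⟨s, hs⟩ := exists_finset_top (T x₀).range hF.isClosed_range (fun j => v j x₀) hd
  refine ⟨s, ?_⟩
  let M : X → (E × (s → ℝ)) →L[ℝ] F := fun x => (T x).comp (ContinuousLinearMap.fst ℝ E _) +
    ∑ i : s, ((ContinuousLinearMap.proj i).comp (ContinuousLinearMap.snd ℝ E (s → ℝ))).smulRight
      (v i x)
  have hM : ∀ x z, M x z = T x z.1 + ∑ i : s, z.2 i • v i x := fun x z => by simp [M]
  have hiff : ∀ x, Surjective (M x) ↔
      (T x).range ⊔ Submodule.span ℝ ((fun j => v j x) '' s) = ⊤ := by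
    intro x
    have e : (fun j => v j x) '' s = range fun i : s => v i x := by
      ext f; simp
    rw [e]
    constructor
    · intro h
      rw [eq_top_iff]
      intro f _
      obtain ⟨z, rfl⟩ := h f
      rw [hM]
      exact Submodule.add_mem_sup ⟨z.1, rfl⟩
        ((Submodule.mem_span_range_iff_exists_fun ℝ).2 ⟨z.2, rfl⟩)
    · intro h f
      have : f ∈ (T x).range ⊔ Submodule.span ℝ (range fun i : s => v i x) :=
        h ▸ Submodule.mem_top
      obtain ⟨a, ⟨ξ, rfl⟩, b, hb, rfl⟩ := Submodule.mem_sup.1 this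
      obtain ⟨q, rfl⟩ := (Submodule.mem_span_range_iff_exists_fun ℝ).1 hb
      exact ⟨(ξ, q), hM x _⟩
  have hMc : ContinuousAt M x₀ := by
    refine ContinuousAt.add ?_ (tendsto_finsetSum _ fun i _ => ?_)
    · exact hT.clm_comp continuousAt_const
    · exact ((ContinuousLinearMap.smulRightL ℝ (E × (s → ℝ)) F
        ((ContinuousLinearMap.proj i).comp
          (ContinuousLinearMap.snd ℝ E (s → ℝ)))).continuous.continuousAt).comp (hv i)
  have := hMc.preimage_mem_nhds (isOpen_surj.mem_nhds ((hiff x₀).2 hs))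
  exact mem_of_superset this fun x hx => (hiff x).1 hx

/-- finitely many terms span a complement of the range along a compact set -/
theorem fin_near [CompleteSpace E] [CompleteSpace F] {X J : Type*} [TopologicalSpace X]
    {T : X → E →L[ℝ] F} {v : J → X → F} {K : Set X} (hK : IsCompact K)
    (hT : ∀ x ∈ K, ContinuousAt T x) (hv : ∀ x ∈ K, ∀ j, ContinuousAt (v j) x)
    (hF : ∀ x ∈ K, (T x).IsFredholm)
    (hd : ∀ x ∈ K, Dense (((T x).range ⊔ Submodule.span ℝ (range fun j => v j x) :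
      Submodule ℝ F) : Set F)) :
    ∃ s : Finset J, ∀ x ∈ K, (T x).range ⊔ Submodule.span ℝ ((fun j => v j x) '' s) = ⊤ := by
  classical
  have key := fun x hx => fin_near_pt (hT x hx) (hv x hx) (hF x hx) (hd x hx)
  choose! s hs using key
  obtain ⟨t, htK, ht⟩ := hK.elim_nhds_subcover _ hs
  refine ⟨t.biUnion s, fun x hx => ?_⟩
  obtain ⟨y, hy, hxy⟩ := mem_iUnion₂.1 (ht hx)
  rw [eq_top_iff, ← hxy]
  refine sup_le_sup_left (Submodule.span_mono (image_mono ?_)) _
  intro j hj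
  simpa using ⟨y, hy, hj⟩

/-- **induction over levels and faces.**  `P` is the space of perturbations, `near p` the filter
of admissible small changes of `p` in some fixed sense (`Adm p q` : `q` is a small admissible
change of `p`).  If the good behaviour of an initial segment of strata is stable and the next
stratum can be made good by an arbitrarily small change, then all strata can be made good. -/
theorem levels {P : Type*} (N : P → Filter P) (Good : ℕ → P → Prop)
    (stable : ∀ n p, (∀ m < n, Good m p) → ∀ᶠ q in N p, ∀ m < n, Good m q)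
    (step : ∀ n p, (∀ m < n, Good m p) → ∃ᶠ q in N p, Good n q)
    (A : P → Prop) (hA : ∀ p, A p → ∀ᶠ q in N p, A q) (n : ℕ) {p₀ : P} (h₀ : A p₀) :
    ∃ p, A p ∧ ∀ m < n, Good m p := by
  induction n with
  | zero => exact ⟨p₀, h₀, fun m hm => absurd hm (Nat.not_lt_zero m)⟩
  | succ n ih =>
    obtain ⟨p, hp, hg⟩ := ih
    obtain ⟨q, hq, hq1, hq2⟩ :=
      ((step n p hg).and_eventually ((stable n p hg).and (hA p hp))).exists
    refine ⟨q, hq2, fun m hm => ?_⟩
    rcases Nat.lt_succ_iff_lt_or_eq.1 hm with h | rfl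
    · exact hq1 m h
    · exact hq

end Crest.Agent.X212.Wrd81
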