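import Crest.Agent.X212.Wrd81.Zer
import Crest.Agent.X212.An.Str

/-!
# X212 / WORDS, part 26 (helper81): density for the parts of a job.
-/

set_option autoImplicit false
set_option linter.unusedSectionVars false
noncomputable section
open scoped Manifold ContDiff Topology InnerProductSpace
open MeasureTheory Set Function Filter

namespace Crest.Agent.X212.Wrd81
open An M Nd18 Sob92 Mod61 Hol14

section gen
variable {E : Type} [NormedAddCommGroup E] [NormedSpace ℝ E] [FiniteDimensional ℝ E]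
  [MeasurableSpace E] [BorelSpace E]
  {HM : Type} [TopologicalSpace HM] {I : ModelWithCorners ℝ E HM} [I.Boundaryless]
  {M : Type} [TopologicalSpace M] [ChartedSpace HM M] [IsManifold I ∞ M]
  [MeasurableSpace M] [T2Space M] [BorelSpace M] [SecondCountableTopology M]
  {ι : Type} [Fintype ι] {lam : Type} [Fintype lam]
  {T : Type} [NormedAddCommGroup T] [NormedSpace ℝ T] {r n m : ℕ}
  {𝔉 : Mod61.Fam I M ι lam T}

variable (I) in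
/-- all curvature terms in `Ω` are available -/
abbrev RichA (Ω : Set M) (Av : Tm M lam r n → Prop) : Prop := ∀ g g' t f l, Tf I Ω g → Tf I Ω g' →
  AwIn I Ω ⟨t, .mul f :: l⟩ → Av (.ad g g' ⟨t, .mul f :: l⟩)

/-- perturbations which vanish near `S` -/
def offS (o : Ref 𝔉) (S : Set M) : Submodule ℝ (T → PtX M ι lam r n m) where
  carrier := {τ | ∀ᶠ x in 𝓝ˢ S, ∀ y : Pnt o r, (τ y.t).D y.cfg x = 0 ∧ (τ y.t).C y.cfg x = 0}
  add_mem' a b := mem_ofPred.2 (((mem_ofPred.1 a).and (mem_ofPred.1 b)).mono fun x k y => by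
    simp [k.1 y, k.2 y])
  zero_mem' := mem_ofPred.2 (.of_forall fun _ _ => ⟨rfl, rfl⟩)
  smul_mem' s τ a := mem_ofPred.2 ((mem_ofPred.1 a).mono fun x k y => by simp [k y])

/-- perturbations without real rows -/
def norS (o : Ref 𝔉) : Submodule ℝ (T → PtX M ι lam r n m) where
  carrier := {τ | ∀ y : Pnt o r, (τ y.t).R y.cfg = 0}
  add_mem' a b y := by simp [a y, b y]
  zero_mem' _ := rfl
  smul_mem' s τ a y := by simp [a y]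

theorem row_norm {z : EuclideanSpace ℂ (Fin r)} (hz : z ≠ 0) {a b : ℝ} (hb : b ≠ 0) (ρ : Fin 1 → ℝ) :
    ∃ ζ : EuclideanSpace ℂ (Fin r),
      HasDerivAt (fun s : ℝ => fun _ : Fin 1 => a + b * ‖z + s • ζ‖ ^ 2) ρ 0 := by
  have := norm_ne_zero_iff.2 hz
  refine ⟨(ρ 0 / (2 * b * ‖z‖ ^ 2)) • z, hasDerivAt_pi.2 fun i => ?_⟩
  convert (((((hasDerivAt_id (0 : ℝ)).mul_const (ρ 0 / (2 * b * ‖z‖ ^ 2))).const_add 1).pow 2
    |>.mul_const (‖z‖ ^ 2)).const_mul b).const_add a using 1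
  · funext s
    rw [smul_smul, show ∀ t : ℝ, z + t • z = (1 + t) • z from fun t => by rw [add_smul, one_smul],
      norm_smul, mul_pow, Real.norm_eq_abs, sq_abs]
    rfl
  · rw [Subsingleton.elim i 0]
    simp
    field_simp

end gen

variable {Wi : Type} {X : Mf 4} {A κ lam : Type} [Fintype A] [Fintype κ] [Fintype lam]
  [DecidableEq lam] {M : Mark X A κ} {c : M.Cl} {π : Reg A}

/-! ### caps and necks -/

section caps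
variable (C : Caps M)

theorem tgt_sub : (C.φ c).targetᶜ ⊆ ⋃ p : A × Bool, {C.β c p.1 p.2 0} := fun z hz => by
  rw [C.tgt] at hz
  simp only [mem_compl_iff, mem_ofPred_eq, not_forall, not_not] at hz
  obtain ⟨a, -, -, b, e⟩ := hz
  exact mem_iUnion.2 ⟨(a, b), e⟩

theorem cpt_tgt : IsCompact (C.φ c).targetᶜ :=
  ((finite_iUnion fun _ => finite_singleton _).subset (tgt_sub C)).isCompact

theorem null_tgt {ι : Type} [Fintype ι] (F : Pre (C.Z c).I (C.Z c).M ι) :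
    F.μ (C.φ c).targetᶜ = 0 :=
  measure_mono_null (tgt_sub C) (measure_iUnion_null fun p => by
    rw [← (univ_nonempty (α := (M.bn p.1).Y.M)).image_const]
    exact null_image (I := (M.bn p.1).Y.I) (by rw [Mf.dim, Mf.dim]; norm_num) F
      fun _ _ => contMDiffAt_const)

variable (hπ : M.sys.Piece c.1 π)
include hπ

theorem U_src : M.sys.U π ⊆ (C.φ c).source := C.src c ▸ Cyl58.U_sub hπ

theorem pc_tgt : (C.φ c).target ∩ C.pc c π ⊆ C.φ c '' M.sys.U π := fun z hz => by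
  obtain ⟨x, hx, rfl⟩ := (C.φ c).toPartialEquiv.surjOn hz.1
  exact ⟨x, (Cyl58.φ_mem_pc C hπ ((C.mem_src c).1 hx)).1 hz.2, rfl⟩

theorem isOpen_img : IsOpen (C.φ c '' M.sys.U π) :=
  (C.φ c).toOpenPartialHomeomorph.isOpen_image_of_subset_source (M.sys.isOpen_U π) (U_src C hπ)

theorem null_pc {ι : Type} [Fintype ι] (F : Pre (C.Z c).I (C.Z c).M ι) :
    F.μ (C.pc c π \ C.φ c '' M.sys.U π) = 0 :=
  measure_mono_null (fun _ hz k => hz.2 (pc_tgt C hπ ⟨k, hz.1⟩)) (null_tgt C F)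

theorem pc_cmp {V : Type} [Zero V] {Φ : (C.Z c).M → V} (h : ∃ x ∈ C.pc c π, Φ x ≠ 0) :
    ∀ x ∈ C.pc c π, ∃ y ∈ connectedComponent x, Φ y ≠ 0 := fun _ hx =>
  let ⟨y, h1, h2⟩ := h; ⟨y, (Cyl58.isConnected_pc C hπ).subset_connectedComponent hx h1, h2⟩

end caps

variable {W : World M} {Ll : ML M lam} {Λ : Lns W Ll}

theorem _root_.Crest.Agent.X212.An.IsNk.tgt_sub {m : M.Cl} {p : Prm A} {a : A} {b : Option Bool}
    {S : Xs Wi κ lam} {g : S.Y.M → (M.bn a).Y.M} {K : Nk S.D (Λ.B m c) (Λ.G m c p)}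
    (h : IsNk a b g K) (ha : Act m c a b p) :
    K.ψ.target ⊆ W.φ c '' ((M.sys.cores c.1)ᶜ ∩ (M.bn a).slab (Icc (-1) 1)) := fun z hz => by
  obtain ⟨⟨y, t⟩, ht, rfl⟩ := K.ψ.toPartialEquiv.surjOn hz
  have e : K.J = Jv (Cht98.np (p.2 a) (b.getD false)) (Cht98.nq (p.2 a) (b.getD false)) ∧
      ∀ s ∈ dom (p.2 a) (b.getD false), (b = some true → 0 < s) ∧ (b = some false → s < 0) ∧
        (a ∈ c.1 ∧ s ≠ 0 ∨ a ∈ M.sys.fr c.1) := by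
    rw [Nk.J, h.lo, h.hi]
    rcases b with _ | b
    · exact ⟨by simp [Cht98.np, Cht98.nq, ha.2.2.1 a ha.2.2.2.2.1],
        fun _ _ => ⟨nofun, nofun, .inr ha.2.2.2.2.1⟩⟩
    have e : p.2 a = 1 := ha.2.1.2 ha.2.2.2
    rw [e]
    refine ⟨by cases b <;> simp [Cht98.np, Cht98.nq], fun s hs => ?_⟩
    replace hs := hs.resolve_left (lt_irrefl _)
    cases b
    exacts [⟨nofun, fun _ => hs, .inl ⟨ha.2.2.2, (show s < 0 from hs).ne⟩⟩,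
      ⟨fun _ => hs, nofun, .inl ⟨ha.2.2.2, (show 0 < s from hs).ne'⟩⟩]
  obtain ⟨s, ⟨h1, h2⟩, h3⟩ := (Cht98.bijOn_len (ha.2.1.1.1 a).2 _).surjOn (e.1 ▸ K.mem_src.1 ht)
  obtain ⟨h4, h5, h6⟩ := e.2 s h2
  have := h.ψ y s (by split_ifs with k; exacts [h4 k, h1.1]) (by split_ifs with k; exacts [h5 k, h1.2])
  rw [h3] at this
  exact ⟨_, ⟨Mark.j_not_mem c (q := (g y, s)) h6, (M.bn a).j_mem_slab.2 (Ioo_subset_Icc_self h1)⟩,
    this.symm⟩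

/-- no neck comes near the centres of the caps -/
theorem off_nk : ∀ᶠ z in 𝓝ˢ (W.φ c).targetᶜ, ∀ {m : M.Cl} {p : Prm A} {a : A} {b : Option Bool}
    {S : Xs Wi κ lam} {g : S.Y.M → (M.bn a).Y.M} {K : Nk S.D (Λ.B m c) (Λ.G m c p)},
    IsNk a b g K → Act m c a b p → z ∉ K.ψ.target := by
  have h := (toFinite {a | a ∈ c.1 ∧ ¬M.pin a ∨ a ∈ M.sys.fr c.1}).isClosed_biUnion
    fun a ha => Cyl58.isClosed_slab W.toCaps ha (isCompact_Icc (a := -1) (b := 1))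
  refine mem_of_superset (h.isOpen_compl.mem_nhdsSet.2 (compl_subset_compl.2 (iUnion₂_subset
    fun a _ => image_subset_iff.2 fun x hx => (W.φ c).map_source ((W.mem_src c).2 hx.1))))
    fun z hz m p a b S g K h1 h2 h3 => hz (mem_biUnion ?_ (h1.tgt_sub h2 h3))
  cases b
  exacts [.inr h2.2.2.2.2.1, .inl ⟨h2.2.2.2, h2.1⟩]

/-! ### the terms of a job -/

variable {A' h : Type} [Fintype A'] [DecidableEq A'] [Fintype h] {r n : ℕ}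
  {J : Job Wi Λ A' h r n} {σ : Cel A'} {s : A' → ℝ}

theorem br_of (hJ : J.OK) (hσ : σ ∈ J.𝒦) (hs : J.Ov σ c s) : J.Θ s ∈ M.Br c.1 :=
  ⟨hJ.par σ hσ s hs.1, hs.2.ge⟩

variable (c J) in
/-- transport of data from `Z c` to `X` -/
abbrev tq : Tp (W.Z c).M X.M (lam ⊕ lam) (lam ⊕ lam) := .of (W.φ c).symm.toPartialEquiv
  fun y => trn (Line51.rl (Λ.v J.m c ((W.φ c).toPartialEquiv.symm y)))

theorem inv_tp {p : Prm A} (hp : p ∈ M.Br c.1) {Ω : Set X.M} (hΩ : Ω ⊆ (W.φ c).source) :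
    Inv X.I (W.Z c).I (J.tp c) (tq c J) Ω (W.φ c '' Ω) (J.B c).l ∧
      (J.tp c).In X.I (W.Z c).I Ω (W.φ c '' Ω) :=
  have u := (Λ.iso J.m c p hp).toUni
  ⟨inv_of _ (fun x hx => by
      simpa only [← Line51.rl_ct] using (Line51.fsm_rl (u.sm x hx).ct).contMDiffWithinAt)
    (fun x hx => by rw [← Line51.rl_ct, ← Line51.rl_comp, (u.iso x hx).tgt]; rfl) hΩ,
    Tp.in_of _ (fun x hx => (Line51.fsm_rl (u.sm x hx)).contMDiffWithinAt) hΩ⟩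

theorem off_τ0 (hJ : J.OK) : ∀ᶠ z in 𝓝ˢ (W.φ c).targetᶜ, ∀ s x,
    (J.τ0 c s).D x z = 0 ∧ (J.τ0 c s).C x z = 0 :=
  (off_nk (Wi := Wi) (Λ := Λ)).mono fun z hz s x => by
    have b := fun (i : A × Option Bool) k => q1_off (n := n) ((J.xs i.1).N.smul (J.ν i.1 s))
      (J.K c i.1 i.2 _ k) x (hz (hJ.nk c i.1 i.2 (J.Θ s) k) k)
    simp [Job.τ0, Pt.dsum, b]

theorem off_τw (hJ : J.OK) (hσ : σ ∈ J.𝒦) (hs : J.Ov σ c s) (w : Wi) :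
    ∀ᶠ z in 𝓝ˢ (W.φ c).targetᶜ, ∀ s, J.Ov σ c s → ∀ x,
      (J.τw c s w).D x z = 0 ∧ (J.τw c s w).C x z = 0 := by
  have a : ∀ᶠ z in 𝓝ˢ (W.φ c).targetᶜ, ∀ s, J.Ov σ c s → ∀ x : Cfg _ _ _ r, J.co w s = 0 ∨
      x.tD (J.B c) (J.G c s).F ((J.tp c).tm (J.tw w)) z = 0 ∧
      x.tC (J.B c) (J.G c s).F ((J.tp c).tm (J.tw w)) z = 0 := by
    obtain ⟨V, h1, s₀, h2, h3⟩ := hJ.tw w
    by_cases e : c.1 ⊆ J.hw \ V
    · obtain ⟨K, k1, k2, k3⟩ := ((inv_tp (J := J) (br_of hJ hσ hs) subset_rfl).2.tm (h1.mono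
        (W.src c ▸ compl_subset_compl.2 (biUnion_subset_biUnion_left e)))).supp (ι := Option κ)
      exact mem_of_superset (k1.isClosed.isOpen_compl.mem_nhdsSet.2 (compl_subset_compl.2
        (k2.trans (W.φ c).image_source_eq_target.le))) fun z hz s _ x => .inr (k3 x _ _ z hz)
    · obtain ⟨x, e1, e2⟩ := not_subset.1 e
      refine .of_forall fun z s hs _ => .inl ?_
      obtain ⟨a, e3, e4⟩ := hJ.inf σ hσ s hs.1 x (hs.2.ge e1)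
      exact h3 σ hσ s hs.1 a x e3 (by_contra fun k => e2 ⟨⟨a, e3⟩, k⟩) (h2.le.trans e4.ge)
  filter_upwards [a, off_nk (Wi := Wi) (Λ := Λ)] with z h1 h2 s hs x
  have b := fun (i : A × Option Bool) k T => q2_off (n := n) (J.xs i.1).N (J.K c i.1 i.2 _ k) x
    (h2 (hJ.nk c i.1 i.2 (J.Θ s) k) k) T
  rcases h1 s hs x with k | k <;>
    simp [Job.τw, Pt.add, Pt.smul, Pt.dsum, tmP, fsum, Finsupp.sum, b, k]

theorem τw_eq {w : Wi} (hw : J.Nn w s) (x : Cfg (W.Z c).M (Option κ) (lam ⊕ lam) r) :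
    (J.τw c s w).D x = J.co w s • x.tD (J.B c) (J.G c s).F ((J.tp c).tm (J.tw w)) ∧
    (J.τw c s w).C x = J.co w s • x.tC (J.B c) (J.G c s).F ((J.tp c).tm (J.tw w)) ∧
    (J.τw c s w).S x = J.co w s • x.tS (J.G c s).F ((J.tp c).tm (J.tw w)) := by
  refine ⟨?_, ?_, ?_⟩ <;> funext z <;>
    simp [Job.τw, Pt.add, Pt.smul, Pt.dsum, tmP, fsum, hw _]

theorem _root_.Crest.Agent.X212.An.Job.RichT.a (h : J.RichT s π) :
    RichA X.I (M.sys.U π) (J.HasT s) := fun _ _ _ _ _ h1 h2 h3 =>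
  h _ ⟨h1, h2, h3⟩ ⟨_, _, rfl⟩ trivial

theorem _root_.Crest.Agent.X212.An.Job.RichT.p (h : J.RichT s π) (j : Fin r) :
    RichP X.I (M.sys.U π) (.z j) (J.HasT s) :=
  ⟨fun _ _ h1 h2 => h _ ⟨h2.cons h1, _, _, rfl⟩ trivial trivial,
    fun _ _ h1 h2 => h _ ⟨trivial, h1, h2⟩ trivial ⟨j, rfl⟩, h.a,
    fun _ _ _ _ _ h1 h2 h3 h4 h5 => h _ ⟨trivial, h1, h2, h3, h4, h5, llIn_nil⟩ trivial ⟨j, rfl⟩⟩

/-! ### the Banach model of a part -/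

variable {T : Type} [NormedAddCommGroup T] [NormedSpace ℝ T] {m k : ℕ}
  {𝔉 : Mod61.Fam (W.Z c).I (W.Z c).M (Option κ) (lam ⊕ lam) T} {p : Prt A A' h}

variable (J σ 𝔉 p) in
/-- the family `𝔉` with the equation `e + ∑ q w • τ w` describes the part `p` over the
parameters `s t` -/
structure Lk (s : T → A' → ℝ) (e : T → PtX (W.Z c).M (Option κ) (lam ⊕ lam) r n m)
    (τ : Wi → T → PtX (W.Z c).M (Option κ) (lam ⊕ lam) r n m) : Prop where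
  ok : J.OK
  mem : σ ∈ J.𝒦
  pc : ∀ π ∈ p.P, M.sys.Piece c.1 π
  sub : p.P' ⊆ p.P
  fam : 𝔉.OK
  B : 𝔉.B = J.B c
  G : ∀ t ∈ 𝔉.Q, 𝔉.G t = J.G c (s t)
  Om : 𝔉.Om = W.un c p.P
  Om' : 𝔉.Om' = W.un c p.P'
  ov : ∀ t ∈ 𝔉.Q, J.Ov σ c (s t)
  e : ∀ t ∈ 𝔉.Q, ∀ x z, (J.τ0 c (s t)).D x z = 0 → (J.τ0 c (s t)).C x z = 0 →
    (e t).D x z = (𝔉.eq0 r n m t).D x z ∧ (e t).C x z = (𝔉.eq0 r n m t).C x z
  τ : ∀ w, ∀ t ∈ 𝔉.Q, ∃ a : ℝ, a ≠ 0 ∧ ∀ x, (τ w t).D x = a • (J.τw c (s t) w).D x ∧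
    (τ w t).C x = a • (J.τw c (s t) w).C x ∧ (τ w t).S x = a • (J.τw c (s t) w).S x ∧
    (τ w t).R x = 0

namespace Lk
variable {s : T → A' → ℝ} {e : T → PtX (W.Z c).M (Option κ) (lam ⊕ lam) r n m}
  {τ : Wi → T → PtX (W.Z c).M (Option κ) (lam ⊕ lam) r n m} (L : Lk J σ 𝔉 p s e τ) {o : Ref 𝔉}
  {y : Pnt o r} {N : Submodule ℝ (o.Y n m k)}
include L

theorem inv (y : Pnt o r) (hπ : π ∈ p.P) : Inv X.I (W.Z c).I (J.tp c) (tq c J) (M.sys.U π)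
    (W.φ c '' M.sys.U π) 𝔉.B.l := by
  rw [L.B]
  exact (inv_tp (br_of L.ok L.mem (L.ov _ y.ht)) (U_src W.toCaps (L.pc π hπ))).1

theorem pcs (y : Pnt o r) (hπ : π ∈ p.P) :
    Pc y.cfg 𝔉.B (𝔉.G y.t) (W.pc c π) (W.φ c '' M.sys.U π) :=
  Wrd81.pc L.fam y (Cyl58.isClopen_pc _ (L.pc π hπ)) (isOpen_img _ (L.pc π hπ))
    (null_pc _ (L.pc π hπ) _)

/-- indices without field terms -/
theorem τ_zero (hk : 4 ≤ k) {w : Wi} (h1 : J.co w (s y.t) = 0) (h2 : J.Nn w (s y.t))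
    {v : o.Y n m k} (hv : RepE (τ w) y v) : v = 0 := by
  obtain ⟨a, -, h3⟩ := L.τ w _ y.ht
  have h4 := τw_eq (c := c) h2 y.cfg
  simp only [h1, zero_smul] at h4
  refine hv.unique L.fam hk ⟨?_, ?_, ?_, ?_⟩ <;> simp [h3, h4, val_zero, indicator_zero'] <;> rfl

theorem av (hN : ∀ w v, RepE (τ w) y v → v ∈ N) {τ₀ : Tm X.M (lam ⊕ lam) r n}
    (h : J.HasT (s y.t) τ₀) : Av N y ((J.tp c).tm τ₀) := by
  obtain ⟨w, rfl, h1, -, h2⟩ := h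
  obtain ⟨a, a0, h3⟩ := L.τ w _ y.ht
  obtain ⟨h4, h5, h6, h7⟩ := h3 y.cfg
  obtain ⟨k1, k2, k3⟩ := τw_eq (c := c) h2 y.cfg
  rw [Av, L.B, L.G _ y.ht]
  exact Val.of_rep (hN w) (mul_ne_zero a0 h1) (fun x _ => by rw [h4, k1, smul_smul]; rfl)
    (fun x _ => by rw [h5, k2, smul_smul]; rfl) (by rw [h6, k3, smul_smul]) (by simp [h7])

/-- a free piece has a non-zero scalar of weight two -/
theorem exists_co (hπ : π ∈ p.P) (hf : ¬Fix (𝔉.G y.t).F y.cfg (W.pc c π)) :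
    ∃ g, SgIn X.I (M.sys.U π) g ∧ y.cfg.sg (𝔉.G y.t).F ((J.tp c).sg g) ≠ 0 ∧
      y.cfg.co (𝔉.G y.t).F ((J.tp c).co (.s g [])) ≠ 0 := by
  obtain ⟨g, h1, h2, h3⟩ := (L.pcs y hπ).exists_sg (Cyl58.isConnected_pc _ (L.pc π hπ)).2 hf
  have := (L.inv y hπ).sg' (c := y.cfg) o.ok.jl (𝔉.G y.t).F h1
  exact ⟨_, (L.inv y hπ).toIn.sg h1, this ▸ h2, by simpa only [Tp.co, Cfg.co, this, List.map_nil] using h3⟩

/-- **density in the row of a cut** -/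
theorem cut (hπ : π ∈ p.P) {Ω : Set X.M} (hΩ : M.sys.U π ⊆ Ω) {i : h}
    (hi : (J.ct i).x0 ∈ M.sys.U π) (hk : (J.cut c i).OK (J.B c) (J.G c (s y.t)).F)
    (ht : ((∃ z ∈ W.pc c π, y.cfg.Φ z ≠ 0) ∧
        ∃ d, CoIn X.I Ω d ∧ y.cfg.co (𝔉.G y.t).F ((J.tp c).co d) ≠ 0) ∨
      ¬Lin (𝔉.G y.t).F y.cfg (W.pc c π) ∧ ∃ z ∈ W.pc c π, y.cfg.m.Fg (𝔉.G y.t).F y.cfg.W z ≠ 0)
    {P : Wi → Prop} (hR : ∀ t : Tc X.M (lam ⊕ lam) r, XiIn X.I Ω t.ξ → ∃ w, J.tc i w = t ∧ P w)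
    {q : Wi →₀ ℝ} {ψ : (J.cut c i).H (J.B c) y.cfg.m}
    (hψ : (J.cut c i).Sol (J.B c) (J.G c (s y.t)).F (J.σc c q (s y.t) i) y.cfg ψ)
    {N : Submodule ℝ ((J.cut c i).H (J.B c) y.cfg.m)}
    (hN : IsClosed (N : Set ((J.cut c i).H (J.B c) y.cfg.m)))
    (hA : ∀ χ, ((J.cut c i).T (J.B c) (J.G c (s y.t)).F y.cfg.m y.cfg.W -
      J.σc c q (s y.t) i y.cfg) χ ∈ N)
    (hT : ∀ w, P w → y.cfg.tc (J.B c) (J.G c (s y.t)).F (J.cut c i) ((J.tp c).tc (J.tc i w)) ψ ∈ N)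
    (χ : (J.cut c i).H (J.B c) y.cfg.m) : χ ∈ N := by
  have a := L.pcs y hπ
  have b := L.inv y hπ
  rw [L.G _ y.ht] at ht a
  rw [L.B] at a b
  have hx : (J.cut c i).x0 ∈ W.φ c '' M.sys.U π ∩ W.pc c π := ⟨⟨_, hi, rfl⟩, .inl ⟨_, hi, rfl⟩⟩
  refine den_tc a.hB a.ok hk (cn0_of a.conn) (On.sum _ fun _ _ => (on_tc a.hB a.ok hk _).smul _)
    (norm_ne_zero_iff.1 (hψ.1.trans_ne one_ne_zero)) hψ.2 ⟨.one, trivial, rfl⟩ (ht.elim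
      (fun ⟨h1, d, h2, h3⟩ => b.spn_irr a hx hΩ (pc_cmp _ (L.pc π hπ) h1) h2 h3) fun h1 =>
      b.spn_full a hx hΩ (full_of_not_lin a.hB a.ok a.conn
        (Cyl58.isConnected_pc _ (L.pc π hπ)).2 h1.1 h1.2)) hN hA (fun u v ξ' ⟨ξ, h1, h2⟩ => ?_) χ
  obtain ⟨w, h3, h4⟩ := hR ⟨u, v, 1, ξ⟩ h1
  have := hT w h4
  rw [h3] at this
  simpa only [Cfg.tc, Tp.tc, h2] using this

theorem pin (y : Pnt o r) (q : Wi →₀ ℝ) :
    Pin o (W.φ c).targetᶜ (e + q.sum fun w a => a • τ w) := by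
  have a : (q.sum fun w a => a • τ w) ∈ offS o (W.φ c).targetᶜ :=
    sum_mem fun w _ => Submodule.smul_mem _ _ ((off_τw L.ok L.mem (L.ov _ y.ht) w).mono
      fun z hz y => let ⟨a, _, h⟩ := L.τ w _ y.ht; by simp [h y.cfg, hz _ (L.ov _ y.ht)])
  obtain ⟨O, h1, h2, h3⟩ := mem_nhdsSet_iff_exists.1 ((mem_ofPred.1 a).and (off_τ0 L.ok))
  refine ⟨cpt_tgt _, null_tgt _ _, O, h1, h2, fun y x hx => ?_⟩
  have := L.e _ y.ht y.cfg x ((h3 hx).2 _ _).1 ((h3 hx).2 _ _).2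
  simp only [Pi.add_apply, PtX.add_D, PtX.add_C, (h3 hx).1 y, this, add_zero, and_self]

variable (hF : ∀ π ∈ p.P', (∃ z ∈ W.pc c π, y.cfg.Φ z ≠ 0) ∧ ∃ d,
    y.cfg.co (𝔉.G y.t).F ((J.tp c).co d) ≠ 0 ∧ RichP X.I (M.sys.U π) d (J.HasT (s y.t)))
  (hI : ∀ π ∈ p.P, π ∉ p.P' → ¬Lin (𝔉.G y.t).F y.cfg (W.pc c π) ∧
    (∃ z ∈ W.pc c π, y.cfg.m.Fg (𝔉.G y.t).F y.cfg.W z ≠ 0) ∧
    RichA X.I (M.sys.U π) (J.HasT (s y.t)))
include hF hI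

/-- **density of the field terms** -/
theorem dn (hN : ∀ w v, RepE (τ w) y v → v ∈ N) : Dn (W.φ c).target N := by
  refine Dn.loc L.fam fun x hx => ?_
  obtain ⟨π, h1, h2⟩ := mem_un.1 (L.Om.le hx.2)
  have hπ := L.pc π h1
  have hK := Cyl58.isClopen_pc W.toCaps hπ
  refine ⟨_, hK, h2, Dn.mono L.fam (Ω := W.φ c '' M.sys.U π ∩ W.pc c π) ?_
    fun z hz => ⟨pc_tgt _ hπ hz.1, hz.1.2⟩⟩
  by_cases k : π ∈ p.P'
  · obtain ⟨a, d, b, b'⟩ := hF π k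
    exact dn_F L.fam hK (isOpen_img _ hπ) (null_pc _ hπ _) (pc_cmp _ hπ a) b
      ((L.inv y h1).rich rfl (b'.mono subset_rfl fun _ => L.av hN))
  · obtain ⟨a, b, b'⟩ := hI π h1 k
    refine dn_I L.fam hK (isOpen_img _ hπ) (null_pc _ hπ _) ?_ (Cyl58.isConnected_pc _ hπ).2 a b
      ((L.inv y h1).ad fun _ _ _ _ _ h1 h2 h3 => L.av hN (b' _ _ _ _ _ h1 h2 h3))
    rw [L.Om', Caps.un, disjoint_iUnion₂_right]
    exact fun π' k' => Cyl58.disjoint_pc _ hπ (L.pc _ (L.sub k')) fun e => k (e ▸ k')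

/-- **density for a part** -/
theorem top (hS : n = 0 ∨ (∃ j, y.z j ≠ 0 ∧ J.RichS (s y.t)) ∨ ∃ g,
      y.cfg.sg (𝔉.G y.t).F ((J.tp c).sg g) ≠ 0 ∧ ∀ i w, J.HasT (s y.t) (.cut i w g))
    {φ : EuclideanSpace ℂ (Fin r) → Fin m → ℝ} (hφ : ∀ y : Pnt o r, (e y.t).R y.cfg = φ y.z)
    (hR : ∀ ρ, ∃ ζ, HasDerivAt (fun s : ℝ => φ (y.z + s • ζ)) ρ 0) (hk : 6 ≤ k) {q : Wi →₀ ℝ}
    {f : o.C r k → o.Y n m k} (hf : RepF (e + q.sum fun w a => a • τ w) f)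
    (n1 : IsClosed (N : Set (o.Y n m k))) (n2 : ∀ v, fderiv ℝ f (y.pt k) v ∈ N)
    (n3 : ∀ w v, RepE (τ w) y v → v ∈ N) (v : o.Y n m k) : v ∈ N := by
  have P := L.pin y q
  have a : (q.sum fun w a => a • τ w) ∈ norS o := sum_mem fun w _ => Submodule.smul_mem _ _
    fun y => let ⟨_, _, h⟩ := L.τ w _ y.ht; (h y.cfg).2.2.2
  refine P.top L.fam hk hf (by rw [compl_compl]; exact L.dn hF hI n3) n1 n2 ?_ (fun ρ => ?_) v
  · rcases hS with rfl | ⟨j, h1, h2⟩ | ⟨g, h1, h2⟩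
    exacts [rows_of fun i => i.elim0, rows_cz h1 fun i w => L.av n3 (h2 i w j),
      rows_cut h1 fun i w => L.av n3 (h2 i w)]
  · obtain ⟨ζ, h1⟩ := hR ρ
    exact ⟨_, n2 _, P.row L.fam hk hf ζ, row_z L.fam hk hf
      (fun y => by rw [Pi.add_apply, PtX.add_R, a y, add_zero, hφ]) h1⟩

end Lk

/-- **DENS for a part with `z`, or without spinor** -/
theorem Lk.onto [CompleteSpace T] {Θ : Th 𝔉 r n m Wi} {Adm : (Wi →₀ ℝ) → Prop} (H : Θ.OK Adm)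
    {s : T → A' → ℝ} (L : Lk J σ 𝔉 p s Θ.e Θ.τ) {q : Wi →₀ ℝ} {x : Θ.X} (ha : Adm q)
    (hx : H.Q.Sol q x) (hz : p.P' = ∅ ∧ n = 0 ∨ x.2.z ≠ 0)
    (hT : ∀ π ∈ p.P, J.RichT (s x.2.t) π) (hS : J.RichS (s x.2.t))
    (hF : ∀ π ∈ p.P', ∃ z ∈ W.pc c π, x.2.cfg.Φ z ≠ 0)
    (hI : ∀ π ∈ p.P, π ∉ p.P' → ¬Lin (𝔉.G x.2.t).F x.2.cfg (W.pc c π) ∧
      ∃ z ∈ W.pc c π, x.2.cfg.m.Fg (𝔉.G x.2.t).F x.2.cfg.W z ≠ 0)
    {φ : EuclideanSpace ℂ (Fin r) → Fin m → ℝ}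
    (hφ : ∀ y : Pnt (Θ.ref x.1) r, (Θ.e y.t).R y.cfg = φ y.z)
    (hR : ∀ ρ, ∃ ζ, HasDerivAt (fun s : ℝ => φ (x.2.z + s • ζ)) ρ 0) : ∃ S, H.Q.Onto q x S := by
  have a : x.2.z ≠ 0 → ∃ j, x.2.z j ≠ 0 := fun h => by_contra fun k => h (by ext j; simpa using not_exists.1 k j)
  refine H.onto ha hx fun N => L.top (fun π hπ => ⟨hF π hπ, ?_⟩)
    (fun π h1 h2 => ⟨(hI π h1 h2).1, (hI π h1 h2).2, (hT π h1).a⟩)
    (hz.imp And.right fun h => .inl ((a h).imp fun _ k => ⟨k, hS⟩)) hφ hR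
    (H.hk.trans' (by norm_num)) (H.repF x.1 q)
  obtain ⟨j, k⟩ := a (hz.resolve_left fun k => (k.1.le hπ).elim)
  exact ⟨.z j, k, (hT π (L.sub hπ)).p j⟩

end Crest.Agent.X212.Wrd81
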