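import Crest.Agent.X212.Wrd81.Jb
import Crest.Agent.X212.Abel74.Iso

/-!
# X212 / WORDS, part 27 (helper81): the types of configurations along equivalences.
-/

set_option autoImplicit false
set_option linter.unusedSectionVars false
noncomputable section
open scoped Manifold ContDiff Topology InnerProductSpace
open MeasureTheory Set Function Filter

namespace Crest.Agent.X212.Wrd81
open An M Nd18 Sob92 Mod61
open Eqv71 (LG LM Ad0 Itw cj lg_refl inv_refl sa_comp sa_cj sa_trn dv_ccomp trn_trn inner_cj con_adW)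

section gen
variable {E : Type} [NormedAddCommGroup E] [NormedSpace ℝ E] [FiniteDimensional ℝ E]
  [MeasurableSpace E] [BorelSpace E]
  {HM : Type} [TopologicalSpace HM] {I : ModelWithCorners ℝ E HM}
  {M : Type} [TopologicalSpace M] [ChartedSpace HM M] [IsManifold I ∞ M]
  [MeasurableSpace M] {ι : Type} [Fintype ι] {lam : Type} [Fintype lam]
  {E' : Type} [NormedAddCommGroup E'] [NormedSpace ℝ E'] [FiniteDimensional ℝ E']
  [MeasurableSpace E'] [BorelSpace E']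
  {HM' : Type} [TopologicalSpace HM'] {I' : ModelWithCorners ℝ E' HM'}
  {M' : Type} [TopologicalSpace M'] [ChartedSpace HM' M'] [IsManifold I' ∞ M']
  [MeasurableSpace M'] {ι' : Type} [Fintype ι'] {lam' : Type} [Fintype lam']
  {B : Base M ι lam} {G : Geo I M ι lam} {B' : Base M' ι' lam'} {G' : Geo I' M' ι' lam'}
  {O : Set M} {O' : Set M'} {φ : M → M'} {ψ : M' → M} {U : M → ι' → ι → ℝ}
  {v : M → CL (Eu lam) (Eu lam')} {x : M} {r r' : ℕ}

/-- two geometries which agree on `O` -/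
theorem lg_on {G' : Geo I M ι lam} (hB : B.OK I) (hG : G.OK B) (hG' : G'.OK B) (hO : IsOpen O)
    (h : ∀ x ∈ O, ∀ a, G.F.e a x = G'.F.e a x ∧ G.a a x = G'.a a x) :
    LG B G B G' O id (fun x b a => B.P b a x) B.l :=
  have k := lg_refl hB hG hO
  { k with
    hG' := hG'
    rot := { k.rot with fr := fun b x hx => (h x hx b).1.symm.trans (k.rot.fr b x hx) }
    par := fun x hx a => by
      rw [← k.par x hx a]
      simp only [Eqv71.pb, id, (h x hx _).2] }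

theorem ceq_on {F F' : Fr I M ι} {c : Cfg M ι lam r} {c' : Cfg M' ι' lam' r}
    {u : M → CL c.m.V c'.m.V} {ζ : Circle} (e : CEq F c c' O φ U v u ζ)
    (h : ∀ x ∈ O, ∀ a, F.e a x = F'.e a x) : CEq F' c c' O φ U v u ζ :=
  ⟨e.m, fun x hx a => by
    have := e.W x hx a
    rwa [Pre.D_def, dv, h x hx] at this, e.Φ, e.z⟩

theorem ceq_mono {F : Fr I M ι} {c : Cfg M ι lam r} {c' : Cfg M' ι' lam' r}
    {u : M → CL c.m.V c'.m.V} {ζ : Circle} (e : CEq F c c' O φ U v u ζ) {K : Set M} (h : K ⊆ O) :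
    CEq F c c' K φ U v u ζ :=
  ⟨⟨e.m.su.mono h, fun x k => e.m.uu x (h k), fun x k => e.m.uu' x (h k), fun x k => e.m.J x (h k),
    fun x k => e.m.ρ x (h k), fun x k => e.m.j x (h k)⟩, fun x k => e.W x (h k),
    fun x k => e.Φ x (h k), e.z⟩

theorem itw_conj {V V' : Type} [NormedAddCommGroup V] [NormedSpace ℝ V] [NormedAddCommGroup V']
    [NormedSpace ℝ V'] {e : ι → (x : M) → TangentSpace I x} {A : ι → M → CL V V}
    {A' : ι → M → CL V' V'} {T : M → CL V V'} {S : M → CL V' V} {π : M → CL V V}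
    (hT : Itw I e A A' T x) (hS : Itw I e A' A S x) (sT : Wz78.SA I T x) (sS : Wz78.SA I S x)
    (sπ : Wz78.SA I π x) {a : ι} (h : dv I (e a) π x + (A a x * π x - π x * A a x) = 0) :
    dv I (e a) (fun y => T y ∘L π y ∘L S y) x +
      (A' a x * (T x ∘L π x ∘L S x) - (T x ∘L π x ∘L S x) * A' a x) = 0 := by
  rw [dv_ccomp sT (sa_comp sπ sS), dv_ccomp sπ sS, eq_sub_of_add_eq (hT a),
    eq_sub_of_add_eq (hS a), eq_neg_of_add_eq_zero_left h]
  ext1 w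
  simp only [add_apply, sub_apply, neg_apply, zero_apply, mul_apply_eq_comp,
    ContinuousLinearMap.comp_apply, map_sub, map_add, map_neg]
  abel

variable {c : Cfg M ι lam r} {c' : Cfg M' ι' lam' r'} {u : M → CL c.m.V c'.m.V}
  (h : LM B G B' G' O φ U v c.W c'.W u) (i : Eqv71.Inv I I' φ ψ O O')
include h i

/-- **parallel lines are transported** -/
theorem lm_lin (H : Lin G.F c O) : Lin G'.F c' O' := by
  obtain ⟨π, s, H⟩ := H
  replace s : ∀ x ∈ O, Wz78.SA I π x := fun x hx => s.contMDiffAt (h.rot.ev hx)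
  have s' : ∀ y ∈ O', Wz78.SA I' (fun y => cj (u (ψ y)) ∘L π (ψ y) ∘L cj (trn (u (ψ y)))) y :=
    fun y hy => have k := i.maps' hy
      i.sa hy (f := fun x => cj (u x) ∘L π x ∘L cj (trn (u x)))
        (sa_comp (sa_cj (h.su _ k)) (sa_comp (s _ k) (sa_cj (sa_trn (h.su _ k)))))
  refine ⟨_, fun y hy => (s' y hy).contMDiffWithinAt, fun y hy => ?_⟩
  obtain ⟨x, hx, rfl⟩ := i.surj hy
  obtain ⟨h1, h2, h3, h4, h5⟩ := H x hx
  have e := h.me x hx
  have mem : ∀ w, π x w ∈ c.m.gS x := fun w =>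
    (show c.m.pg x (π x w) = π x w from congrArg (· w) h3) ▸ Wz78.pg_mem x _
  have key : ∀ w, cj (trn (u x)) (cj (u x) (π x w)) = π x w := fun w => e.trn_cj (mem w)
  refine ⟨?_, ?_, ?_, ?_, fun b => ?_⟩
  · rw [i.linv x hx]
    intro a b
    simp only [ContinuousLinearMap.comp_apply]
    rw [inner_cj, h1, inner_cj, trn_trn]
  · rw [i.linv x hx]
    ext1 w
    simp only [mul_apply_eq_comp, ContinuousLinearMap.comp_apply, key,
      show ∀ w, π x (π x w) = π x w from fun w => congrArg (· w) h2]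
  · rw [i.linv x hx]
    ext1 w
    exact Wz78.pg_of_mem (e.cj_mem (h.be x hx) h.ok h.ok' (mem _))
  · rw [i.linv x hx, ← h4]
    refine (LinearMap.trace_comp_comm' ((cj (u x) ∘L π x : CL _ _) : c.m.A →ₗ[ℝ] c'.m.A)
      (cj (trn (u x)) : c'.m.A →ₗ[ℝ] c.m.A)).symm.trans ?_
    congr 1
    exact LinearMap.ext key
  · have k2 := fun a => Eqv71.skw_sum (fun b => U x b a) fun b => h.cn'.sk b (φ x)
    have k := fun a => itw_conj ((h.itw x hx).cj (h.su x hx) (fun a => h.cn.sk a x) k2)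
      (((h.itw x hx).trn (h.su x hx) (fun a => h.cn.sk a x) k2).cj (sa_trn (h.su x hx)) k2
        fun a => h.cn.sk a x) (sa_cj (h.su x hx)) (sa_cj (sa_trn (h.su x hx))) (s x hx) (h5 a)
    rw [h.toLG.D hx (s' _ hy) (f := fun x => cj (u x) ∘L π x ∘L cj (trn (u x)))
      (fun y hy => by rw [i.linv y hy]) b, i.linv x hx, Md.adW,
      h.rot.of_pb hx (fun a => h.cn'.cc.proj a _) b, Eqv71.adc_sum]
    simp only [Finset.sum_mul, Finset.mul_sum, smul_mul_assoc, mul_smul_comm,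
      ← Finset.sum_sub_distrib, ← Finset.sum_add_distrib, ← smul_sub, ← smul_add]
    exact Finset.sum_eq_zero fun a _ => by rw [Pre.D_def, k a, smul_zero]

theorem lm_parS {ξ : M → c.m.A} (H : ParS G.F c O ξ) :
    ParS G'.F c' O' fun y => cj (u (ψ y)) (ξ (ψ y)) := by
  have s : ∀ x ∈ O, Wz78.SA I ξ x := fun x hx => H.sm.contMDiffAt (h.rot.ev hx)
  have s' : ∀ y ∈ O', Wz78.SA I' (fun y => cj (u (ψ y)) (ξ (ψ y))) y := fun y hy =>
    i.sa hy (f := fun x => cj (u x) (ξ x)) ((sa_cj (h.su _ (i.maps' hy))).app (s _ (i.maps' hy)))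
  refine ⟨fun y hy => (s' y hy).contMDiffWithinAt, fun y hy => ?_, fun b y hy => ?_⟩ <;>
    obtain ⟨x, hx, rfl⟩ := i.surj hy
  · rw [i.linv x hx]
    exact (h.me x hx).cj_mem (h.be x hx) h.ok h.ok' (H.mem x hx)
  · rw [h.toLG.nab hx (con_adW h.cn') (sa_cj (h.su x hx)) (h.itw_ad hx) (s x hx) (s' _ hy)
      ((h.rot.ev hx).mono fun y hy => by rw [i.linv y hy])]
    simp only [H.par _ x hx, map_zero, smul_zero, Finset.sum_const_zero]

theorem lm_red (H : Red G.F c O) : Red G'.F c' O' := by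
  obtain ⟨ξ, H, x, hx, h0⟩ := H
  refine ⟨_, lm_parS h i H, φ x, i.maps hx, fun k => h0 ?_⟩
  rw [i.linv x hx] at k
  rw [← (h.me x hx).trn_cj (H.mem x hx), k, map_zero]

theorem lm_flat (H : ∀ x ∈ O, c.m.Fg G.F c.W x = 0) : ∀ y ∈ O', c'.m.Fg G'.F c'.W y = 0 :=
  fun y hy => by
    obtain ⟨x, hx, rfl⟩ := i.surj hy
    rw [h.Fg hx, H x hx, map_zero]

omit h i

theorem ceq_fix {c' : Cfg M' ι' lam' r} {u : M → CL c.m.V c'.m.V} {ζ : Circle}
    (g : LG B G B' G' O φ U v) (i : Eqv71.Inv I I' φ ψ O O') (a : Ad0 c B G) (a' : Ad0 c' B' G')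
    (e : CEq G.F c c' O φ U v u ζ) (H : Fix G.F c O) : Fix G'.F c' O' := by
  obtain ⟨ξ, H, k⟩ := H
  refine ⟨_, lm_parS (g.of_ceq a a' e) i H, fun y hy => ?_⟩
  obtain ⟨x, hx, rfl⟩ := i.surj hy
  rw [i.linv x hx]
  exact Abel74.ceq_half e a.ok hx (H.mem x hx) (k x hx)

/-- `c` over `O` and `c'` over `O'` have the same type -/
structure SameT (F : Fr I M ι) (c : Cfg M ι lam r) (O : Set M) (F' : Fr I' M' ι')
    (c' : Cfg M' ι' lam' r') (O' : Set M') : Prop where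
  lin : Lin F c O ↔ Lin F' c' O'
  red : Red F c O ↔ Red F' c' O'
  fix : Fix F c O ↔ Fix F' c' O'
  flat : (∀ x ∈ O, c.m.Fg F c.W x = 0) ↔ ∀ y ∈ O', c'.m.Fg F' c'.W y = 0
  sp : (∃ x ∈ O, c.Φ x ≠ 0) ↔ ∃ y ∈ O', c'.Φ y ≠ 0

/-- **the type is invariant** -/
theorem ceq_same {c' : Cfg M' ι' lam' r} {u : M → CL c.m.V c'.m.V} {ζ : Circle}
    (g : LG B G B' G' O φ U v) (i : Eqv71.Inv I I' φ ψ O O') (a : Ad0 c B G) (a' : Ad0 c' B' G')
    (e : CEq G.F c c' O φ U v u ζ) : SameT G.F c O G'.F c' O' :=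
  have k := g.of_ceq a a' e
  have i' := g.rot.inv i
  have n : ∀ x ∈ O, c'.Φ (φ x) ≠ 0 ↔ c.Φ x ≠ 0 := fun x hx => by
    rw [← norm_ne_zero_iff, Eqv71.ceq_norm g a a' e hx, norm_ne_zero_iff]
  ⟨⟨lm_lin k i, lm_lin (k.symm i) i'⟩, ⟨lm_red k i, lm_red (k.symm i) i'⟩,
    ⟨ceq_fix g i a a' e, ceq_fix (g.symm i) i' a' a (Eqv71.ceq_symm g i a a' e)⟩,
    ⟨lm_flat k i, lm_flat (k.symm i) i'⟩, fun ⟨x, h1, h2⟩ => ⟨_, i.maps h1, (n x h1).2 h2⟩,
    fun ⟨_, h1, h2⟩ => let ⟨x, h3, h4⟩ := i.surj h1; ⟨x, h3, (n x h3).1 (h4 ▸ h2)⟩⟩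

/-- the same for two geometries which agree on `O`, over an open part `K` -/
theorem eqOn_same {G' : Geo I M ι lam} {c' : Cfg M ι lam r} {u : M → CL c.m.V c'.m.V} {ζ : Circle}
    (hB : B.OK I) (hG : G.OK B) (hG' : G'.OK B)
    (h : ∀ x ∈ O, ∀ a, G.F.e a x = G'.F.e a x ∧ G.a a x = G'.a a x) (a : Ad0 c B G)
    (a' : Ad0 c' B G') (e : EqOn B G'.F O c c' u ζ) {K : Set M} (hK : IsOpen K) (k : K ⊆ O) :
    SameT G.F c K G'.F c' K :=
  ceq_same (lg_on hB hG hG' hK fun x hx => h x (k hx)) (inv_refl hK) a a'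
    (ceq_mono (ceq_on e fun x hx a => (h x hx a).1.symm) k)

end gen

variable {Wi : Type} {X : Mf 4} {A κ lam : Type} [Fintype A] [Fintype κ] [Fintype lam]
  [DecidableEq lam] {M : Mark X A κ} {W : World M} {N : ML M lam} {Λ : Lns W N} {A' h : Type}
  [Fintype A'] [DecidableEq A'] [Fintype h] {r n m : ℕ} {J : Job Wi Λ A' h r n} {c : M.Cl}
  {σ : Cel A'} {π : Reg A} {T : Type} [NormedAddCommGroup T] [NormedSpace ℝ T]
  {𝔉 : Mod61.Fam (W.Z c).I (W.Z c).M (Option κ) (lam ⊕ lam) T} {p : Prt A A' h}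
  {s : T → A' → ℝ}

variable (J c p) in
/-- the geometries at `t` and `t'` agree on the part -/
abbrev FrEq (t t' : A' → ℝ) : Prop := ∀ x ∈ W.un c p.P, ∀ a,
  (J.G c t).F.e a x = (J.G c t').F.e a x ∧ (J.G c t).a a x = (J.G c t').a a x

/-- an object and its representative have the same type on the pieces -/
theorem Lk.same {e : T → PtX (W.Z c).M (Option κ) (lam ⊕ lam) r n m}
    {τ : Wi → T → PtX (W.Z c).M (Option κ) (lam ⊕ lam) r n m} (L : Lk J σ 𝔉 p s e τ) {o : Ref 𝔉}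
    {y : Pnt o r} {y₀ : J.Obc c} (h0 : y₀.Ok) (hf : FrEq J c p y₀.s (s y.t))
    {u : (W.Z c).M → CL y₀.x.m.V y.cfg.m.V} {ζ : Circle}
    (he : EqOn 𝔉.B (𝔉.G y.t).F 𝔉.Om y₀.x y.cfg u ζ) (hπ : π ∈ p.P) :
    SameT (J.G c y₀.s).F y₀.x (W.pc c π) (𝔉.G y.t).F y.cfg (W.pc c π) := by
  have a := y.ad0 L.fam
  have b := L.fam.G _ y.ht
  have b' := L.fam.B
  rw [L.G _ y.ht] at a b he ⊢
  rw [L.B] at a b b' he
  rw [L.Om] at he
  exact eqOn_same b' (Λ.G_ok _ h0.2) b hf h0.1 a he (Cyl58.isClopen_pc _ (L.pc π hπ)).2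
    fun _ hx => mem_un.2 ⟨π, hπ, hx⟩

/-- **DENS at the representative of an object of the stratum** -/
theorem Lk.dens [CompleteSpace T] {Θ : Th 𝔉 r n m Wi} {Adm : (Wi →₀ ℝ) → Prop} (H : Θ.OK Adm)
    (L : Lk J σ 𝔉 p s Θ.e Θ.τ) (hR : J.PRich σ c p) {q : Wi →₀ ℝ} {x : Θ.X} (ha : Adm q)
    (hx : H.Q.Sol q x) (hs : s x.2.t ∈ Job.cl σ) {y₀ : J.Obc c}
    (h0 : y₀.x.Adm (J.B c) (J.G c y₀.s)) (h1 : J.Θ y₀.s ∈ M.O c.1) (hI : Job.In p y₀)
    (hf : FrEq J c p y₀.s (s x.2.t)) {u : (W.Z c).M → CL y₀.x.m.V x.2.cfg.m.V} {ζ : Circle}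
    (he : EqOn 𝔉.B (𝔉.G x.2.t).F 𝔉.Om y₀.x x.2.cfg u ζ)
    {φ : EuclideanSpace ℂ (Fin r) → Fin m → ℝ}
    (hφ : ∀ y : Pnt (Θ.ref x.1) r, (Θ.e y.t).R y.cfg = φ y.z)
    (hρ : ∀ ρ, ∃ ζ, HasDerivAt (fun s : ℝ => φ (x.2.z + s • ζ)) ρ 0) : ∃ S, H.Q.Onto q x S := by
  have k := fun π hπ => L.same (π := π) ⟨Eqv71.ad0 h0, h1⟩ hf he hπ
  have i := (L.ov _ x.2.ht).2
  refine L.onto H ha hx (h0.z.imp hR.z fun a b => ?_) (hR.T _ hs i) (hR.S _ hs i)
    (fun π hπ => (k π (L.sub hπ)).sp.1 (hI.sp π hπ)) (fun π a b => ?_) hφ hρ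
  · have : (ζ : ℂ) ^ 2 • y₀.x.z = 0 := he.z.symm.trans b
    rw [smul_eq_zero_iff_right (pow_ne_zero _ ζ.coe_ne_zero)] at this
    simp [this] at a
  · have := not_or.1 (hI.ir π a b)
    rw [(k π a).lin, (k π a).flat] at this
    exact ⟨this.1, by simpa only [not_forall, exists_prop] using this.2⟩

end Crest.Agent.X212.Wrd81
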