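import Crest.Agent.X212.Wrd81.Loc
import Crest.Agent.X212.Spn45.Conn

/-!
# X212 / WORDS, part 31 (helper81): the equations of a part at another parameter.
-/

set_option autoImplicit false
set_option linter.unusedSectionVars false
noncomputable section
open scoped Manifold ContDiff Topology InnerProductSpace
open MeasureTheory Set Function Filter

namespace Crest.Agent.X212.Wrd81
open An Nd18 Eqv71
open Pj41 (ConnOn IsConn.on)

section gen
variable {E : Type} [NormedAddCommGroup E] [NormedSpace ℝ E] [FiniteDimensional ℝ E]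
  [MeasurableSpace E] [BorelSpace E]
  {HM : Type} [TopologicalSpace HM] {I : ModelWithCorners ℝ E HM} [I.Boundaryless]
  {M : Type} [TopologicalSpace M] [ChartedSpace HM M] [IsManifold I ∞ M]
  [MeasurableSpace M] [BorelSpace M] [T2Space M] [SecondCountableTopology M]
  {lam : Type} [Fintype lam] {O : Set M} {r : ℕ}

section
variable {ι : Type} [Fintype ι] {B : Base M ι lam} {G G' : Geo I M ι lam}

theorem conn_agr (h : Cht98.Agr G G' O) {m : Md M ι lam} {W : m.Cn} (C : ConnOn B G m W O) :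
    ConnOn B G' m W O :=
  have D : ∀ {N : Type} [NormedAddCommGroup N] [NormedSpace ℝ N] (f : M → N) a, ∀ x ∈ O,
      G'.F.D a f x = G.F.D a f x := fun f a x hx => by rw [Pre.D_def, Pre.D_def, Sob92.dv, Sob92.dv, h.e x hx]
  ⟨C.sm, C.proj, fun a x hx => by rw [D _ a x hx, C.par a x hx],
    fun a b x hx => by
      rw [D _ a x hx, C.comp a b x hx]
      simp only [h.rel.Gam hx, id], C.sk, C.J,
    fun a x hx s => by rw [D _ a x hx, C.j a x hx, h.a x hx]⟩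

/-- a configuration for `G` is, over `O`, a configuration for `G'` -/
theorem exists_ad0 (hB : B.OK I) (hG' : G'.OK B) (h : Cht98.Agr G G' O) (hO : IsClopen O)
    {c : Cfg M ι lam r} (a : Ad0 c B G) :
    ∃ W : c.m.Cn, Ad0 (⟨c.m, W, c.Φ, c.z⟩ : Cfg M ι lam r) B G' ∧ ∀ b, ∀ x ∈ O, W b x = c.W b x := by
  classical
  obtain ⟨V, hV⟩ := Spn45.exists_conn hB hG' a.ok
  refine ⟨fun b x => if x ∈ O then c.W b x else V b x, ⟨a.ok, ConnOn.isConn (.of_local fun x _ => ?_)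
    a.ok, a.sm, a.pos⟩, fun b x hx => if_pos hx⟩
  by_cases hx : x ∈ O
  · exact ⟨_, hx, (conn_agr h (IsConn.on a.conn _)).congr hO.2 fun b x hx => if_pos hx⟩
  · exact ⟨_, mem_compl hx, (IsConn.on hV _).congr hO.1.isOpen_compl fun b x hx => if_neg hx⟩

theorem ceq_symm2 (g : LG B G B G' O id (fun x b a => B.P b a x) B.l) (hO : IsOpen O)
    {c c' : Cfg M ι lam r} (h : Ad0 c B G) (h' : Ad0 c' B G') {u : M → CL c.m.V c'.m.V} {ζ : Circle}
    (e : CEq G.F c c' O id (fun x b a => B.P b a x) B.l u ζ) :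
    CEq G'.F c' c O id (fun x b a => B.P b a x) B.l (fun x => trn (u x)) ζ⁻¹ := by
  have := ceq_symm g (inv_refl hO) h h' e
  have h1 : (fun y a b => B.P b a (id y)) = fun x b a => B.P b a x :=
    funext fun y => funext fun a => funext fun b => (g.hB.pr y).symm b a
  have h2 : (fun y => trn (B.l (id y))) = B.l := funext fun y => trn_of_sym (g.hB.lsym y)
  rw [h1, h2] at this
  exact this

end

variable {E3 : Type} [NormedAddCommGroup E3] [NormedSpace ℝ E3] [FiniteDimensional ℝ E3]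
  [MeasurableSpace E3] [BorelSpace E3]
  {H3 : Type} [TopologicalSpace H3] {I3 : ModelWithCorners ℝ E3 H3} [I3.Boundaryless]
  {Y : Type} [TopologicalSpace Y] [ChartedSpace H3 Y] [IsManifold I3 ∞ Y] [T2Space Y]
  [MeasurableSpace Y] [BorelSpace Y] [SecondCountableTopology Y] [CompactSpace Y]
  {κ : Type} [Fintype κ] {D : YD I3 Y κ lam} {B : Base M (Option κ) lam}
  {G G' : Geo I M (Option κ) lam} {K : Nk D B G} {K' : Nk D B G'}
  {c c₀ : Cfg M (Option κ) lam r} {β : YC Y κ lam} {ζ ξ : Circle}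

theorem cls_W {W : c.m.Cn} (h : ∀ b, ∀ x ∈ K.ψ.target, W b x = c.W b x)
    {u : Y × ℝ → CL (K.pb c).m.V β.m.V} {S : Set ℝ} {k : ℕ} {η : ℝ} (hS : S ⊆ K.J)
    (H : D.Cls (K.pb c) β u ζ S k η) : D.Cls (K.pb ⟨c.m, W, c.Φ, c.z⟩) β u ζ S k η :=
  ⟨H.op, H.m, fun i w hw z hz => Eq.trans_le (congrArg _ (Prm93.Dw_congr w
    (((isOpen_univ.prod H.op).eventually_mem hz).mono fun y hy => congrArg (fun T : CL (K.pb c).m.V
      (K.pb c).m.V => (D.Z.D i u y + β.W i y.1 ∘L u y - u y ∘L T) ∘L trn (u y))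
      (h i _ (K.ψ.map_source (K.mem_src.2 (hS hy.2))))))) (H.A i w hw z hz), H.P⟩

variable (e : SameN K K') (hB : B.OK I) (hG' : G'.OK B) (hA : Cht98.Agr G G' O) (hO : IsClopen O)
  (hK : K.ψ.target ⊆ O) (hβ : D.Adm β) (h₀ : Ad0 c₀ B G') (h : Ad0 c B G) {g : M → CL c₀.m.V c.m.V}
  (a : CEq G'.F c₀ c O id (fun x b a => B.P b a x) B.l g ξ)
include e hB hG' hA hO hK hβ h₀ h a

/-- closeness to a limit for two geometries -/
theorem SameN.cls_pre {u : Y × ℝ → CL c.m.V β.m.V} {S : Set ℝ} {k : ℕ} {η : ℝ} (hS : S ⊆ K.J)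
    (H : D.Cls (K.pb c) β u ζ S k η) :
    D.Cls (K'.pb c₀) β (fun x => u x ∘L g (K'.ψ x)) (ζ * ξ) S k η := by
  obtain ⟨W, h1, h2⟩ := exists_ad0 hB hG' hA hO h
  have k := e.tgt ▸ hK
  exact Eqv71.cls_pre (c := ⟨c.m, W, c.Φ, c.z⟩) hB hO.2 k hβ h₀ h1
    ⟨a.m, fun x hx b => by simpa only [id, h2 _ x hx] using a.W x hx b, a.Φ, a.z⟩ (e.J ▸ hS)
    (cls_W (fun b x hx => h2 b x (k hx)) (e.J ▸ hS) (e.cls hS H))

theorem SameN.lim_pre {l : Filter ℝ} (H : K.Lim c β ζ l) : K'.Lim c₀ β (ζ * ξ) l :=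
  let ⟨_, H⟩ := H
  ⟨_, fun k η hη => let ⟨S, x, b, d⟩ := H k η hη
    ⟨S, x, e.J ▸ b, e.cls_pre hB hG' hA hO hK hβ h₀ h a b d⟩⟩

theorem SameN.elim_pre {l : Filter ℝ} {d : ℝ} (H : K.ELim d c β ζ l) : K'.ELim d c₀ β (ζ * ξ) l :=
  let ⟨_, S, x, b, f, H⟩ := H
  ⟨_, S, x, e.J ▸ b, e.cls_pre hB hG' hA hO hK hβ h₀ h a b f, fun k => (H k).imp fun _ H _ hs =>
    e.cls_pre hB hG' hA hO hK hβ h₀ h a (hs.trans b) (H _ hs)⟩

theorem SameN.near_pre {s η : ℝ} (H : K.Near c s β η) : K'.Near c₀ s β η :=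
  let ⟨x, _, _, b⟩ := H; ⟨e.J ▸ x, _, _, e.cls_pre hB hG' hA hO hK hβ h₀ h a x b⟩

end gen
end Crest.Agent.X212.Wrd81

namespace Crest.Agent.X212.An.Job
open M Nd18 Wrd81 Eqv71

variable {Wi : Type} {X : Mf 4} {A κ lam : Type} [Fintype A] [Fintype κ] [Fintype lam]
  [DecidableEq lam] {M : Mark X A κ} {W : World M} {N : ML M lam}
  {Λ : Lns W N} {A' T : Type} [Fintype A'] [DecidableEq A'] [Fintype T] {r n : ℕ}
  {J : Job Wi Λ A' T r n} {c : M.Cl} {σ : Cel A'} {p : Prt A A' T} {t : A' → ℝ} {q : Wi →₀ ℝ}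
  {y : J.Obc c} {x : Cfg (W.Z c).M (Option κ) (lam ⊕ lam) r}
  {ψ : ∀ i, (J.cut c i).H (J.B c) x.m} {ξ : Circle} {u : (W.Z c).M → CL x.m.V y.x.m.V}

/-- the object with a new parameter and new fields -/
abbrev Obc.re2 (y : J.Obc c) (t : A' → ℝ) (x : Cfg (W.Z c).M (Option κ) (lam ⊕ lam) r)
    (ψ : ∀ i, (J.cut c i).H (J.B c) x.m) (ξ : Circle) : J.Obc c :=
  ⟨t, x, y.H, ψ, y.β, fun a b => y.ζ a b * ξ, y.k, y.j, y.l⟩

/-- the ends are active at all parameters over the face -/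
theorem OK.act_end (hJ : J.OK) (hσ : σ ∈ J.𝒦) (h : J.Ov σ c t) {a : A} {b : Bool} {s : Prm A}
    (ha : Act J.m c a (some b) s) : Act J.m c a (some b) (J.Θ t) :=
  ⟨ha.1, hJ.memBr hσ h, hJ.memO hσ h, ha.2.2.2⟩

/-- **the equations of a part see the live coordinates only** -/
theorem SolOn.re2 (hJ : J.OK) (hσ : σ ∈ J.𝒦) (hp : J.POK σ c p) (H : SolOn p σ q y) (ht : t ∈ cl σ)
    (hi : Sys.inf (J.Θ t).2 = c.1) (hV : ∀ a ∈ p.V, y.s a = t a) (hx : Ad0 x (J.B c) (J.G c t))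
    (h0 : ∀ z ∉ W.un c p.P', x.Φ z = 0)
    (e : CEq (J.G c t).F x y.x (W.un c p.P) id (fun x b a => (J.B c).P b a x) (J.B c).l u ξ)
    (f : ∀ i ∈ p.H, (J.cut c i).Eqv (J.cut c i) (J.B c) (J.B c) u (ψ i) (y.ψ i)) :
    SolOn p σ q (y.re2 t x ψ ξ) := by
  have hO := isClopen_un (W := W) hp.pc
  have hs : W.un c p.P' ⊆ W.un c p.P := biUnion_subset_biUnion_left hp.sub
  have o : J.Ov σ c t := ⟨J.cl_dom ht, hi⟩
  have hV' := fun a ha => (hV a ha).symm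
  have g := hp.kt2 hJ hσ o H.ov hV'
  have g' := hp.kt2 hJ hσ H.ov o hV
  have a := ad0 H.adm
  have k : CR0 _ _ _ _ _ _ _ _ _ x y.x u ξ :=
    ⟨hx, a, fun z hz => h0 z fun k => hz (hs k), fun z hz => H.off z fun k => hz (hs k), e⟩
  have k' : CR0 _ _ _ _ _ _ _ _ _ y.x x _ _ :=
    ⟨a, hx, k.off', k.off, ceq_symm2 g.toLG hO.2 hx a e⟩
  have l := k.lm g.toKC
  have τ := hp.t_rel hJ hσ H.ov o hV q
  refine ⟨ht, hi, ⟨hx.ok, hx.conn, hx.sm, hx.pos,
    H.adm.z.imp id fun z => (ceq_norm_z e).symm.trans z⟩, h0, fun z hz => ?_, fun z hz => ?_,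
    fun i => ?_, fun i hi => ?_, fun b d ha hb => ?_, H.crit, ?_⟩
  · exact (τ.eD g'.toLG k' (hs hz)).trans (by rw [H.D z hz, map_zero, ← csL_apply, map_zero])
  · exact (τ.eC g'.toLG k' hz).trans (by rw [H.C z hz, map_zero])
  · exact (τ.S k' i).trans (by rw [H.S, mul_zero])
  · have ui := unc_of hp.pc (hp.nb i hi)
    exact (PcRel0.sol (hp.sc_rel hJ hσ o H.ov hV' hi q) g.toLG (hJ.ct σ hσ _ o.1 c o.2 i ui)
      (hJ.ct σ hσ _ H.ov.1 c H.inf i ui) (Cnt93.rel_refl g.hB (hJ.cut_sub (hp.nb i hi))) k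
      (f i hi)).1 (H.cut i hi)
  · have cr := H.crit b ⟨ha.2.2.2, ha.1⟩ d hb
    have ha' := hJ.act_end hσ H.ov ha
    exact (hJ.end_eq ha' ha).lim_pre g.hB g.hG (hp.agr hJ hσ H.ov o hV) hO
      (hJ.end_sub ha' hp.pc hb) ⟨cr.sol.toAdm, cr.tmp⟩ hx a e (H.lim b d ha' hb)
  · have := H.int.congr_fun (fun z hz => l.kd hz) hO.2.measurableSet
    rwa [IntegrableOn, hp.μ_eq hJ hσ H.ov o hV] at this

end Crest.Agent.X212.An.Job
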