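import Crest.Agent.X212.Wrd81.Apx
import Crest.Agent.X212.Mod61.Inst
import Crest.Agent.X212.Map77.Ins

/-!
# X212 / WORDS, part 22 (helper81): density piece by piece; `Onto` for `Th`.
-/

set_option autoImplicit false
set_option linter.unusedSectionVars false
noncomputable section
open scoped Manifold ContDiff Topology InnerProductSpace
open MeasureTheory Set Function Filter

namespace Crest.Agent.X212.Wrd81
open An Sob92 Mod61 Map77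

variable {E : Type} [NormedAddCommGroup E] [NormedSpace ℝ E] [FiniteDimensional ℝ E]
  [MeasurableSpace E] [BorelSpace E]
  {HM : Type} [TopologicalSpace HM] {I : ModelWithCorners ℝ E HM} [I.Boundaryless]
  {M : Type} [TopologicalSpace M] [ChartedSpace HM M] [IsManifold I ∞ M]
  [MeasurableSpace M] [T2Space M] [BorelSpace M] [SecondCountableTopology M]
  {ι : Type} [Fintype ι] {lam : Type} [Fintype lam]
  {T : Type} [NormedAddCommGroup T] [NormedSpace ℝ T] {r n : ℕ} {Ω Ω' K S : Set M}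

/-! ### function level -/

variable (I Ω) in
/-- all field terms in `Ω` with the coefficient `d` are available -/
structure RichP (d : Co M lam r) (Av : Tm M lam r n → Prop) : Prop where
  lin : ∀ f u, Tf I Ω f → SwIn I Ω u → Av (.lin (.mul f :: u))
  anti : ∀ s u, Tv I Ω s → SwIn I Ω u → Av (.anti d s u)
  ad : ∀ g g' t f l, Tf I Ω g → Tf I Ω g' → AwIn I Ω ⟨t, .mul f :: l⟩ →
    Av (.ad g g' ⟨t, .mul f :: l⟩)
  adj : ∀ s g g' u v, Tv I Ω s → Tf I Ω g → Tf I Ω g' → SwIn I Ω u → SwIn I Ω v →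
    Av (.adj d s g g' u v [])

section fn
variable {c : Cfg M ι lam r} {B : Base M ι lam} {G : Geo I M ι lam} {F' : Pre I M ι} {k : ℕ}
  {d : Co M lam r} {Av : Tm M lam r n → Prop}

/-- the configuration with one coefficient -/
abbrev cz1 (c : Cfg M ι lam r) (a : ℂ) : Cfg M ι lam 1 := ⟨c.m, c.W, c.Φ, WithLp.toLp 2 fun _ => a⟩

lemma cz1_lt (F : Fr I M ι) (a : ℂ) : (cz1 c a).lt F = c.lt F :=
  funext fun t => by cases t <;> rfl

lemma cz1_la (F : Fr I M ι) (a : ℂ) : (cz1 c a).la F = c.la F :=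
  funext fun t => by cases t <;> rfl

lemma cz1_sw (F : Fr I M ι) (a : ℂ) (u : SW M) : (cz1 c a).sw F u = c.sw F u :=
  congrArg (fun L => wd L c.Φ u) (cz1_lt F a)

lemma cz1_aw (F : Fr I M ι) (a : ℂ) (ξ : AW M) : (cz1 c a).aw F ξ = c.aw F ξ := by
  obtain ⟨s, l⟩ := ξ
  rw [Cfg.aw, Cfg.aw, cz1_la]
  cases s
  · simp only [Cfg.sd, cz1_sw]
  · rfl

lemma Pc.cz1 (h : Pc c B G K Ω) (a : ℂ) : Pc (cz1 c a) B G K Ω :=
  ⟨h.hB, h.hG, h.ok, h.conn, h.sm, h.pΦ, h.rs, h.ra, h.cl, h.op, h.null⟩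

variable (h : Pc c B G K Ω) (hΦ : ∀ x ∈ K, ∃ y ∈ connectedComponent x, c.Φ y ≠ 0)
  (d0 : c.co G.F d ≠ 0) (hR : RichP I Ω d Av)
include h hΦ d0 hR

theorem Pc.rich_D {u : M → c.m.V} (hu : u ∈ Tst I M _) (hs : tsupport u ⊆ Ω ∩ K)
    (hq : ∀ x, c.m.pm B x (u x) = u x) : u ∈ Ap F' k {v | (∀ x, c.m.pm B x (v x) = v x) ∧
      ∃ τ, Av τ ∧ c.tD B G.F τ = v ∧ c.tC B G.F τ = 0 ∧ c.tS G.F τ = 0} := by
  obtain ⟨π, p⟩ := (h.cz1 (c.co G.F d)).exists_sp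
  have i := fun x v => congrArg (fun S : En (Fin c.m.N) => S v) (Wz78.pm_pm h.hB h.ok x)
  refine Ap.mono ?_ (p.ap_D (n := 0) (P := fun τ => (∃ u, τ = .lin u) ∨ ∃ s u, τ = .anti (.z 0) s u)
    (h.cz1 _) (p.ne_zero hΦ h.cl) (d := .z 0) trivial d0 (fun u => .inl ⟨u, rfl⟩)
    (fun s u => .inr ⟨s, u, rfl⟩) hu.1 hu.2.1 hs hq)
  rintro _ ⟨_, t, ⟨u, rfl⟩ | ⟨s, u, rfl⟩, rfl⟩
  · obtain ⟨t, f, u, rfl⟩ := t
    exact ⟨fun x => i x _, _, hR.lin f u (t _ List.mem_cons_self)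
      (List.forall_mem_cons.1 t).2, by simp only [Cfg.tD, cz1_sw], rfl, rfl⟩
  · exact ⟨fun x => i x _, _, hR.anti s u t.2.1 t.2.2, by simp only [Cfg.tD, cz1_sw]; rfl, rfl, rfl⟩

theorem Pc.rich_C {u : M → Fm (ι × ι) c.m.A} (hu : u ∈ Tst I M _) (hs : tsupport u ⊆ Ω ∩ K)
    (hq : ∀ x, c.m.p2 B x (u x) = u x) : u ∈ Ap F' k {v | (∀ x, c.m.p2 B x (v x) = v x) ∧
      ∃ τ, Av τ ∧ c.tD B G.F τ = 0 ∧ c.tC B G.F τ = v ∧ c.tS G.F τ = 0} := by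
  obtain ⟨π, p⟩ := (h.cz1 (c.co G.F d)).exists_sp
  have i := Std94.p2_p2 (m := c.m) h.hB
  refine Ap.mono ?_ (p.ap_C (n := 0) (P := fun τ => (∃ g g' t f, τ = .ad g g' ⟨t, [.mul f]⟩) ∨
    ∃ s g g' u v, τ = .adj (.z 0) s g g' u v []) (h.cz1 _) (p.ne_zero hΦ h.cl) (d := .z 0) trivial d0
    (fun _ _ _ _ _ => .inl ⟨_, _, _, _, rfl⟩) (fun _ _ _ _ _ => .inr ⟨_, _, _, _, _, rfl⟩)
    hu.1 hu.2.1 hs hq)
  rintro _ ⟨_, t, ⟨g, g', s, f, rfl⟩ | ⟨s, g, g', u, v, rfl⟩, rfl⟩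
  · exact ⟨fun x => i x _, _, hR.ad g g' s f [] t.1 t.2.1 t.2.2, rfl,
      by simp only [Cfg.tC, cz1_aw], rfl⟩
  · exact ⟨fun x => i x _, _, hR.adj s g g' u v t.2.1 t.2.2.1 t.2.2.2.1 t.2.2.2.2.1 t.2.2.2.2.2.1,
      rfl, by simp only [Cfg.tC, wd, List.foldr, Cfg.qj, cz1_sw]; rfl, rfl⟩

omit hΦ d0 hR in
/-- a free piece has a non-zero scalar of weight two -/
theorem Pc.exists_sg (hK : IsPreconnected K) (hf : ¬Nd18.Fix G.F c K) :
    ∃ g : Sg M lam, SgIn I Ω g ∧ c.sg G.F g ≠ 0 ∧ c.co G.F (.s g []) ≠ 0 := by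
  obtain ⟨π, p⟩ := h.exists_sp
  refine (p.exists_co h).elim (fun a => ?_) fun ⟨g, h1, h2, _, h3⟩ => ⟨g, h1, h2, h3⟩
  have b := p_of_not_fix h.hB h.ok h.conn hK p.sm (fun x _ => p.hf x) p.idem p.toPrj.nabE
    (p.fix _ ⟨[], swIn_nil, rfl⟩) hf
  refine (hf ⟨0, ⟨contMDiffOn_const, fun _ _ => zero_mem _, fun a x _ => by
    simp [Wz78.nab, dv_zero]⟩, fun x hx => ?_⟩).elim
  obtain ⟨s, t, e, -⟩ := (p.hf x).exists_t h.hB h.ok
  have := a x hx s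
  rw [b x hx, h.ok.pj, Wz78.j_p h.ok] at this
  rw [← h.pΦ x, ← e, this]
  simp

end fn

/-! ### the Banach model -/

variable {𝔉 : Mod61.Fam I M ι lam T} {o : Ref 𝔉} {m k : ℕ} {N : Submodule ℝ (o.Y n m k)}
  {y : Pnt o r}

variable (N) in
/-- the class of the value `(a, b, ρ)` lies in `N` -/
def Val (a : M → o.m.V) (b : M → Fm (ι × ι) o.m.A) (ρ : (Fin n → ℂ) × (Fin m → ℝ)) : Prop :=
  ∀ e : o.Y n m k, 𝔉.F0.val k o.Pm e.1 = 𝔉.Om'.indicator a →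
    𝔉.F0.val k o.P2 e.2.1 = 𝔉.Om.indicator b → e.2.2 = ρ → e ∈ N

variable (N y) in
/-- the value of the term lies in `N` -/
abbrev Av (τ : Tm M lam r n) : Prop := Val N (y.cfg.tD 𝔉.B (𝔉.G y.t).F τ)
  (y.cfg.tC 𝔉.B (𝔉.G y.t).F τ) (y.cfg.tS (𝔉.G y.t).F τ, 0)

/-- from a perturbation whose value at `y` is a non-zero multiple -/
theorem Val.of_rep {τ : T → PtX M ι lam r n m} (hτ : ∀ e, RepE τ y e → e ∈ N) {s : ℝ} (hs : s ≠ 0)
    {a : M → o.m.V} {b : M → Fm (ι × ι) o.m.A} {ρ : (Fin n → ℂ) × (Fin m → ℝ)}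
    (h1 : ∀ x ∈ 𝔉.Om', (τ y.t).D y.cfg x = s • a x) (h2 : ∀ x ∈ 𝔉.Om, (τ y.t).C y.cfg x = s • b x)
    (h3 : (τ y.t).S y.cfg = s • ρ.1) (h4 : (τ y.t).R y.cfg = s • ρ.2) : Val N a b ρ := by
  intro e e1 e2 e3
  refine (N.smul_mem_iff hs).1 (hτ _ ⟨?_, ?_, by rw [h3, ← e3]; rfl, by rw [h4, ← e3]; rfl⟩)
  · rw [Prod.smul_fst, val_smul, e1, indicator_congr h1]; exact ind_smul _ _ _
  · rw [Prod.smul_snd, Prod.smul_fst, val_smul, e2, indicator_congr h2]; exact ind_smul _ _ _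

lemma Val.row {ρ : (Fin n → ℂ) × (Fin m → ℝ)} (h : Val N 0 0 ρ) : (0, 0, ρ) ∈ N :=
  h _ (by rw [indicator_zero']; exact val_zero) (by rw [indicator_zero']; exact val_zero) rfl

variable (N Ω) in
/-- test sections in `Ω` are approximated by values in `N` -/
structure Dn : Prop where
  D : ∀ u ∈ Tst I M _, tsupport u ⊆ Ω ∩ 𝔉.Om' → (∀ x, o.m.pm 𝔉.B x (u x) = u x) →
    u ∈ Ap 𝔉.F0.toPre k {v | (∀ x, o.m.pm 𝔉.B x (v x) = v x) ∧ Val N v 0 0}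
  C : ∀ u ∈ Tst I M _, tsupport u ⊆ Ω ∩ 𝔉.Om → (∀ x, o.m.p2 𝔉.B x (u x) = u x) →
    u ∈ Ap 𝔉.F0.toPre k {v | (∀ x, o.m.p2 𝔉.B x (v x) = v x) ∧ Val N 0 v 0}

theorem Dn.mono (h : 𝔉.OK) (D : Dn Ω N) (e : Ω' ∩ 𝔉.Om ⊆ Ω) : Dn Ω' N :=
  ⟨fun u hu hs => D.D u hu fun _ k => ⟨e ⟨(hs k).1, h.sub (hs k).2⟩, (hs k).2⟩,
    fun u hu hs => D.C u hu fun _ k => ⟨e (hs k), (hs k).2⟩⟩

/-- piece by piece -/
theorem Dn.loc (h : 𝔉.OK) (D : ∀ x ∈ Ω ∩ 𝔉.Om, ∃ K, IsClopen K ∧ x ∈ K ∧ Dn (Ω ∩ K) N) : Dn Ω N :=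
  ⟨fun _ hu hs => mem_of_pcs (fun x hx => let ⟨K, h1, h2, h3⟩ := D x ⟨hx.1, h.sub hx.2⟩
      ⟨K, h1, h2, fun u a b => h3.D u a (inter_right_comm Ω _ K ▸ b)⟩) hu hs,
    fun _ hu hs => mem_of_pcs (fun x hx => let ⟨K, h1, h2, h3⟩ := D x hx
      ⟨K, h1, h2, fun u a b => h3.C u a (inter_right_comm Ω _ K ▸ b)⟩) hu hs⟩

variable (h : 𝔉.OK)
include h

section pcs
variable (hK : IsClopen K) (hΩ : IsOpen Ω) (h0 : 𝔉.F0.μ (K \ Ω) = 0)
include hK hΩ h0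

/-- **type F** -/
theorem dn_F (hΦ : ∀ x ∈ K, ∃ x' ∈ connectedComponent x, y.cfg.Φ x' ≠ 0) {d : Co M lam r}
    (d0 : y.cfg.co (𝔉.G y.t).F d ≠ 0) (hR : RichP I Ω d (Av N y)) : Dn (Ω ∩ K) N := by
  have p := pc h y hK hΩ h0
  refine ⟨fun u a b c => Ap.mono ?_ (p.rich_D hΦ d0 hR a (b.trans inter_subset_left) c),
    fun u a b c => Ap.mono ?_ (p.rich_C hΦ d0 hR a (b.trans inter_subset_left) c)⟩
  all_goals
    rintro _ ⟨a, τ, t1, t2, t3, t4⟩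
    rw [Av, t2, t3, t4] at t1
    exact ⟨a, t1⟩

/-- **type I** -/
theorem dn_I (hd : Disjoint K 𝔉.Om') (hc : IsPreconnected K) (h1 : ¬Nd18.Lin (𝔉.G y.t).F y.cfg K)
    (h2 : ∃ x ∈ K, y.cfg.m.Fg (𝔉.G y.t).F y.cfg.W x ≠ 0)
    (hR : ∀ g g' t f l, Tf I Ω g → Tf I Ω g' → AwIn I Ω ⟨t, .mul f :: l⟩ →
      Av N y (.ad g g' ⟨t, .mul f :: l⟩)) : Dn (Ω ∩ K) N := by
  have p := pc h y hK hΩ h0
  refine ⟨fun u a b c => ?_, fun u a b c => Ap.mono ?_ (p.ap_full (n := n)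
    (P := fun τ => ∃ g g' t f l, τ = .ad g g' ⟨t, .mul f :: l⟩)
    (full_of_not_lin p.hB p.ok p.conn hc h1 h2) (fun _ _ _ _ _ => ⟨_, _, _, _, _, rfl⟩) a.1 a.2.1
    (b.trans inter_subset_left) c)⟩
  · obtain rfl : u = 0 := tsupport_eq_empty_iff.1 (eq_empty_of_forall_notMem fun x hx =>
      hd.ne_of_mem (b hx).1.2 (b hx).2 rfl)
    exact zero_mem _
  · rintro _ ⟨_, t, ⟨g, g', s, f, l, rfl⟩, rfl⟩
    exact ⟨fun x => Std94.p2_p2 h.B x _, hR g g' s f l t.1 t.2.1 t.2.2⟩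

/-- a free piece has a non-zero scalar of weight two -/
theorem exists_sg (hc : IsPreconnected K) (hf : ¬Nd18.Fix (𝔉.G y.t).F y.cfg K) :
    ∃ g : Sg M lam, SgIn I Ω g ∧ y.cfg.sg (𝔉.G y.t).F g ≠ 0 ∧
      y.cfg.co (𝔉.G y.t).F (.s g []) ≠ 0 := (pc h y hK hΩ h0).exists_sg hc hf

end pcs

omit h in
lemma rows_of (a : ∀ i w, ((0, 0, Pi.single i w, 0) : o.Y n m k) ∈ N) (s : Fin n → ℂ) :
    (0, 0, s, 0) ∈ N := by
  have e : ((0, 0, s, 0) : o.Y n m k) = ∑ i, (0, 0, Pi.single i (s i), 0) := by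
    simp [Prod.ext_iff, Prod.fst_sum, Prod.snd_sum, Finset.univ_sum_single]
  exact e ▸ sum_mem fun i _ => a i _

omit h in
/-- scalar rows from the terms `cz` -/
theorem rows_cz {j : Fin r} (hz : y.z j ≠ 0) (a : ∀ i w, Av N y (.cz i w j)) (s : Fin n → ℂ) :
    (0, 0, s, 0) ∈ N := rows_of (fun i w => div_mul_cancel₀ w hz ▸ (a i _).row) s

omit h in
/-- scalar rows from the terms `cut` -/
theorem rows_cut {g : Sg M lam} (hg : y.cfg.sg (𝔉.G y.t).F g ≠ 0) (a : ∀ i w, Av N y (.cut i w g))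
    (s : Fin n → ℂ) : (0, 0, s, 0) ∈ N := rows_of (fun i w => div_mul_cancel₀ w hg ▸ (a i _).row) s

theorem Dn.lc_le (D : Dn Ω N) (hN : IsClosed (N : Set (o.Y n m k))) (hk : 4 ≤ k)
    (hS : ∀ s, (0, 0, s, 0) ∈ N) (hR : ∀ ρ, ∃ e ∈ N, e ∈ Lc n o m k Ω ∧ e.2.2.2 = ρ) :
    Lc n o m k Ω ≤ N := by
  have a : ∀ a ∈ HO 𝔉.F0.toPre k o.Pm Ω, (a, 0) ∈ N := fun a ha => by
    let L : 𝔉.F0.H k o.Pm →L[ℝ] o.Y n m k := .inl ℝ _ _
    refine HO_map hN L (fun u hu => ?_) ha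
    refine Ap.map_H (rep_mulH (h.cPm o) (Maps.of_left (Map77.ok_bd o h).sm.idem))
      (U := N.comap L.toLinearMap) (hN.preimage L.continuous) ?_ (D.D u ⟨u.2.1, u.2.2.1, fun _ => rfl⟩
        (subset_inter hu (tsupport_sec h.Om'.1 (fun x hx => indicator_of_notMem hx _) u))
        fun x => ind_fix (u.2.2.2 x)) u (funext u.2.2.2).symm
    rintro v ⟨t1, t2⟩ - w hw
    refine t2 _ ((val_toH h.sup hk w).trans (hw.trans (funext fun x => ?_)))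
      (by rw [indicator_zero']; exact val_zero) rfl
    by_cases hx : x ∈ 𝔉.Om'
    · rw [Ref.Pm, indicator_of_mem hx, indicator_of_mem hx]; exact t1 x
    · rw [Ref.Pm, indicator_of_notMem hx, indicator_of_notMem hx]; rfl
  have b : ∀ b ∈ HO 𝔉.F0.toPre k o.P2 Ω, (0, b, 0) ∈ N := fun b hb => by
    let L : 𝔉.F0.H k o.P2 →L[ℝ] o.Y n m k := .inr ℝ _ _ ∘L .inl ℝ _ _
    refine HO_map hN L (fun u hu => ?_) hb
    refine Ap.map_H (rep_mulH (h.cP2 o) (Maps.of_left ((Map77.ok_bd o h).prj2).idem))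
      (U := N.comap L.toLinearMap) (hN.preimage L.continuous) ?_ (D.C u ⟨u.2.1, u.2.2.1, fun _ => rfl⟩
        (subset_inter hu (tsupport_sec h.Om.1 (fun x hx => off_P2 hx) u)) fun x => ?_) u
        (funext u.2.2.2).symm
    · rintro v ⟨t1, t2⟩ - w hw
      refine t2 _ (by rw [indicator_zero']; exact val_zero)
        ((val_toH h.sup hk w).trans (hw.trans (funext fun x => ?_))) rfl
      by_cases hx : x ∈ 𝔉.Om
      · rw [on_P2 hx, indicator_of_mem hx]; exact t1 x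
      · rw [off_P2 hx, indicator_of_notMem hx]; rfl
    · by_cases hx : x ∈ 𝔉.Om
      · rw [← on_P2 hx, u.2.2.2]
      · rw [← u.2.2.2 x, off_P2 hx, zero_apply, map_zero]
  intro e he
  obtain ⟨e', h1, h2, h3⟩ := hR e.2.2.2
  obtain ⟨h4, h5⟩ := mem_Lc.1 (sub_mem he h2)
  convert add_mem (add_mem (add_mem (a _ h4) (b _ h5)) (hS (e - e').2.2.1)) h1 using 1
  simp [Prod.ext_iff, h3]

/-- **Density of the values**, if the terms cover everything -/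
theorem Dn.top (D : Dn univ N) (hN : IsClosed (N : Set (o.Y n m k))) (hk : 4 ≤ k)
    (hS : ∀ s, (0, 0, s, 0) ∈ N) (hR : ∀ ρ, ∃ e ∈ N, e.2.2.2 = ρ) (e : o.Y n m k) : e ∈ N :=
  D.lc_le h hN hk hS (fun ρ => (hR ρ).imp fun e k => ⟨k.1, mem_Lc_top h (subset_univ _) e, k.2⟩)
    (mem_Lc_top h (subset_univ _) e)

variable (o) in
/-- `S` is a compact null set near which the equation is not perturbed -/
structure Pin (S : Set M) (e : T → PtX M ι lam r n m) : Prop where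
  cpt : IsCompact S
  null : 𝔉.F0.μ S = 0
  eq : ∃ O, IsOpen O ∧ S ⊆ O ∧ ∀ (y : Pnt o r), ∀ x ∈ O,
    (e y.t).D y.cfg x = (𝔉.eq0 r n m y.t).D y.cfg x ∧ (e y.t).C y.cfg x = (𝔉.eq0 r n m y.t).C y.cfg x

variable {e : T → PtX M ι lam r n m} {f : o.C r k → o.Y n m k} (P : Pin o S e) (hk : 6 ≤ k)
  (hf : RepF e f)
include P hk hf

theorem Pin.lc {v : o.C r k} (hv : v.2.2.2 = 0) : fderiv ℝ f (y.pt k) v -
    fderiv ℝ (f0 o (fun t => rem (𝔉.G t).F 𝔉.F0.toPre) r n m k) (y.pt k) v ∈ Lc n o m k Sᶜ := by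
  obtain ⟨O, h1, h2, h3⟩ := P.eq
  have : LocallyCompactSpace M := Manifold.locallyCompact_of_finiteDimensional I
  obtain ⟨L, l1, l2, l3⟩ := exists_compact_between P.cpt h1 h2
  obtain ⟨g, hg, g1⟩ := exists_tf_one (I := I) l1 h1 l3
  refine lc_sub (adj_rem h) hk hf (g := fun x => 1 - g x)
    (Cb_sub (Cb_const _) (Cb_of_hcs hg.sm hg.hcs)) ?_ (fun y x hx => h3 y x (hg.sub (subset_closure
      fun k => hx (by simp [k])))) (pt_mem y) hv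
  exact (closure_minimal (s := support fun x => 1 - g x) (t := (interior L)ᶜ) (fun x hx k => hx
    (sub_eq_zero.2 (g1 x (interior_subset k)).symm)) isOpen_interior.isClosed_compl).trans
    (compl_subset_compl.2 l2)

omit P in
/-- the real rows as functions of `z` -/
theorem row_z {φ : EuclideanSpace ℂ (Fin r) → Fin m → ℝ} (hφ : ∀ y : Pnt o r, (e y.t).R y.cfg = φ y.z)
    {ζ : EuclideanSpace ℂ (Fin r)} {ρ : Fin m → ℝ}
    (hd : HasDerivAt (fun s : ℝ => φ (y.z + s • ζ)) ρ 0) :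
    (fderiv ℝ f (y.pt k) (0, 0, ζ, 0)).2.2.2 = ρ := by
  have h1 := ((hf.1.contDiffAt ((Mod61.isOpen_U h).mem_nhds (pt_mem y))).differentiableAt
    (by simp)).hasFDerivAt.hasLineDerivAt (0, 0, ζ, 0)
  refine HasDerivAt.unique ((ContinuousLinearMap.snd ℝ _ _ ∘L .snd ℝ _ _ ∘L .snd ℝ _ _
    ).hasFDerivAt.comp_hasDerivAt 0 h1) (hd.congr_of_eventuallyEq (Eventually.of_forall fun s => ?_))
  refine Eq.trans ?_ ((hf.2 { y with z := y.z + s • ζ }).R.trans (hφ _))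
  simp [Pnt.pt]

theorem Pin.row (ζ : EuclideanSpace ℂ (Fin r)) :
    fderiv ℝ f (y.pt k) (0, 0, ζ, 0) ∈ Lc n o m k Sᶜ := by
  have := P.lc h hk hf (y := y) (v := (0, 0, ζ, 0)) rfl
  rwa [fderiv_f0 (adj_rem h) hk y rfl, show jC o r k (0, 0, ζ, 0) = 0 by simp [jC_apply], map_zero,
    map_zero, map_zero, sub_zero] at this

/-- **Density**, if the terms cover everything but a null set -/
theorem Pin.top (D : Dn Sᶜ N) (hN : IsClosed (N : Set (o.Y n m k)))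
    (hA : ∀ v, fderiv ℝ f (y.pt k) v ∈ N) (hS : ∀ s, (0, 0, s, 0) ∈ N)
    (hR : ∀ ρ, ∃ e ∈ N, e ∈ Lc n o m k Sᶜ ∧ e.2.2.2 = ρ) (w : o.Y n m k) : w ∈ N := by
  have l := D.lc_le h hN (by omega) hS hR
  have a := cok_lin ((adj_rem h).hy o y.ht) (cb_uy h y)
    (P.cpt.isClosed.isOpen_compl.union h.Om.1.isOpen_compl)
    (null_frame _ _ (measure_mono_null (fun x hx => not_not.1 fun k => hx (.inl k)) P.null))
    (N := N.comap (jY o n m k).toLinearMap) (hN.preimage (jY o n m k).continuous) (fun x => ?_)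
    (fun w hw => l (jY_mem h w hw)) (iH1 _ _ o.Pm o.P2 w.1 + iH2 _ _ o.Pm o.P2 w.2.1)
  · have b : ((0, 0, w.2.2) : o.Y n m k) ∈ N := l (mem_Lc.2 ⟨zero_mem _, zero_mem _⟩)
    convert add_mem (Submodule.mem_comap.1 a) b using 1
    simp [jY]
  · obtain ⟨x, rfl⟩ := (SE (k + 1) o h y.ht).surjective x
    let v : o.C r k := (fH _ _ _ _ x, sH _ _ _ _ x, 0)
    have := sub_mem (hA v) (l (P.lc h hk hf (y := y) (v := v) rfl))
    rwa [sub_sub_cancel, fderiv_f0 (adj_rem h) hk y rfl, jC_apply, iH_add] at this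

end Crest.Agent.X212.Wrd81

namespace Crest.Agent.X212.Mod61.Th.OK
open An Wrd81
variable {E : Type} [NormedAddCommGroup E] [NormedSpace ℝ E] [FiniteDimensional ℝ E]
  [MeasurableSpace E] [BorelSpace E]
  {HM : Type} [TopologicalSpace HM] {I : ModelWithCorners ℝ E HM} [I.Boundaryless]
  {M : Type} [TopologicalSpace M] [ChartedSpace HM M] [IsManifold I ∞ M]
  [MeasurableSpace M] [T2Space M] [BorelSpace M] [SecondCountableTopology M]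
  {ι : Type} [Fintype ι] {lam : Type} [Fintype lam]
  {T : Type} [NormedAddCommGroup T] [NormedSpace ℝ T] [CompleteSpace T] {r n m : ℕ}
  {𝔉 : Fam I M ι lam T} {W : Type} {Θ : Th 𝔉 r n m W} {Adm : (W →₀ ℝ) → Prop}

/-- **`Onto` from density** -/
theorem onto (h : Θ.OK Adm) {q : W →₀ ℝ} {x : Θ.X} (ha : Adm q) (hx : h.Q.Sol q x)
    (hd : ∀ N : Submodule ℝ ((Θ.ref x.1).Y n m Θ.k), IsClosed (N : Set ((Θ.ref x.1).Y n m Θ.k)) →
      (∀ v, fderiv ℝ (Θ.F x.1 q) (x.2.pt Θ.k) v ∈ N) → (∀ w e, RepE (Θ.τ w) x.2 e → e ∈ N) →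
      ∀ e, e ∈ N) : ∃ J, h.Q.Onto q x J :=
  h.ax.onto ha hx fun N h1 h2 h3 => hd N h1 h2 fun w _ he =>
    mem_of_eq_of_mem (he.unique h.fam h.k4 ((h.repτ x.1 w).2 x.2)) (h3 w)

end Crest.Agent.X212.Mod61.Th.OK
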