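import Crest.Agent.X212.Wrd81.Dens

/-!
# X212 / WORDS, part 8 (helper81): a module of sections which spans every fibre contains all test
sections.
-/

set_option autoImplicit false
set_option linter.unusedSectionVars false
noncomputable section
open scoped Manifold ContDiff Topology InnerProductSpace
open MeasureTheory Set Function Filter

namespace Crest.Agent.X212.Wrd81
open Crest.Agent.X212.An

variable {E : Type} [NormedAddCommGroup E] [NormedSpace ℝ E] [FiniteDimensional ℝ E]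
  [MeasurableSpace E] [BorelSpace E]
  {HM : Type} [TopologicalSpace HM] {I : ModelWithCorners ℝ E HM}
  {M : Type} [TopologicalSpace M] [ChartedSpace HM M] [IsManifold I ∞ M]
  [MeasurableSpace M] [T2Space M] [BorelSpace M] [SecondCountableTopology M]
  {V : Type} [NormedAddCommGroup V] [InnerProductSpace ℝ V] [FiniteDimensional ℝ V]

/-- the frame operator of a finite family, completed on the complement of `q` -/
def frm (q : M → V →L[ℝ] V) (s : Finset (M → V)) (x : M) : V →L[ℝ] V :=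
  ∑ n ∈ s, ContinuousLinearMap.smulRightL ℝ V V (innerSL ℝ (n x)) (n x) + (1 - q x)

lemma frm_apply (q : M → V →L[ℝ] V) (s : Finset (M → V)) (x : M) (v : V) :
    frm q s x v = ∑ n ∈ s, ⟪n x, v⟫_ℝ • n x + (v - q x v) := by simp [frm]

lemma isUnit_frm {q : M → V →L[ℝ] V} {s : Finset (M → V)} {x : M}
    (hs : ∀ v w, ⟪q x v, w⟫_ℝ = ⟪v, q x w⟫_ℝ) (hi : ∀ v, q x (q x v) = q x v) :
    IsUnit (frm q s x) ↔ ∀ v, q x v = v → (∀ n ∈ s, ⟪n x, v⟫_ℝ = 0) → v = 0 := by
  rw [ContinuousLinearMap.isUnit_iff_isUnit_toLinearMap, LinearMap.isUnit_iff_ker_eq_bot,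
    LinearMap.ker_eq_bot']
  refine ⟨fun h v h1 h2 => h v ?_, fun h v hv => ?_⟩
  · change frm q s x v = 0
    rw [frm_apply, h1, sub_self, add_zero]
    exact Finset.sum_eq_zero fun n hn => by rw [h2 n hn, zero_smul]
  · have h1 : ⟪frm q s x v, v⟫_ℝ = ∑ n ∈ s, ⟪n x, v⟫_ℝ ^ 2 + ‖v - q x v‖ ^ 2 := by
      rw [frm_apply, inner_add_left, sum_inner, ← real_inner_self_eq_norm_sq]
      simp only [real_inner_smul_left, sq, inner_sub_left, inner_sub_right, hs, hi]
      ring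
    rw [show frm q s x v = 0 from hv, inner_zero_left] at h1
    have h2 : 0 ≤ ∑ n ∈ s, ⟪n x, v⟫_ℝ ^ 2 := Finset.sum_nonneg fun _ _ => sq_nonneg _
    have h3 := sq_nonneg ‖v - q x v‖
    have h4 : ∑ n ∈ s, ⟪n x, v⟫_ℝ ^ 2 = 0 := by linarith
    have h5 : ‖v - q x v‖ ^ 2 = 0 := by linarith
    rw [Finset.sum_eq_zero_iff_of_nonneg fun _ _ => sq_nonneg _] at h4
    exact h v (sub_eq_zero.1 (by simpa using h5)).symm fun n hn => by simpa using h4 n hn

lemma sm_frm {q : M → V →L[ℝ] V} (hq : Sm I q) {s : Finset (M → V)} (hs : ∀ n ∈ s, Sm I n) :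
    Sm I (frm q s) :=
  (contMDiff_finsetSum fun n hn => ((ContinuousLinearMap.smulRightL ℝ V V).contMDiff.comp
    ((innerSL ℝ : V →L[ℝ] V →L[ℝ] ℝ).contMDiff.comp (hs n hn))).clm_apply (hs n hn)).add
    (contMDiff_const.sub hq)

/-- **Generation.** -/
theorem mem_of_span {q : M → V →L[ℝ] V} (hq : Sm I q)
    (hs : ∀ x v w, ⟪q x v, w⟫_ℝ = ⟪v, q x w⟫_ℝ) (hi : ∀ x v, q x (q x v) = q x v)
    {𝒩 : Set (M → V)} {W : Submodule ℝ (M → V)} (sm : ∀ n ∈ 𝒩, Sm I n)
    (fix : ∀ n ∈ 𝒩, ∀ x, q x (n x) = n x) {O : Set M} (hO : IsOpen O)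
    (mul : ∀ f : M → ℝ, Sm I f → HasCompactSupport f → tsupport f ⊆ O → ∀ n ∈ 𝒩,
      (fun x => f x • n x) ∈ W)
    (sp : ∀ x ∈ O, ∀ v, q x v = v → (∀ n ∈ 𝒩, ⟪n x, v⟫_ℝ = 0) → v = 0) {u : M → V} (hu : Sm I u)
    (hc : HasCompactSupport u) (huO : tsupport u ⊆ O) (hqu : ∀ x, q x (u x) = u x) : u ∈ W := by
  classical
  have := FiniteDimensional.complete ℝ V
  have hop : ∀ s : Finset (M → V), (↑s : Set (M → V)) ⊆ 𝒩 → IsOpen {y | IsUnit (frm q s y)} :=
    fun s h => Units.isOpen.preimage (sm_frm hq fun n hn => sm n (h hn)).continuous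
  have h1 : ∀ x ∈ tsupport u, ∃ s : Finset (M → V), ↑s ⊆ 𝒩 ∧ IsUnit (frm q s x) := by
    intro x hx
    obtain ⟨t, ht, e⟩ := (Submodule.fg_span_iff_fg_span_finset_subset ((· x) '' 𝒩)).1
      (IsNoetherian.noetherian (R := ℝ) _)
    obtain ⟨s, h1, rfl⟩ := Finset.subset_set_image_iff.1 ht
    refine ⟨s, h1, (isUnit_frm (hs x) (hi x)).2 fun v h2 h3 => sp x (huO hx) v h2 fun n hn => ?_⟩
    have : Submodule.span ℝ ((· x) '' 𝒩) ≤ (ℝ ∙ v)ᗮ := by
      rw [e, Submodule.span_le]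
      intro w hw
      obtain ⟨n, hn, rfl⟩ := Finset.mem_image.1 hw
      exact Submodule.mem_orthogonal_singleton_iff_inner_left.2 (h3 n hn)
    exact Submodule.mem_orthogonal_singleton_iff_inner_left.1
      (this (Submodule.subset_span ⟨n, hn, rfl⟩))
  choose! s h2 h3 using h1
  obtain ⟨t, ht, hcov⟩ := hc.isCompact.elim_nhds_subcover (fun x => {y | IsUnit (frm q (s x) y)})
    fun x hx => (hop _ (h2 x hx)).mem_nhds (h3 x hx)
  set S := t.biUnion s
  have hS : (↑S : Set (M → V)) ⊆ 𝒩 := fun n hn =>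
    let ⟨x, hx, h⟩ := Finset.mem_biUnion.1 hn; h2 x (ht x hx) h
  have hU : tsupport u ⊆ {y | IsUnit (frm q S y)} ∩ O := fun y hy => by
    obtain ⟨x, hx, h⟩ := mem_iUnion₂.1 (hcov hy)
    exact ⟨(isUnit_frm (hs y) (hi y)).2 fun v a b => (isUnit_frm (hs y) (hi y)).1 h v a
      fun n hn => b n (Finset.mem_biUnion.2 ⟨x, hx, hn⟩), huO hy⟩
  obtain ⟨g, g1, g2, g3, g4⟩ := exists_cut (I := I) hc.isCompact ((hop S hS).inter hO) hU
  let z : M → V := fun y => Ring.inverse (frm q S y) (u y)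
  have e : u = ∑ n ∈ S, fun y => (g y * ⟪n y, z y⟫_ℝ) • n y := by
    funext y
    rw [Finset.sum_apply]
    by_cases hy : y ∈ tsupport u
    · have a1 : frm q S y (z y) = u y := by
        rw [← mul_apply_eq_comp, Ring.mul_inverse_cancel _ (hU hy).1]; rfl
      rw [← hqu y, ← a1, frm_apply, map_add, map_sub, hi, sub_self, add_zero, map_sum, g4 y hy]
      exact Finset.sum_congr rfl fun n hn => by rw [map_smul, fix n (hS hn), one_mul]
    · simp [z, image_eq_zero_of_notMem_tsupport hy]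
  rw [e]
  refine W.sum_mem fun n hn => mul _ ?_ g2.mul_right
    (tsupport_mul_subset_left.trans (g3.trans inter_subset_right)) n (hS hn)
  refine contMDiff_of_tsupport fun y hy => (g1 y).mul ?_
  obtain ⟨T, hT⟩ := (g3 (tsupport_mul_subset_left hy)).1
  have a2 : ContMDiffAt I 𝓘(ℝ, V →L[ℝ] V) ∞ (fun y => Ring.inverse (frm q S y)) y :=
    (hT ▸ (contDiffAt_ringInverse ℝ T).contMDiffAt).comp y (sm_frm hq (fun n hn => sm n (hS hn)) y)
  exact (((innerSL ℝ : V →L[ℝ] V →L[ℝ] ℝ).contMDiff.comp (sm n (hS hn))) y).clm_apply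
    (a2.clm_apply (hu y))

end Crest.Agent.X212.Wrd81
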