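import Crest.Agent.X212.Wrd81.Ell
import Crest.Agent.X212.Wrd81.Gen
import Crest.Agent.X212.Prm93.Chg
import Crest.Agent.X212.Ell97.Nab
import Crest.Agent.X212.Cht98.Reg

/-!
# X212 / WORDS, part 9 (helper81): approximable test functions; the projector of the words of one
piece.
-/

set_option autoImplicit false
set_option linter.unusedSectionVars false
noncomputable section
open scoped Manifold ContDiff Topology InnerProductSpace
open MeasureTheory Set Function Filter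

namespace Crest.Agent.X212.Wrd81
open An Sob92

variable {E : Type} [NormedAddCommGroup E] [NormedSpace ℝ E] [FiniteDimensional ℝ E]
  [MeasurableSpace E] [BorelSpace E]
  {HM : Type} [TopologicalSpace HM] {I : ModelWithCorners ℝ E HM} [I.Boundaryless]
  {M : Type} [TopologicalSpace M] [ChartedSpace HM M] [IsManifold I ∞ M]
  [MeasurableSpace M] [T2Space M] [BorelSpace M] [SecondCountableTopology M]
  {ι : Type} [Fintype ι] {ι' : Type} [Fintype ι']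
  {V : Type} [NormedAddCommGroup V] [InnerProductSpace ℝ V] [FiniteDimensional ℝ V]
  {W : Type} [NormedAddCommGroup W] [InnerProductSpace ℝ W] [FiniteDimensional ℝ W]

theorem reg (F : Fr I M ι) : Ell97.Reg V F := by
  intro u ua σ B f hu hua hσ hB hf h1 h2
  have hl : ∀ {v : M → V}, MemLp v 2 F.μ → ∀ {φ : M → V}, Sm I φ → HasCompactSupport φ →
      Integrable (fun x => ⟪v x, φ x⟫_ℝ) F.μ := fun hv φ a b => by
    have := FiniteDimensional.complete ℝ V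
    have h3 := L2.integrable_inner (𝕜 := ℝ) (hv.toLp _)
      ((memLp_sec (F := F.toPre) (p := triv M V) ⟨φ, mem_tst a b⟩).toLp _)
    refine h3.congr ?_
    filter_upwards [hv.coeFn_toLp,
      (memLp_sec (F := F.toPre) (p := triv M V) ⟨φ, mem_tst a b⟩).coeFn_toLp] with x e1 e2
    rw [e1, e2]
  refine Cht98.reg F hu hua (fun a => sm_trL (hσ a)) (sm_trL hB) hf (fun a φ a1 a2 => ?_)
    fun φ a1 a2 => ?_
  · rw [h1 a φ a1 a2, ← integral_neg]
    simp only [← inner_neg_right, neg_add', sub_eq_add_neg]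
  · have e : ∀ (T : V →L[ℝ] V) v w, ⟪trL T v, w⟫_ℝ = ⟪v, T w⟫_ℝ := fun T v w => by
      rw [real_inner_comm, ← inner_trL, real_inner_comm]
    have c : ∀ {T : M → V →L[ℝ] V}, HasCompactSupport fun x => T x (φ x) :=
      fun {T} => a2.mono fun x hx h => hx (by simp [h])
    have i1 : Integrable (fun x => ∑ a, ⟪ua a x, σ a x (φ x)⟫_ℝ) F.μ :=
      integrable_finsetSum _ fun a _ => hl (hua a) ((hσ a).clm_apply a1) c
    have i2 := hl hu (hB.clm_apply a1) c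
    have i3 : Integrable (fun x => ⟪f x, φ x⟫_ℝ) F.μ := by
      simpa only [real_inner_comm] using F.integrable_inner a1.continuous a2 hf.continuous
    have i4 : Integrable (fun x => ∑ a, ⟪ua a x, σ a x (φ x)⟫_ℝ + ⟪u x, B x (φ x)⟫_ℝ) F.μ :=
      i1.add i2
    simp only [inner_add_left, sum_inner, e]
    rw [h2 φ a1 a2, integral_add i4 i3, integral_add i1 i2,
      integral_finsetSum _ fun a _ => hl (hua a) ((hσ a).clm_apply a1) c]
    ring

/-- bounded geometry and a bounded metric connection give the resolvent -/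
theorem rh_of_tame {F : Fr I M ι} {A : ι → M → V →L[ℝ] V} {C : ℕ → ℝ} (hF : F.Tame C)
    (hA : ∀ a, F.Cb (A a)) (hs : ∀ a x, Wz78.Skew (A a x))
    (hP : ∀ a x, ∑ b, F.P a b x • A b x = A a x) : RH F A :=
  ⟨⟨_, Sup.of_tame hF⟩, Mp86.bumps_of_tame F hF, ⟨fun a => (hA a).choose_spec.1, hs⟩, hP,
    fun j => ⟨_, Ell97.rep_lapH hF hA hs j, Ell97.lapH_bij (reg F) hF hA hs j⟩⟩

/-- test functions which are `H k`-limits of combinations of test functions in `𝒯` -/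
def Ap (F : Pre I M ι) (k : ℕ) (𝒯 : Set (M → V)) : Submodule ℝ (M → V) :=
  ((SpH F k (triv M V) 𝒯).comap (F.toH k _)).map (Tst I M V).subtype

section ap
variable {F : Pre I M ι} {F' : Pre I M ι'} {k : ℕ} {𝒯 : Set (M → V)} {𝒯' : Set (M → W)}
  {u : M → V}

lemma mem_Ap : u ∈ Ap F k 𝒯 ↔ ∃ hu : u ∈ Tst I M V, F.toH k _ ⟨u, hu⟩ ∈ SpH F k _ 𝒯 :=
  ⟨by rintro ⟨v, hv, rfl⟩; exact ⟨v.2, hv⟩, fun ⟨hu, h⟩ => ⟨⟨u, hu⟩, h, rfl⟩⟩

lemma Ap.of_mem (hu : u ∈ Tst I M V) (h : u ∈ 𝒯) : u ∈ Ap F k 𝒯 :=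
  mem_Ap.2 ⟨hu, mem_cl ⟨⟨u, hu⟩, h, rfl⟩⟩

lemma Ap.map_H {q : M → W →L[ℝ] W} {L : F.H k (triv M V) →L[ℝ] F'.H k q}
    {T : (M → V) → M → W} (hL : F.RepT F' L T) {U : Submodule ℝ (F'.H k q)}
    (hU : IsClosed (U : Set (F'.H k q)))
    (h : ∀ v ∈ 𝒯, v ∈ Tst I M V → ∀ w : Sec I q, w.1 = T v → F'.toH k q w ∈ U)
    (hu : u ∈ Ap F k 𝒯) (w : Sec I q) (hw : w.1 = T u) : F'.toH k q w ∈ U := by
  obtain ⟨h1, h2⟩ := mem_Ap.1 hu
  rw [← RepT_toH' hL ⟨u, h1⟩ w hw.symm]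
  refine map_cl hU L ?_ h2
  rintro _ ⟨v, hv, rfl⟩
  rw [RepT_toH hL]
  exact h _ hv v.2 _ rfl

lemma Ap.map {T : M → V →L[ℝ] W} (hT : F.Cb T)
    (h : ∀ v ∈ 𝒯, v ∈ Tst I M V → (fun x => T x (v x)) ∈ Ap F k 𝒯') (hu : u ∈ Ap F k 𝒯) :
    (fun x => T x (u x)) ∈ Ap F k 𝒯' := by
  have hL := rep_mulH (k := k) hT (Maps.of_left (p := triv M V) (q := triv M W) fun _ _ => rfl)
  refine mem_Ap.2 ⟨RepT_mem hL ⟨u, (mem_Ap.1 hu).1⟩, Ap.map_H hL (isClosed_cl _)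
    (fun v h1 h2 w hw => ?_) hu _ rfl⟩
  obtain ⟨h3, h4⟩ := mem_Ap.1 (h v h1 h2)
  rwa [Subtype.ext hw (a2 := ⟨_, h3⟩)]

lemma Ap.chg (h : Prm93.Dom F F') (hu : u ∈ Ap F k 𝒯) : u ∈ Ap F' k 𝒯 :=
  mem_Ap.2 ⟨(mem_Ap.1 hu).1, Ap.map_H h.rep (isClosed_cl _)
    (fun _ h1 _ w hw => mem_cl (by exact ⟨w, hw ▸ h1, rfl⟩)) hu _ rfl⟩

/-- **Export to a bundle**: `f • y` lies in the closed span of the terms. -/
theorem Ap.smulH_mem {q : M → V →L[ℝ] V} (hq : F.Cb q) (hi : ∀ x v, q x (q x v) = q x v)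
    {O : Set M} (h : ∀ u ∈ Sec I q, tsupport u ⊆ O → u ∈ Ap F k 𝒯) {f : M → ℝ} (hf : Tf I O f)
    (y : F.H k q) : smulH F k q f y ∈ SpH F k q ((fun v x => q x (v x)) '' 𝒯) := by
  have hs := rep_smulH (F := F) (k := k) (p := q) (Cb_of_hcs hf.sm hf.hcs)
  induction y using H_ind with
  | hP => exact (isClosed_cl _).preimage (smulH F k q f).continuous
  | h u =>
    rw [RepT_toH hs]
    exact Ap.map_H (rep_mulH (k := k) hq (Maps.of_left (p := triv M V) hi)) (isClosed_cl _)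
      (fun v h1 _ w hw => mem_cl (by exact ⟨w, ⟨v, h1, hw.symm⟩, rfl⟩))
      (h _ (RepT_mem hs u) ((tsupport_smul_subset_left _ _).trans hf.sub)) _
      (funext fun x => ((RepT_mem hs u).2.2 x).symm)

end ap

section piece
variable {K Ω : Set M}

lemma ind_ev (hK : IsClopen K) (x : M) :
    K.indicator (1 : M → ℝ) =ᶠ[𝓝 x] fun _ => K.indicator 1 x := by
  by_cases hx : x ∈ K
  · filter_upwards [hK.2.mem_nhds hx] with y hy
    simp [hx, hy]
  · filter_upwards [hK.1.isOpen_compl.mem_nhds hx] with y hy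
    simp [hx, show y ∉ K from hy]

lemma sm_ind (hK : IsClopen K) : Sm I (K.indicator (1 : M → ℝ)) := fun x =>
  contMDiffAt_const.congr_of_eventuallyEq (ind_ev hK x)

lemma Tf.ind (hK : IsClopen K) {f : M → ℝ} (hf : Tf I (Ω ∪ Kᶜ) f) :
    Tf I Ω fun x => K.indicator 1 x * f x :=
  ⟨(sm_ind hK).mul hf.sm, hf.hcs.mul_left, fun x hx =>
    (hf.sub (tsupport_mul_subset_right hx)).resolve_right fun h => h
      (closure_minimal (fun y hy => by by_contra h; simp [h] at hy) hK.1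
        (tsupport_mul_subset_left hx))⟩

variable {F : Fr I M ι} {A : ι → M → V →L[ℝ] V}

lemma RH.res_off (h : RH F A) (hK : IsClopen K) {w : M → V} (hw : ∀ x ∉ K, w x = 0) :
    ∀ x ∉ K, F.res A w x = 0 := fun x hx => by
  rw [← Mp86.res_fix h.bmp h.mc (T := fun y => K.indicator (1 : M → ℝ) y • (1 : V →L[ℝ] V))
    (sm_smul (sm_ind hK) sm_one) ⟨1, fun y => ?_⟩ (fun y a => ?_) (fun y => ?_) x]
  · simp [hx]
  · by_cases hy : y ∈ K <;> simp [hy, ContinuousLinearMap.one_def, ContinuousLinearMap.norm_id_le]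
  · rw [dv_congr (v := fun _ => K.indicator (1 : M → ℝ) y • (1 : V →L[ℝ] V))
      ((ind_ev hK y).mono fun z hz => by rw [hz]), dv_const]
    ext v; simp
  · by_cases hy : y ∈ K <;> simp [hy, hw y]

variable (F A K Ω) in
/-- a family of words with data in `Ω`, an open set of full measure in the piece `K` -/
structure Fam (𝒲 : Set (M → V)) : Prop where
  cl : IsClopen K
  op : IsOpen Ω
  sub : Ω ⊆ K
  null : F.μ (K \ Ω) = 0
  sm : ∀ w ∈ 𝒲, Sm I w
  mul : ∀ f, Tf I Ω f → ∀ w ∈ 𝒲, (fun x => f x • w x) ∈ 𝒲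
  res : ∀ w ∈ 𝒲, F.res A w ∈ 𝒲

variable (F A K Ω) in
/-- the projector of the words of a piece -/
structure Prj (𝒲 : Set (M → V)) (π : M → V →L[ℝ] V) : Prop where
  sm : Sm I π
  symm : ∀ x v w, ⟪π x v, w⟫_ℝ = ⟪v, π x w⟫_ℝ
  idem : ∀ x v, π x (π x v) = π x v
  par : ∀ a x, F.D a π x = π x * A a x - A a x * π x
  off : ∀ x ∉ K, π x = 0
  fix : ∀ w ∈ 𝒲, ∀ x ∈ K, π x (w x) = w x
  comm : ∀ T T' : M → V →L[ℝ] V, Sm I T → Sm I T' → (∀ x v w, ⟪T x v, w⟫_ℝ = ⟪v, T' x w⟫_ℝ) →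
    (∀ w ∈ 𝒲, (fun y => T y (w y)) ∈ Submodule.span ℝ 𝒲) →
    (∀ w ∈ 𝒲, (fun y => T' y (w y)) ∈ Submodule.span ℝ 𝒲) → ∀ x ∈ K, π x * T x = T x * π x
  orth : ∀ η : M → V, Sm I η → ∀ O : Set M, IsOpen O → O ⊆ K →
    (∀ w ∈ 𝒲, ∀ x ∈ O ∩ Ω, ⟪η x, w x⟫_ℝ = 0) → ∀ x ∈ O, π x (η x) = 0
  ap : ∀ (k : ℕ), ∀ u ∈ Tst I M V, tsupport u ⊆ Ω → (∀ x, π x (u x) = u x) →
    u ∈ Ap F.toPre k (Loc I Ω 𝒲)

variable {𝒲 : Set (M → V)}

/-- closed conditions extend from `Ω` to `K` -/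
lemma Fam.ext {𝒲 : Set (M → V)} (c : Fam K Ω F A 𝒲) {N : Type*} [TopologicalSpace N] [T2Space N]
    {a b : M → N} (ha : Continuous a) (hb : Continuous b) {O : Set M} (hO : IsOpen O) (hK : O ⊆ K)
    (e : ∀ x ∈ O ∩ Ω, a x = b x) : ∀ x ∈ O, a x = b x := fun x hx => by
  have hd : Dense (Ω ∪ Kᶜ) := F.μ.dense_of_ae (p := fun x => x ∈ Ω ∪ Kᶜ)
    (measure_mono_null (fun y hy => by simpa [and_comm] using hy) c.null)
  exact EqOn.closure (fun y hy => e y ⟨hy.1, hy.2.resolve_right fun h => h (hK hy.1)⟩) ha hb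
    (hd.open_subset_closure_inter hO hx)

/-- **Density of the words of a piece.** -/
theorem Fam.exists_prj (c : Fam K Ω F A 𝒲) (h : RH F A) : ∃ π, Prj K Ω F A 𝒲 π := by
  let 𝒲' : Set (M → V) := {w ∈ 𝒲 | ∀ x ∉ K, w x = 0}
  have hi : ∀ (f : M → ℝ), ∀ w ∈ 𝒲', (fun x => f x • w x) = fun x => (K.indicator 1 x * f x) • w x :=
    fun f w hw => funext fun x => by by_cases hx : x ∈ K <;> simp [hx, hw.2 x]
  have hm : ∀ f, Tf I Ω f → ∀ w ∈ 𝒲, (fun x => f x • w x) ∈ 𝒲' := fun f hf w hw =>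
    ⟨c.mul f hf w hw, fun x hx => by
      simp [image_eq_zero_of_notMem_tsupport fun h => hx (c.sub (hf.sub h))]⟩
  have hs : ∀ f, Tf I Ω f → ∀ w ∈ Submodule.span ℝ 𝒲,
      (fun x => f x • w x) ∈ Submodule.span ℝ 𝒲' := by
    intro f hf w hw
    induction hw using Submodule.span_induction with
    | mem w hw => exact Submodule.subset_span (hm f hf w hw)
    | zero => convert zero_mem (Submodule.span ℝ 𝒲') using 1; funext x; simp
    | add u v _ _ hu hv => convert add_mem hu hv using 1; funext x; simp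
    | smul r u _ hu => convert Submodule.smul_mem _ r hu using 1; funext x; simp [smul_comm r]
  have c' : Cls F A (Ω ∪ Kᶜ) 𝒲' := ⟨c.op.union c.cl.1.isOpen_compl,
    measure_mono_null (fun y hy => by simpa [and_comm] using hy) c.null, fun w hw => c.sm w hw.1,
    fun f hf w hw => hi f w hw ▸ hm _ (hf.ind c.cl) w hw.1,
    fun w hw => ⟨c.res w hw.1, h.res_off c.cl hw.2⟩⟩
  obtain ⟨π, p, hap⟩ := c'.exists_prj h
  refine ⟨π, p.sm, p.symm, p.idem, p.par, fun x hx => ?_, fun w hw => ?_,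
    fun T T' hT hT' ht a1 a2 => ?_, fun η hη O hO hK ho => ?_, fun k u hu hΩ hπ => ?_⟩
  · ext v
    exact p.orth _ contMDiff_const _ c.cl.1.isOpen_compl
      (fun w hw y hy => by rw [hw.2 y hy.1, inner_zero_right]) x hx
  · refine c.ext (p.sm.clm_apply (c.sm w hw)).continuous (c.sm w hw).continuous c.cl.2 Subset.rfl
      fun x hx => ?_
    obtain ⟨f, hf, f1⟩ := exists_tf (I := I) (c.op.mem_nhds hx.2)
    simpa [f1] using p.fix _ (hm f hf w hw) x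
  · refine c.ext (p.sm.continuous.mul hT.continuous) (hT.continuous.mul p.sm.continuous) c.cl.2
      Subset.rfl fun x hx => ?_
    obtain ⟨f, hf, f1⟩ := exists_tf (I := I) (c.op.mem_nhds hx.2)
    simpa [f1] using p.comm _ _ (sm_smul hf.sm hT) (sm_smul hf.sm hT')
      (fun y v w => by simp [real_inner_smul_left, real_inner_smul_right, ht])
      (fun w hw => hs f hf _ (a1 w hw.1)) (fun w hw => hs f hf _ (a2 w hw.1)) x
  · exact p.orth η hη O hO fun w hw x hx =>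
      ho w hw.1 x ⟨hx.1, hx.2.resolve_right fun h => h (hK hx.1)⟩
  · refine mem_Ap.2 ⟨hu, cl_le (isClosed_cl _) ?_ (hap k ⟨u, hu⟩ (hΩ.trans subset_union_left) hπ)⟩
    rintro _ ⟨v, ⟨f, hf, w, hw, e⟩, rfl⟩
    exact mem_cl ⟨v, ⟨_, hf.ind c.cl, w, hw.1, e.trans (hi f w hw)⟩, rfl⟩

namespace Prj
variable {π : M → V →L[ℝ] V} (h : Prj K Ω F A 𝒲 π)
include h

/-- minimality -/
lemma le (hK : IsOpen K) {q : M → V →L[ℝ] V} (hq : Sm I q)
    (hs : ∀ x v w, ⟪q x v, w⟫_ℝ = ⟪v, q x w⟫_ℝ) (hw : ∀ w ∈ 𝒲, ∀ x, q x (w x) = w x) (x : M)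
    (v : V) : π x (q x v) = π x v ∧ q x (π x v) = π x v := by
  by_cases hx : x ∈ K
  swap
  · simp [h.off x hx]
  have h1 : ∀ v, π x (q x v) = π x v := fun v => by
    have := h.orth (fun y => q y v - v) ((hq.clm_apply contMDiff_const).sub contMDiff_const) K
      hK Subset.rfl (fun w hw' y _ => by rw [inner_sub_left, hs, hw w hw', sub_self]) x hx
    rwa [map_sub, sub_eq_zero] at this
  exact ⟨h1 v, ext_inner_right ℝ fun w => by rw [hs, h.symm, h1, h.symm]⟩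

/-- bilinear form of the density -/
lemma orth₂ (hsm : ∀ w ∈ 𝒲, Sm I w) {ζ : M → V →L[ℝ] V} (hζ : Sm I ζ) {O : Set M} (hO : IsOpen O)
    (hK : O ⊆ K) (ho : ∀ u ∈ 𝒲, ∀ v ∈ 𝒲, ∀ x ∈ O ∩ Ω, ⟪ζ x (u x), v x⟫_ℝ = 0) {x : M}
    (hx : x ∈ O) (b : V) : π x (ζ x (π x b)) = 0 := by
  refine ext_inner_right ℝ fun c => ?_
  have := h.orth (fun y => trL (ζ y) (π y c)) ((sm_trL hζ).clm_apply
    (h.sm.clm_apply contMDiff_const)) O hO hK (fun u hu y hy => by
      rw [real_inner_comm, ← inner_trL, ← h.symm,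
        h.orth _ (hζ.clm_apply (hsm u hu)) O hO hK (ho u hu) y hy.1, inner_zero_left]) x hx
  rw [h.symm, inner_trL, h.symm, this, inner_zero_right, inner_zero_left]

/-- on a connected piece with a non-zero word the projector vanishes nowhere -/
lemma ne_zero (hK : IsPreconnected K) {w : M → V} (hw : w ∈ 𝒲) {y : M} (hy : y ∈ K) (h0 : w y ≠ 0)
    {x : M} (hx : x ∈ K) : π x ≠ 0 := fun e => h0 (by
  rw [← h.fix w hw y hy, zero_const h.sm.continuous h.idem hK hx hy e, zero_apply])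

end Prj

end piece

end Crest.Agent.X212.Wrd81
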