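import Crest.Agent.X212.An.Defs
import Crest.Agent.X212.Wrd81.Word

/-!
# X212 / WORDS, part 4 (helper81): an operator on smooth sections commuting with `1 + ∇^*∇` and
with functions is a smooth parallel field of endomorphisms.
-/

set_option autoImplicit false
set_option linter.unusedSectionVars false
noncomputable section
open scoped Manifold ContDiff Topology InnerProductSpace
open MeasureTheory Set Function Filter

namespace Crest.Agent.X212.Wrd81
open Crest.Agent.X212.An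

variable {E : Type} [NormedAddCommGroup E] [NormedSpace ℝ E] [FiniteDimensional ℝ E]
  [MeasurableSpace E] [BorelSpace E]
  {HM : Type} [TopologicalSpace HM] {I : ModelWithCorners ℝ E HM}
  {M : Type} [TopologicalSpace M] [ChartedSpace HM M] [IsManifold I ∞ M]
  [MeasurableSpace M] {ι : Type} [Fintype ι]
  {N : Type} [NormedAddCommGroup N] [NormedSpace ℝ N]
  {V : Type} [NormedAddCommGroup V] [InnerProductSpace ℝ V]

/-- covariant derivative `∇_a u = D_a u + A_a u` -/
def cov (F : Pre I M ι) (A : ι → M → N →L[ℝ] N) (a : ι) (u : M → N) : M → N :=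
  fun x => F.D a u x + A a x (u x)

/-- `(1 + ∇^*∇) u = u - ∑ (∇_a ∇_a u + dv_a ∇_a u)` -/
def lap1 (F : Fr I M ι) (A : ι → M → N →L[ℝ] N) (u : M → N) : M → N :=
  fun x => u x - ∑ a, (cov F.toPre A a (cov F.toPre A a u) x + F.dv a x • cov F.toPre A a u x)

lemma md {u : M → N} (hu : Sm I u) (x : M) : MDifferentiableAt I 𝓘(ℝ, N) u x :=
  hu.mdifferentiableAt (by simp)

lemma sm_cov (F : Pre I M ι) {A : ι → M → N →L[ℝ] N} (hA : ∀ a, Sm I (A a)) {u : M → N}
    (hu : Sm I u) (a : ι) : Sm I (cov F A a u) :=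
  (F.sm_D hu a).add ((hA a).clm_apply hu)

lemma sm_smul {f : M → ℝ} {u : M → N} (hf : Sm I f) (hu : Sm I u) : Sm I fun x => f x • u x :=
  hf.smul hu

lemma sm_lap1 (F : Fr I M ι) {A : ι → M → N →L[ℝ] N} (hA : ∀ a, Sm I (A a)) {u : M → N}
    (hu : Sm I u) : Sm I (lap1 F A u) :=
  hu.sub (contMDiff_finsetSum fun a _ => (sm_cov _ hA (sm_cov _ hA hu a) a).add
    (sm_smul (F.dv_sm a) (sm_cov _ hA hu a)))

lemma cov_smul (F : Pre I M ι) (A : ι → M → N →L[ℝ] N) {f : M → ℝ} {u : M → N} (hf : Sm I f)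
    (hu : Sm I u) (a : ι) (x : M) :
    cov F A a (fun y => f y • u y) x = F.D a f x • u x + f x • cov F A a u x := by
  simp only [cov, Pre.D, Sob92.dv_smul (md hf x) (md hu x), map_smul, smul_add]
  abel

lemma cov_add (F : Pre I M ι) (A : ι → M → N →L[ℝ] N) {u v : M → N} (hu : Sm I u)
    (hv : Sm I v) (a : ι) (x : M) :
    cov F A a (fun y => u y + v y) x = cov F A a u x + cov F A a v x := by
  have := Sob92.dv_add (e := F.e a) (md hu x) (md hv x)
  simp only [cov, Pre.D, map_add]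
  rw [show (fun y => u y + v y) = u + v from rfl, this]
  abel

/-- Leibniz rule for `1 + ∇^*∇` -/
lemma lap1_smul (F : Fr I M ι) {A : ι → M → N →L[ℝ] N} (hA : ∀ a, Sm I (A a)) {f : M → ℝ}
    {u : M → N} (hf : Sm I f) (hu : Sm I u) (x : M) :
    lap1 F A (fun y => f y • u y) x = f x • lap1 F A u x -
      (2 : ℝ) • ∑ a, F.D a f x • cov F.toPre A a u x -
      (∑ a, (F.D a (F.D a f) x + F.dv a x * F.D a f x)) • u x := by
  have h1 : ∀ a, cov F.toPre A a (fun y => f y • u y) =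
      fun y => F.D a f y • u y + f y • cov F.toPre A a u y :=
    fun a => funext fun y => cov_smul _ A hf hu a y
  have h2 : ∀ a, cov F.toPre A a (cov F.toPre A a (fun y => f y • u y)) x =
      F.D a (F.D a f) x • u x + F.D a f x • cov F.toPre A a u x +
      (F.D a f x • cov F.toPre A a u x + f x • cov F.toPre A a (cov F.toPre A a u) x) := by
    intro a
    rw [h1, cov_add _ A (sm_smul (F.sm_D hf a) hu) (sm_smul hf (sm_cov _ hA hu a)),
      cov_smul _ A (F.sm_D hf a) hu, cov_smul _ A hf (sm_cov _ hA hu a)]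
  simp only [lap1, h2]
  simp only [h1, smul_sub, Finset.smul_sum, Finset.sum_smul, sub_sub, ← Finset.sum_add_distrib]
  congr 1
  refine Finset.sum_congr rfl fun a _ => ?_
  module

/-- bump functions -/
lemma exists_bump [T2Space M] {O : Set M} {x : M} (hO : O ∈ 𝓝 x) :
    ∃ χ : M → ℝ, Sm I χ ∧ HasCompactSupport χ ∧ tsupport χ ⊆ O ∧ χ =ᶠ[𝓝 x] 1 := by
  obtain ⟨χ, -, hχ⟩ := (SmoothBumpFunction.nhds_basis_tsupport (I := I) x).mem_iff.1 hO
  exact ⟨χ, χ.contMDiff, χ.hasCompactSupport, hχ, χ.eventuallyEq_one⟩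

/-- every covector at `x` is the differential of a compactly supported function -/
lemma exists_fun_deriv [T2Space M] {O : Set M} {x : M} (hO : O ∈ 𝓝 x)
    (ξ : TangentSpace I x →ₗ[ℝ] ℝ) :
    ∃ f : M → ℝ, Sm I f ∧ HasCompactSupport f ∧ tsupport f ⊆ O ∧
      ∀ e : Π y : M, TangentSpace I y, Sob92.dv I e f x = ξ (e x) := by
  obtain ⟨χ, -, hχ⟩ := (SmoothBumpFunction.nhds_basis_tsupport (I := I) x).mem_iff.1 hO
  have hx : x ∈ (extChartAt I x).source := mem_extChartAt_source x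
  obtain ⟨T, hT⟩ := isInvertible_mfderiv_extChartAt (I := I) hx
  let T' : E →ₗ[ℝ] TangentSpace I x := T.symm.toLinearEquiv.toLinearMap
  let l : E →L[ℝ] ℝ := LinearMap.toContinuousLinearMap (ξ ∘ₗ T')
  have hg : ContMDiffOn I 𝓘(ℝ, ℝ) ∞ (fun y => l (extChartAt I x y)) (chartAt HM x).source :=
    l.contMDiff.comp_contMDiffOn contMDiffOn_extChartAt
  refine ⟨fun y => χ y • l (extChartAt I x y), χ.contMDiff_smul hg, ?_, ?_, fun e => ?_⟩
  · exact χ.hasCompactSupport.smul_right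
  · exact (tsupport_smul_subset_left _ _).trans hχ
  · have h1 : (fun y => χ y • l (extChartAt I x y)) =ᶠ[𝓝 x] fun y => l (extChartAt I x y) := by
      filter_upwards [χ.eventuallyEq_one] with y hy
      simp [hy]
    have h2 : MDifferentiableAt I 𝓘(ℝ, E) (extChartAt I x) x :=
      mdifferentiableAt_extChartAt (mem_chart_source HM x)
    rw [Sob92.dv_congr h1, Sob92.dv_clm l h2]
    change ξ (T.symm (mfderiv I 𝓘(ℝ, E) (extChartAt I x) x (e x))) = _
    rw [← hT]
    exact congrArg ξ (T.symm_apply_apply (e x))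

/-- the rows of `P` are the values of covectors on the frame -/
lemma exists_covector (F : Fr I M ι) (x : M) (b : ι) :
    ∃ ξ : TangentSpace I x →ₗ[ℝ] ℝ, ∀ a, ξ (F.e a x) = F.P b a x := by
  classical
  let φ : (ι → ℝ) →ₗ[ℝ] TangentSpace I x := Fintype.linearCombination ℝ fun a => F.e a x
  let ψ : (ι → ℝ) →ₗ[ℝ] ℝ := Fintype.linearCombination ℝ fun a => F.P b a x
  have hφ : φ.range = ⊤ := by rw [Fintype.range_linearCombination, F.span x]
  obtain ⟨σ, hσ⟩ := φ.exists_rightInverse_of_surjective hφ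
  refine ⟨ψ ∘ₗ σ, fun a => ?_⟩
  have h1 : φ (σ (F.e a x) - Pi.single a 1) = 0 := by
    rw [map_sub, ← LinearMap.comp_apply φ σ, hσ]
    simp [φ]
  have h2 := F.P_ker x _ (by simpa [φ, Fintype.linearCombination_apply] using h1) b
  have h3 : ψ (σ (F.e a x) - Pi.single a 1) = 0 := by
    simpa [ψ, Fintype.linearCombination_apply, mul_comm] using h2
  rw [map_sub, sub_eq_zero] at h3
  rw [LinearMap.comp_apply, h3]
  simp [ψ]

lemma P_D (F : Fr I M ι) (u : M → N) (a : ι) (x : M) :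
    ∑ b, F.P a b x • F.D b u x = F.D a u x := by
  simp only [Pre.D, Sob92.dv_eq, ← map_smul, ← map_sum]
  rw [F.P_e]

/-- an admissible space of smooth sections of `p`: it contains the compactly supported ones -/
structure Adm (I : ModelWithCorners ℝ E HM) (p : M → V →L[ℝ] V) (S : Submodule ℝ (M → V)) :
    Prop where
  sm : ∀ u ∈ S, Sm I u
  pu : ∀ u ∈ S, ∀ x, p x (u x) = u x
  sec : Sec I p ≤ S

lemma adm_sec (p : M → V →L[ℝ] V) : Adm I p (Sec I p) :=
  ⟨fun _ hu => hu.1, fun _ hu => hu.2.2, le_rfl⟩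

lemma Adm.smul_mem {p : M → V →L[ℝ] V} {S : Submodule ℝ (M → V)} (h : Adm I p S) {f : M → ℝ}
    (hf : Sm I f) (hc : HasCompactSupport f) {u : M → V} (hu : Sm I u)
    (hp : ∀ x, p x (u x) = u x) : (fun x => f x • u x) ∈ S :=
  h.sec ⟨sm_smul hf hu, hc.smul_right, fun x => by rw [map_smul, hp]⟩

section tens
variable [T2Space M] [FiniteDimensional ℝ V] {p : M → V →L[ℝ] V} {S : Submodule ℝ (M → V)}

/-- `Q` commutes with the function `f` -/
def CommF (Q : S →ₗ[ℝ] S) (f : M → ℝ) : Prop :=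
  ∀ u v : S, (v : M → V) = (fun x => f x • (u : M → V) x) →
    (Q v : M → V) = fun x => f x • (Q u : M → V) x

/-- it is enough to test with functions supported in a dense open set -/
lemma commF_all (h : Adm I p S) {Q : S →ₗ[ℝ] S} {Ω : Set M} (hΩ : IsOpen Ω) (hd : Dense Ω)
    (hQ : ∀ f, Sm I f → HasCompactSupport f → tsupport f ⊆ Ω → CommF Q f) {f : M → ℝ}
    (hf : Sm I f) : CommF Q f := by
  intro u v hv
  refine Continuous.ext_on hd (h.sm _ (Q v).2).continuous
    (sm_smul hf (h.sm _ (Q u).2)).continuous fun x hx => ?_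
  obtain ⟨g, hg, hgc, hgs, hg1⟩ := exists_bump (I := I) (hΩ.mem_nhds hx)
  let w : S := ⟨fun y => g y • (v : M → V) y, h.smul_mem hg hgc (h.sm _ v.2) (h.pu _ v.2)⟩
  have h1 := congrFun (hQ g hg hgc hgs v w rfl) x
  have h2 := congrFun (hQ (fun y => g y * f y) (hg.mul hf) hgc.mul_right
    ((tsupport_mul_subset_left).trans hgs) u w (by
      funext y; simp only [w, hv, mul_smul])) x
  have h3 : g x = 1 := hg1.eq_of_nhds
  rw [h1] at h2
  simpa [h3] using h2

/-- tensoriality -/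
theorem exists_tensor (h : Adm I p S) (hp : Sm I p) (hpp : ∀ x v, p x (p x v) = p x v)
    {Q : S →ₗ[ℝ] S} (hQ : ∀ f, Sm I f → CommF Q f) :
    ∃ π : M → V →L[ℝ] V, Sm I π ∧ (∀ u : S, ∀ x, (Q u : M → V) x = π x ((u : M → V) x)) ∧
      (∀ x v, π x (p x v) = π x v) ∧ (∀ x v, p x (π x v) = π x v) := by
  classical
  let b := stdOrthonormalBasis ℝ V
  have hsec : ∀ {χ : M → ℝ}, Sm I χ → HasCompactSupport χ → ∀ v : V,
      (fun y => χ y • p y v) ∈ S := fun hχ hc v =>
    h.smul_mem hχ hc (hp.clm_apply contMDiff_const) fun y => hpp y v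
  let T : ∀ {χ : M → ℝ}, Sm I χ → HasCompactSupport χ → M → V →L[ℝ] V := fun hχ hc x =>
    ∑ i, (innerSL ℝ (b i)).smulRight ((Q ⟨_, hsec hχ hc (b i)⟩ : M → V) x)
  have hT : ∀ {χ : M → ℝ} (hχ : Sm I χ) (hc : HasCompactSupport χ) x v,
      T hχ hc x v = ∑ i, ⟪b i, v⟫_ℝ • (Q ⟨_, hsec hχ hc (b i)⟩ : M → V) x := by
    intro χ hχ hc x v
    simp [T]
  have key : ∀ {χ : M → ℝ} (hχ : Sm I χ) (hc : HasCompactSupport χ) (u : S) x, χ x = 1 →
      (Q u : M → V) x = T hχ hc x ((u : M → V) x) := by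
    intro χ hχ hc u x hx
    have hu := h.sm _ u.2
    let w : S := ⟨fun y => χ y • (u : M → V) y, h.smul_mem hχ hc hu (h.pu _ u.2)⟩
    have hci : ∀ i, Sm I fun y => ⟪b i, (u : M → V) y⟫_ℝ := fun i =>
      (innerSL ℝ (b i)).contMDiff.comp hu
    let wi : _ → S := fun i => ⟨fun y => χ y • (⟪b i, (u : M → V) y⟫_ℝ • p y (b i)),
      h.smul_mem hχ hc (sm_smul (hci i) (hp.clm_apply contMDiff_const)) fun y => by
        rw [map_smul, hpp]⟩
    have e1 : w = ∑ i, wi i := by
      apply Subtype.ext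
      funext y
      simp only [w, wi, AddSubmonoidClass.coe_finsetSum, Finset.sum_apply, ← Finset.smul_sum]
      simp only [← map_smul (p y), ← map_sum, b.sum_repr', h.pu _ u.2]
    have h1 := congrFun (hQ χ hχ u w rfl) x
    have h2 : ∀ i, (Q (wi i) : M → V) x =
        ⟪b i, (u : M → V) x⟫_ℝ • (Q ⟨_, hsec hχ hc (b i)⟩ : M → V) x := fun i =>
      congrFun (hQ _ (hci i) ⟨_, hsec hχ hc (b i)⟩ (wi i) (by
        funext y; simp only [wi]; rw [smul_comm])) x
    rw [hx, one_smul, e1, map_sum] at h1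
    rw [← h1, hT hχ hc]
    simp only [AddSubmonoidClass.coe_finsetSum, Finset.sum_apply, h2]
  have hb := fun x : M => exists_bump (I := I) (univ_mem : univ ∈ 𝓝 x)
  choose χ hχ hc _ h1 using hb
  have hTp : ∀ {ψ : M → ℝ} (hψ : Sm I ψ) (hψc : HasCompactSupport ψ) x, ψ x = 1 → ∀ v,
      T hψ hψc x v = T (hχ x) (hc x) x (p x v) := by
    intro ψ hψ hψc x hx v
    rw [hT hψ hψc]
    conv_rhs => rw [← b.sum_repr' v, map_sum, map_sum]
    refine Finset.sum_congr rfl fun i _ => ?_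
    rw [key (hχ x) (hc x) _ x (h1 x).eq_of_nhds, map_smul, map_smul]
    simp [hx]
  refine ⟨fun x => T (hχ x) (hc x) x, fun x₀ => ?_, 
    fun u x => key (hχ x) (hc x) u x (h1 x).eq_of_nhds,
    fun x v => (hTp (hχ x) (hc x) x (h1 x).eq_of_nhds v).symm, fun x v => ?_⟩
  · have e : (fun x => T (hχ x) (hc x) x) =ᶠ[𝓝 x₀] fun x => T (hχ x₀) (hc x₀) x := by
      filter_upwards [h1 x₀] with x hx
      ext v
      rw [hTp (hχ x₀) (hc x₀) x hx, hTp (hχ x) (hc x) x (h1 x).eq_of_nhds]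
    refine ContMDiffAt.congr_of_eventuallyEq ?_ e
    refine contMDiffAt_finsetSum fun i _ => ?_
    exact ((ContinuousLinearMap.smulRightL ℝ V V (innerSL ℝ (b i))).contMDiff.comp
      (h.sm _ (Q _).2)) x₀
  · simp only [hT, map_sum, map_smul, h.pu _ (Q _).2]

/-- **a tensorial map commuting with `1 + ∇^*∇` is parallel** -/
theorem parallel_of_comm (F : Fr I M ι) {A : ι → M → V →L[ℝ] V} (hA : ∀ a, Sm I (A a))
    (hPA : ∀ a x, ∑ b, F.P a b x • A b x = A a x) (hp : Sm I p)
    (hpp : ∀ x v, p x (p x v) = p x v)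
    (hpar : ∀ a x, F.D a p x = p x * A a x - A a x * p x)
    {π : M → V →L[ℝ] V} (hπ : Sm I π) (hπp : ∀ x v, π x (p x v) = π x v)
    (hL : ∀ u ∈ Sec I p, ∀ x, π x (lap1 F A u x) = lap1 F A (fun y => π y (u y)) x) (a : ι)
    (x : M) : F.D a π x = π x * A a x - A a x * π x := by
  -- the defect
  have hZ : ∀ u : M → V, Sm I u → ∀ b y, cov F.toPre A b (fun z => π z (u z)) y =
      π y (cov F.toPre A b u y) + (F.D b π y - (π y * A b y - A b y * π y)) (u y) := by
    intro u hu b y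
    simp only [cov, Pre.D, Sob92.dv_app (md hπ y) (md hu y), map_add, mul_apply_eq_comp,
      sub_apply]
    abel
  set Z : ι → V →L[ℝ] V := fun b => F.D b π x - (π x * A b x - A b x * π x) with hZd
  have h1 : ∀ u ∈ Sec I p, ∀ f : M → ℝ, Sm I f → HasCompactSupport f →
      ∑ b, F.D b f x • Z b (u x) = 0 := by
    intro u hu f hf hc
    have hπu : Sm I fun y => π y (u y) := hπ.clm_apply hu.1
    have e1 := hL _ ((adm_sec p).smul_mem hf hc hu.1 hu.2.2) x
    simp only [map_smul] at e1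
    rw [lap1_smul F hA hf hu.1, lap1_smul F hA hf hπu, ← hL u hu x] at e1
    simp only [map_sub, map_smul, map_sum, hZ u hu.1, smul_add, Finset.sum_add_distrib] at e1
    have e2 : (2 : ℝ) • ∑ b, F.D b f x • Z b (u x) = 0 := by
      rw [sub_left_inj, sub_right_inj] at e1
      simpa [hZd] using e1
    simpa using e2
  have h2 : ∀ v, Z a (p x v) = 0 := by
    intro v
    obtain ⟨χ, hχ, hc, -, h1'⟩ := exists_bump (I := I) (univ_mem : univ ∈ 𝓝 x)
    have hu : (fun y => χ y • p y v) ∈ Sec I p :=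
      (adm_sec p).smul_mem hχ hc (hp.clm_apply contMDiff_const) fun y => hpp y v
    obtain ⟨ξ, hξ⟩ := exists_covector F x a
    obtain ⟨f, hf, hfc, -, hfd⟩ := exists_fun_deriv (I := I) (univ_mem : univ ∈ 𝓝 x) ξ
    have e := h1 _ hu f hf hfc
    have e1 : ∀ b, F.D b f x = F.P a b x := fun b => by rw [Pre.D, hfd, hξ]
    have e2 : χ x = 1 := h1'.eq_of_nhds
    simp only [e1, e2, one_smul] at e
    have e3 : ∑ b, F.P a b x • Z b = Z a := by
      have e4 : ∑ b, F.P a b x • (π x * A b x) = π x * A a x := by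
        rw [← hPA a x, Finset.mul_sum]; simp only [mul_smul_comm]
      have e5 : ∑ b, F.P a b x • (A b x * π x) = A a x * π x := by
        rw [← hPA a x, Finset.sum_mul]; simp only [smul_mul_assoc]
      simp only [hZd, smul_sub, Finset.sum_sub_distrib, P_D, e4, e5]
    rw [← e3]
    simpa using e
  have h3 : F.D a π x = F.D a π x * p x + π x * F.D a p x := by
    have e : π = fun y => (ContinuousLinearMap.mul ℝ (V →L[ℝ] V)) (π y) (p y) := by
      funext y; ext v; exact (hπp y v).symm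
    conv_lhs => rw [e]
    exact Sob92.dv_bil _ (md hπ x) (md hp x)
  have h4 : Z a * p x = 0 := by ext v; exact h2 v
  have h5 : π x * p x = π x := by ext v; exact hπp x v
  have h6 : F.D a π x * p x = π x * A a x * p x - A a x * π x := by
    rw [hZd, sub_mul, sub_eq_zero, sub_mul, mul_assoc (A a x), h5] at h4
    exact h4
  rw [h3, h6, hpar, mul_sub, ← mul_assoc, ← mul_assoc, h5]
  abel

end tens

end Crest.Agent.X212.Wrd81
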