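import Crest.Agent.X212.Eqv71.Nk1
import Crest.Agent.X212.Dead36.Gen

/-!
# X212 / WORDS, part 28 (helper81): necks with the same chart; vanishing terms.
-/

set_option autoImplicit false
set_option linter.unusedSectionVars false
noncomputable section
open scoped Manifold ContDiff Topology InnerProductSpace
open MeasureTheory Set Function Filter

namespace Crest.Agent.X212.Wrd81
open An Sob92 Dgr80 Nd18 Eqv71

variable {E : Type} [NormedAddCommGroup E] [NormedSpace ℝ E] [FiniteDimensional ℝ E]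
  [MeasurableSpace E] [BorelSpace E]
  {HM : Type} [TopologicalSpace HM] {I : ModelWithCorners ℝ E HM} [I.Boundaryless]
  {M : Type} [TopologicalSpace M] [ChartedSpace HM M] [IsManifold I ∞ M]
  [MeasurableSpace M] [BorelSpace M] [T2Space M] [SecondCountableTopology M]
  {lam : Type} [Fintype lam] {O : Set M} {r n : ℕ} {x : M}

section van
variable {ι : Type} [Fintype ι] {B : Base M ι lam} {G G' : Geo I M ι lam} {c : Cfg M ι lam r}

section
variable (hO : IsClopen O) (hT : ∃ C, G.F.Tame C) (h : Ad0 c B G) (h0 : ∀ x ∉ O, c.Φ x = 0)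
include hO hT h h0

theorem van_sg {g : Sg M lam} (hg : ∀ x ∈ O, g.s x = 0) : c.sg G.F g = 0 :=
  have z : Dead36.ZO G.F c Oᶜ :=
    ⟨hO.compl, Mp86.bumps_of_tame _ hT.choose_spec, mc_W h.conn, mc_adW h.conn, h0⟩
  integral_eq_zero_of_ae (.of_forall fun x => by
    by_cases hx : x ∈ O
    · simp [hg x hx, hm, Complex.ext_iff]
    · simp [z.sw g.v x hx, hm, Complex.ext_iff])

theorem van_co {d : Co M lam r} (hd : d.Van O) : c.co G.F d = 0 := by
  cases d
  exacts [hd.elim, by rw [Cfg.co, van_sg hO hT h h0 hd, zero_div]]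

theorem van_qj {d : Co M lam r} (hd : d.Van O) (s : M → Eu lam) (u v : SW M) (l : List (La M))
    (x : M) : wd (c.la G.F) (c.qj G.F d s u v) l x = 0 := by
  have z : Dead36.ZO G.F c.con univ := ⟨isClopen_univ, Mp86.bumps_of_tame _ hT.choose_spec,
    mc_W h.conn, mc_adW h.conn, fun _ _ => rfl⟩
  have := z.la (s := c.qj G.F d s u v) (fun x _ => by
    simp [Cfg.qj, van_co hO hT h h0 hd, cs, Md.q, rk1]) l x trivial
  rwa [Dead36.la_con] at this

theorem van_tc (k : Cut M lam) {t : Tc M lam r} (hV : t.ξ.Van O) : c.tc B G.F k t = 0 := by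
  obtain ⟨m, j, w, _ | _ | _⟩ := t
  exacts [hV.elim, hV.elim, by
    simp only [Cfg.tc, Cfg.xi, van_qj hO hT h h0 hV, map_zero, mul_zero, zero_mul, frk, cpr,
      ContinuousLinearMap.zero_comp, ContinuousLinearMap.comp_zero]]

/-- a vanishing term vanishes at spinors supported in `O` -/
theorem van_tm {T : Tm M lam r n} (hV : T.Van O) :
    (∀ x ∈ O, c.tD B G.F T x = 0 ∧ c.tC B G.F T x = 0) ∧ c.tS G.F T = 0 := by
  have D : ∀ g : M → ℝ, (∀ x ∈ O, g x = 0) → ∀ x ∈ O, ∀ a, G.F.D a g x = 0 := fun g hg x hx a => by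
    rw [Pre.D_def, dv_congr (v := fun _ => 0) (eventually_of_mem (hO.2.mem_nhds hx) hg), dv_const]
    rfl
  cases T with
  | lin u =>
    obtain ⟨f, w, rfl, k⟩ := hV
    exact ⟨fun x hx => ⟨by simp [Cfg.tD, Cfg.sw, Cfg.lt, k x hx], rfl⟩, rfl⟩
  | anti d s u =>
    refine ⟨fun x hx => ⟨?_, rfl⟩, rfl⟩
    rcases hV with k | k
    · simp [Cfg.tD, k x hx, cs]
    · simp [Cfg.tD, van_co hO hT h h0 k, cs]
  | ad g g' ξ => exact ⟨fun x hx => ⟨rfl, by simp [Cfg.tC, D g hV x hx, ← Pi.zero_def]⟩, rfl⟩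
  | adj d s g g' u v l =>
    refine ⟨fun x hx => ⟨rfl, ?_⟩, rfl⟩
    rcases hV with k | k
    · simp [Cfg.tC, D g k x hx, ← Pi.zero_def]
    · simp [Cfg.tC, van_qj hO hT h h0 k, ← Pi.zero_def]
  | adn f g g' φ L => exact ⟨fun x hx => ⟨rfl, by simp [Cfg.tC, hV x hx, ← Pi.zero_def]⟩, rfl⟩
  | cut i w g => exact ⟨fun x hx => ⟨rfl, rfl⟩, by simp [Cfg.tS, van_sg hO hT h h0 hV]⟩
  | cz => exact hV.elim

end

theorem van_rel0 {U : M → ι → ι → ℝ} {v : M → CL (Eu lam) (Eu lam)} (hO : IsClopen O)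
    (hT : ∃ C, G.F.Tame C) (hT' : ∃ C, G'.F.Tame C) {T : Tm M lam r n} (hV : T.Van O) (a a' : ℝ) :
    PRel0 B G B G' O O id U v ((An.tmP B G.F T).smul a) ((An.tmP B G'.F T).smul a') := by
  refine ⟨fun k x hx => ?_, fun k x hx => ?_, fun k i => ?_⟩ <;>
    obtain ⟨h1, h2⟩ := van_tm hO hT k.adm k.off hV <;>
    obtain ⟨h3, h4⟩ := van_tm hO hT' k.adm' k.off' hV
  · simp [Pt.smul, An.tmP, h1 x hx, h3 x hx, cs]
  · simp [Pt.smul, An.tmP, h1 x hx, h3 x hx]
  · simp [Pt.smul, An.tmP, h2, h4]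

/-- the delay gradient sees the time only on the support of the cut-off -/
theorem dg_q1 {J : Type} [Fintype J] [DecidableEq J] (N : DG M ι lam r J) (F : Fr I M ι)
    {χ τ : M → ℝ} (hd : ∀ j, ∃ d, N.d j = dcut χ d) (h : ∀ x, χ x ≠ 0 → τ x = N.τ x)
    (hD : ∀ a, F.D a τ = F.D a N.τ) :
    (DG.q1 { N with τ := τ } B F : Pt _ _ _ r n) = N.q1 B F := by
  have e : ∀ (f : ℝ → ℝ) x, f (τ x) * χ x = f (N.τ x) * χ x := fun f x => by
    by_cases k : χ x = 0
    · rw [k, mul_zero, mul_zero]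
    · rw [h x k]
  have a : ∀ c, DG.Iv { N with τ := τ } F c = N.Iv F c := fun c => by
    funext t j
    obtain ⟨d, k⟩ := hd j
    simp only [DG.Iv, wn, k, dcut, smul_eq_mul, ← mul_assoc, e fun s => b (N.δ j) (s - t)]
  have a' : ∀ c j, DG.β { N with τ := τ } F c j = N.β F c j := fun c j => by
    unfold DG.β DG.co; rw [a]
  have gA : ∀ c, DG.gA { N with τ := τ } F c = N.gA F c := fun c => funext fun x =>
    Finset.sum_congr rfl fun j _ => by
      obtain ⟨d, k⟩ := hd j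
      simp only [a', k, dcut, e]
  have gP : ∀ c, DG.gP { N with τ := τ } F c = N.gP F c := fun c => funext fun x =>
    Finset.sum_congr rfl fun j _ => by
      obtain ⟨d, k⟩ := hd j
      simp only [a', k, dcut, e]
  simp only [DG.q1, gA, gP, hD]

end van

variable {E3 : Type} [NormedAddCommGroup E3] [NormedSpace ℝ E3] [FiniteDimensional ℝ E3]
  [MeasurableSpace E3] [BorelSpace E3]
  {H3 : Type} [TopologicalSpace H3] {I3 : ModelWithCorners ℝ E3 H3} [I3.Boundaryless]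
  {Y : Type} [TopologicalSpace Y] [ChartedSpace H3 Y] [IsManifold I3 ∞ Y] [T2Space Y]
  [MeasurableSpace Y] [BorelSpace Y] [SecondCountableTopology Y] [CompactSpace Y]
  {κ : Type} [Fintype κ] {D : YD I3 Y κ lam} {B : Base M (Option κ) lam}
  {G G' : Geo I M (Option κ) lam}

/-- two necks with the same chart -/
structure SameN (K : Nk D B G) (K' : Nk D B G') : Prop where
  p : K'.p = K.p
  q : K'.q = K.q
  ψ : EqOn K'.ψ K.ψ K.ψ.source

namespace SameN
section two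
variable {K : Nk D B G} {K' : Nk D B G'} (e : SameN K K')
include e

theorem J : K'.J = K.J := by rw [Nk.J, e.p, e.q]

theorem src : K'.ψ.source = K.ψ.source := by rw [K'.src, K.src, e.p, e.q]

theorem symm : SameN K' K := ⟨e.p.symm, e.q.symm, e.src ▸ e.ψ.symm⟩

theorem tgt : K'.ψ.target = K.ψ.target := by
  rw [← K.ψ.image_source_eq_target, ← K'.ψ.image_source_eq_target, e.src]
  exact image_congr e.ψ

theorem inv (hx : x ∈ K.ψ.target) : K'.ψ.symm x = K.ψ.symm x := by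
  have := K.ψ.map_target hx
  conv_lhs => rw [← K.ψ.right_inv hx, ← e.ψ this]
  exact K'.ψ.left_inv (e.src ▸ this)

theorem tm (hx : x ∈ K.ψ.target) : K'.tm x = K.tm x := by
  rw [← K.snd_symm hx, ← K'.snd_symm (e.tgt ▸ hx), e.inv hx]

theorem cut : K'.cut = K.cut := by unfold Nk.cut; rw [e.p, e.q]

theorem cut_tm {d : ℝ} (hd : 0 < d) (x : M) : K'.cut d (K'.tm x) = K.cut d (K.tm x) := by
  by_cases hx : x ∈ K.ψ.target
  · rw [e.cut, e.tm hx]
  · exact (ct_zero fun k => hx (e.tgt ▸ K'.dp_sub hd k)).trans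
      (ct_zero fun k => hx (K.dp_sub hd k)).symm

theorem χ : K'.χ = K.χ := funext (e.cut_tm one_pos)

theorem χ4 : K'.χ4 = K.χ4 := funext (e.cut_tm four_pos)

theorem τ (hx : x ∈ K.ψ.target) : K'.τ x = K.τ x := by rw [Nk.τ, Nk.τ, e.p, e.q, e.tm hx]

theorem ext {N : Type} [NormedAddCommGroup N] [NormedSpace ℝ N] (f : Y → N) :
    K'.ext f = K.ext f := funext fun x => by
  by_cases hx : x ∈ K.ψ.target
  · rw [Nk.ext, Nk.ext, e.χ, e.inv hx]
  · rw [Nk.ext, Nk.ext, e.χ, χ_off K hx, zero_smul, zero_smul]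

/-- the neck `K` with the time function of `K'` -/
def re : Nk D B G :=
  { K with
    tm := K'.tm
    tgt := by rw [← e.tgt, K'.tgt, e.p, e.q]
    cont := K'.cont
    tm_ψ := fun z hz => by rw [← e.ψ hz, K'.tm_ψ z (e.src ▸ hz)] }

theorem same_re : SameN K e.re := ⟨rfl, rfl, fun _ _ => rfl⟩

theorem nkR (h : K.ψ.target ⊆ O) : NkR O O id e.re K' 0 :=
  have k : SameN e.re K' := ⟨e.p, e.q, e.ψ⟩
  ⟨fun x _ => by rw [add_zero, Nk.τ, e.p, e.q]; rfl, fun t => by rw [add_zero, k.cut],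
    fun x _ => congrFun k.χ x, fun x _ h0 => congrArg _ (k.inv (by_contra fun h => h0 (χ_off _ h))),
    fun x hx => χ_off _ fun k => hx (h k), fun x hx => χ_off _ fun k => hx (h (e.tgt ▸ k)),
    fun t => by rw [add_zero, k.cut]⟩

variable {c : Cfg M (Option κ) lam r} {β : YC Y κ lam} {ζ : Circle}

theorem cls {u : Y × ℝ → CL (K.pb c).m.V β.m.V} {S : Set ℝ} {k : ℕ} {η : ℝ} (hS : S ⊆ K.J)
    (H : D.Cls (K.pb c) β u ζ S k η) : D.Cls (K'.pb c) β u ζ S k η := by
  have a : ∀ z ∈ (univ : Set Y) ×ˢ S, K'.ψ z = K.ψ z := fun z hz => e.ψ (K.mem_src.2 (hS hz.2))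
  have o := fun z (hz : z ∈ _) => ((isOpen_univ.prod H.op).eventually_mem (x := z) hz).mono a
  refine ⟨H.op, ⟨H.m.su, fun z hz => (H.m.uu z hz).trans (congrArg c.m.p (a z hz).symm), H.m.uu',
    H.m.J, fun z hz i => (H.m.ρ z hz i).trans ?_, fun z hz s => (H.m.j z hz s).trans ?_⟩,
    fun i w hw z hz => Eq.trans_le ?_ (H.A i w hw z hz), fun w hw z hz => Eq.trans_le ?_
      (H.P w hw z hz)⟩
  · exact congrArg (fun x => u z ∘L ∑ b, D.B.P i b z • c.m.ρ b x) (a z hz).symm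
  · exact congrArg (fun x => u z ∘L c.m.j x s) (a z hz).symm
  · exact congrArg _ (Prm93.Dw_congr w ((o z hz).mono fun y hy => congrArg (fun T : CL (K.pb c).m.V
      (K.pb c).m.V => (D.Z.D i u y + β.W i y.1 ∘L u y - u y ∘L T) ∘L trn (u y))
      (congrArg (c.W i) hy)))
  · exact congrArg _ (Prm93.Dw_congr w ((o z hz).mono fun y hy =>
      congrArg (fun x => cs β.m.J ζ (u y (c.Φ x)) - β.Φ y.1) hy))

theorem lim {l : Filter ℝ} (H : K.Lim c β ζ l) : K'.Lim c β ζ l :=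
  H.imp fun _ H k η hη => let ⟨S, a, b, d⟩ := H k η hη; ⟨S, a, e.J ▸ b, e.cls b d⟩

theorem near {s η : ℝ} (H : K.Near c s β η) : K'.Near c s β η :=
  ⟨e.J ▸ H.1, let ⟨u, ζ, d⟩ := H.2; ⟨u, ζ, e.cls H.1 d⟩⟩

theorem elim {d : ℝ} {l : Filter ℝ} (H : K.ELim d c β ζ l) : K'.ELim d c β ζ l :=
  let ⟨u, S, a, b, h1, h2⟩ := H
  ⟨u, S, a, e.J ▸ b, e.cls b h1, fun k => (h2 k).imp fun _ h s hs => e.cls (hs.trans b) (h s hs)⟩

theorem std {l : Filter ℝ} (H : K.Std c β ζ l) : K'.Std c β ζ l :=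
  let ⟨u, S, a, b, h1⟩ := H; ⟨u, S, a, e.J ▸ b, e.cls b h1⟩

end two

section one
variable {K K' : Nk D B G} (e : SameN K K') (N : ND Y lam)
include e

theorem dτ (a : Option κ) : G.F.D a K'.τ = G.F.D a K.τ := funext fun x => by
  by_cases hx : x ∈ K.ψ.target
  · exact dv_congr (eventually_of_mem (K.ψ.open_target.mem_nhds hx) fun _ => e.τ)
  · rw [D_τ_off K hx, D_τ_off K' (e.tgt ▸ hx)]

theorem dfn (g : Option (Y → ℝ)) (a : Option κ) : G.F.D a (K'.fn g) = G.F.D a (K.fn g) := by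
  cases g
  exacts [e.dτ a, by simp only [Nk.fn, e.ext]]

theorem lt (c : Cfg M (Option κ) lam r) (t : YL Y) :
    ltS G.F c (K'.lt t) = ltS G.F c (K.lt t) := by
  cases t <;> simp only [Nk.lt, ltS, e.ext, e.dfn]

theorem la : K'.la = K.la := funext fun t => by cases t <;> simp only [Nk.la, e.ext]

theorem lts (c : Cfg M (Option κ) lam r) (u : List (YL Y)) :
    (u.map K'.lt).map (ltS G.F c) = (u.map K.lt).map (ltS G.F c) := by
  simp only [List.map_map]
  exact List.map_congr_left fun t _ => e.lt c t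

theorem sw (T : Pk M lam) (u v : List (YL Y)) : (Den.sw G.F T (u.map K'.lt) (v.map K'.lt) :
    Dgr80.Den _ _ _ r) = Den.sw G.F T (u.map K.lt) (v.map K.lt) := by
  have a : ∀ (c : Cfg M (Option κ) lam r) (u : List (YL Y)),
      nw G.F c (u.map K'.lt) = nw G.F c (u.map K.lt) := fun c u => by rw [nw_eq, nw_eq, e.lts]
  simp only [Den.sw, a, swA, swP, e.lts]

theorem q1 : (N.q1 K' : Pt _ _ _ r n) = N.q1 K := by
  have : (N.dg K' : DG _ _ _ r _) = { N.dg K with τ := K'.τ } := by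
    have a : ∀ d, (K'.den d : Dgr80.Den _ _ _ r) = K.den d := fun d => by
      cases d <;> simp only [Nk.den, Nk.cyc, e.χ, e.sw, e.la, e.ext]
    simp only [ND.dg, congrFun e.cut, a, Nk.dre, Nk.dim, e.χ, e.sw, e.ext]
  rw [ND.q1, this]
  refine dg_q1 _ _ (χ := K.χ) (fun j => ?_) (fun x hx => e.τ (by_contra fun h => hx (χ_off _ h)))
    e.dτ
  rcases j with j | j | j
  · show ∃ d, K.den (N.d0 j) = _
    cases N.d0 j <;> exact ⟨_, rfl⟩
  all_goals exact ⟨_, rfl⟩

theorem val (c : Cfg M (Option κ) lam r) (C : YTC) :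
    (N.tc K' C).val G.F K'.τ N.δ c = (N.tc K C).val G.F K.τ N.δ c := by
  have a : N.ew K' c = N.ew K c := by
    funext x; simp only [ND.ew, Dgr80.ew, Cfg.sd, nt, e.χ4, e.ext, e.dτ]
  have a' : ∀ t, wn G.F.μ K'.τ N.δ (N.ew K c) t = wn G.F.μ K.τ N.δ (N.ew K c) t := fun t =>
    congrArg _ (funext fun x => by
      by_cases hx : x ∈ K.ψ.target
      · rw [e.τ hx]
      · simp only [ND.ew, χ4_zero K (χ_off K hx), zero_mul, smul_zero])
  funext t
  simp only [TC.val, ND.tc, a, a']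

theorem tcf (c : Cfg M (Option κ) lam r) (C : YTC) :
    (fun x => K'.χ x * (N.tc K' C).val G.F K'.τ N.δ c (K'.τ x)) =
      fun x => K.χ x * (N.tc K C).val G.F K.τ N.δ c (K.τ x) := funext fun x => by
  rw [e.χ, e.val]
  by_cases hx : x ∈ K.ψ.target
  · rw [e.τ hx]
  · rw [χ_off K hx, zero_mul, zero_mul]

theorem q2 (T : YT Y) : (N.q2 K' T : Pt _ _ _ r n) = N.q2 K T := by
  have oc : ∀ c : Cfg M (Option κ) lam r, N.oc K' T c = N.oc K T c := fun c => funext fun x => by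
    by_cases hx : x ∈ K.ψ.target
    · rw [ND.oc, ND.oc, e.val, e.cut, e.τ hx]
    · rw [ND.oc, ND.oc, K.cut_τ (by norm_num), K'.cut_τ (by norm_num), e.cut_tm three_pos,
        show K.cut 3 (K.tm x) = 0 from ct_zero fun h => hx (K.dp_sub three_pos h), zero_mul, zero_mul]
  have sw : ∀ (c : Cfg M (Option κ) lam r) (u : List (YL Y ⊕ YTC)),
      c.sw G.F ((u.map (N.tl K')).map (tl G.F K'.τ N.δ c)) =
        c.sw G.F ((u.map (N.tl K)).map (tl G.F K.τ N.δ c)) := fun c u => by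
    rw [sw_eq, sw_eq]
    simp only [List.map_map]
    refine congrArg _ (List.map_congr_left fun t _ => ?_)
    cases t
    exacts [e.lt c _, congrArg (fun f => ltS G.F c (.mul f)) (e.tcf N c _)]
  have ta : ∀ (c : Cfg M (Option κ) lam r) (l : List (La Y ⊕ YTC)),
      (l.map (N.ta K')).map (ta G.F K'.τ N.δ c) = (l.map (N.ta K)).map (ta G.F K.τ N.δ c) :=
    fun c l => by
      simp only [List.map_map]
      refine List.map_congr_left fun t _ => ?_
      cases t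
      exacts [congrFun e.la _, congrArg La.mul (e.tcf N c _)]
  simp only [ND.q2, oc]
  cases T <;> simp only [ND.tm, TT.tm, Cfg.tD, Cfg.tC, Cfg.aw, Cfg.sd, sw, ta, e.dτ, e.dfn, e.ext]

end one

variable {K : Nk D B G} {K' : Nk D B G'} (e : SameN K K') {N : ND Y lam}
  (g : KT B G B G' O O id id (fun x b a => B.P b a x) B.l) (h : K.ψ.target ⊆ O) (hN : N.OK D)
include e g h hN

theorem q1_rel : PRel0 B G B G' O O id (fun x b a => B.P b a x) B.l (N.q1 K : Pt _ _ _ r n)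
    (N.q1 K') := by
  rw [← e.same_re.q1]
  exact (e.nkR h).q1_rel0 g.toKC hN g.tame.choose_spec g.tame'.choose_spec
    fun _ => (e.nkR h).sr g.hB _

theorem q2_rel {T : YT Y} (hT : T.OK I3) : PRel0 B G B G' O O id (fun x b a => B.P b a x) B.l
    (N.q2 K T : Pt _ _ _ r n) (N.q2 K' T) := by
  rw [← e.same_re.q2]
  exact (e.nkR h).q2_rel0 g.toKC hN hT

end SameN

end Crest.Agent.X212.Wrd81
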