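import Crest.Agent.X212.Std94.Smo
import Crest.Agent.X212.Wz78.Mu

/-!
# X212 / WORDS, part 11 (helper81): complex Clifford submodules at a point.
-/

set_option autoImplicit false
set_option linter.unusedSectionVars false
noncomputable section
open scoped Manifold ContDiff Topology InnerProductSpace
open Set Function

namespace Crest.Agent.X212.Wrd81
open An Wz78

variable {E : Type} [NormedAddCommGroup E] [NormedSpace ℝ E] [FiniteDimensional ℝ E]
  [MeasurableSpace E] [BorelSpace E]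
  {HM : Type} [TopologicalSpace HM] {I : ModelWithCorners ℝ E HM}
  {M : Type} [TopologicalSpace M] [ChartedSpace HM M] [IsManifold I ∞ M]
  [MeasurableSpace M] {ι : Type} [Fintype ι] {lam : Type} [Fintype lam]
  {B : Base M ι lam} {m : Md M ι lam} {x : M} {π : En (Fin m.N)}

variable (m) in
/-- the projector onto a complex Clifford submodule of the fibre -/
structure Hf (x : M) (π : En (Fin m.N)) : Prop where
  sym : Sym π
  idem : π * π = π
  p : m.p x * π = π
  J : π * m.J = m.J * π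
  ρ : ∀ a, π * m.ρ a x = m.ρ a x * π

variable (hB : B.OK I) (H : m.OK I B)
include H

lemma cs_j_inv {d : ℂ} (hd : d ≠ 0) (s : Eu lam) (w : m.V) :
    cs m.J d (m.j x (cs B.il d⁻¹ s) w) = m.j x s w := by
  rw [Eqv71.ME.j_cs H, Eqv71.cs_mul H.Jsq, mul_inv_cancel₀ hd, Eqv71.cs_one]

namespace Hf
variable (h : Hf m x π)
include h

lemma p' : π * m.p x = π := by
  have := congrArg trn h.p
  rwa [trn_mul, Sym.trn h.sym, Sym.trn (H.psym x)] at this

omit H in
lemma app (v : m.V) : π (π v) = π v := by rw [← mul_apply_eq_comp, h.idem]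

lemma pm : π * m.pm B x = m.pm B x * π := pm_comm (by rw [h.p' H, h.p]) h.ρ

lemma pp : π * m.pp B x = m.pp B x * π := pp_comm (by rw [h.p' H, h.p]) h.ρ

include hB

lemma exists_t : ∃ (s₀ : Eu lam) (t : ℝ), m.j x s₀ * m.j x s₀ = m.p x ∧
    (∀ s, ∃ a b : ℝ, m.j x s = a • m.j x s₀ + b • (m.J * m.j x s₀)) ∧
    π + m.j x s₀ * π * m.j x s₀ = t • m.p x := by
  obtain ⟨U, s₀, u, f⟩ := Std94.exists_fx hB (Std94.pmx H x)
  have e := fun s => f.pm.j_eq f.lf s
  have kk : m.j x s₀ * m.j x s₀ = m.p x := by rw [H.jsq, f.lf.ls, f.lf.n1, one_pow, one_smul]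
  have kJ := H.jJ x s₀
  have kp := j_p H x s₀
  have pk := H.pj x s₀
  have kρ := fun a => H.jρ a x s₀
  generalize hk : m.j x s₀ = k at *
  have cJ : (π + k * π * k) * m.J = m.J * (π + k * π * k) := by
    rw [add_mul, mul_add, h.J, mul_assoc, kJ, mul_neg, ← mul_assoc, mul_assoc k, h.J, ← mul_assoc,
      kJ]
    simp only [neg_mul, neg_neg, mul_assoc]
  have ck : (π + k * π * k) * k = k * (π + k * π * k) := by
    rw [add_mul, mul_add, mul_assoc, kk, mul_assoc, h.p' H, ← mul_assoc, ← mul_assoc, kk, h.p,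
      add_comm]
  have c1 : m.p x * (π + k * π * k) = π + k * π * k := by
    rw [mul_add, h.p, ← mul_assoc, ← mul_assoc, pk]
  have c2 : (π + k * π * k) * m.p x = π + k * π * k := by rw [add_mul, h.p' H, mul_assoc, kp]
  have c3 : ∀ a, (π + k * π * k) * m.ρ a x = m.ρ a x * (π + k * π * k) := fun a => by
    rw [add_mul, mul_add, h.ρ, mul_assoc, kρ, ← mul_assoc, mul_assoc k, h.ρ, ← mul_assoc, kρ]
    simp only [mul_assoc]
  have c4 : ∀ s, (π + k * π * k) * m.j x s = m.j x s * (π + k * π * k) := fun s => by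
    rw [e s, mul_add _ (_ • k), add_mul (_ • k), mul_smul_comm, mul_smul_comm, smul_mul_assoc,
      smul_mul_assoc, ck, ← mul_assoc _ m.J, cJ, mul_assoc m.J, ck, mul_assoc m.J]
  have ap : ∀ {S T : En (Fin m.N)}, S = T → ∀ v, S v = T v := fun e v => by rw [e]
  obtain ⟨c, hc⟩ := (f.itx_iff f (π + k * π * k)).1
    ⟨ap c1, ap c2, fun a => ap (c3 a), ap cJ, fun s => ap (c4 s)⟩
  have ks : Sym k := hk ▸ H.jsym x s₀
  have := (Std94.symm_Xi_iff u c).1 fun v w => by
    simp only [← hc, add_apply, mul_apply_eq_comp, inner_add_left, inner_add_right, h.sym _,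
      ks _]
  exact ⟨s₀, c.re, hk ▸ kk, fun s => ⟨_, _, hk ▸ e s⟩, by rw [hk, hc, ← f.Xi_coe, ← this]⟩

/-- `π V + j π V` is everything -/
lemma ext (h0 : π ≠ 0) {v : m.V} (hv : m.p x v = v) (h1 : π v = 0)
    (h2 : ∀ s, π (m.j x s v) = 0) : v = 0 := by
  obtain ⟨s, t, -, -, e⟩ := h.exists_t hB H
  have a := congrArg (· v) e
  simp only [add_apply, mul_apply_eq_comp, h1, h2, map_zero, add_zero, smul_apply, hv] at a
  refine (smul_eq_zero.1 a.symm).resolve_left fun ht => h0 (ContinuousLinearMap.ext fun w => ?_)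
  have b := congrArg (fun T : En (Fin m.N) => ⟪T w, w⟫_ℝ) e
  have c : ∀ z, ⟪π z, z⟫_ℝ = ‖π z‖ ^ 2 := fun z => by
    rw [← real_inner_self_eq_norm_sq, ← h.sym (π z), h.app]
  simp only [ht, zero_smul, add_apply, mul_apply_eq_comp, inner_add_left, H.jsym x s _, c,
    zero_apply, inner_zero_left] at b
  have := sq_nonneg ‖π (m.j x s w)‖
  simpa using le_antisymm (show ‖π w‖ ^ 2 ≤ 0 by linarith) (sq_nonneg _)

/-- an element of `g` is determined by its blocks `π ζ π`, `π j ζ π` -/
lemma g_zero (h0 : π ≠ 0) {ζ : m.A} (hζ : ζ ∈ m.gS x) (h1 : ∀ a, π (opL ζ (π a)) = 0)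
    (h2 : ∀ s a, π (m.j x s (opL ζ (π a))) = 0) : ζ = 0 := by
  have p : ∀ w, m.p x (opL ζ w) = opL ζ w := fun w => by rw [← mul_apply_eq_comp, g_p hζ]
  have a : ∀ w, π (opL ζ w) = 0 := fun w => ext_inner_right ℝ fun z => by
    rw [h.sym, g_skw hζ, h.ext hB H h0 (p _) (h1 z) fun s => h2 s z]; simp
  refine opL_inj (ContinuousLinearMap.ext fun w => ?_)
  rw [map_zero, zero_apply]
  exact h.ext hB H h0 (p w) (a w) fun s => by
    rw [← mul_apply_eq_comp (m.j x s), g_j hζ, mul_apply_eq_comp, a]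

/-- nothing, everything, or one half -/
lemma tri : π = 0 ∨ π = m.p x ∨ ∀ s, π * m.j x s * π = 0 := by
  obtain ⟨s, t, kk, e, ht⟩ := h.exists_t hB H
  have kp := j_p H x s
  generalize m.j x s = k at *
  have a : k * π * k = t • m.p x - π := by rw [← ht, add_sub_cancel_left]
  have b : k * π * k * (k * π * k) = k * π * k := by
    rw [mul_assoc (k * π), ← mul_assoc k, ← mul_assoc k, kk, h.p, ← mul_assoc, mul_assoc k, h.idem]
  rw [a] at b
  simp only [mul_sub, sub_mul, smul_mul_assoc, mul_smul_comm, H.pidem, h.p, h.p' H, h.idem] at b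
  by_cases t1 : t = 1
  · have c : π * k * π = 0 := by
      have : k * π = k * π * k * k := by rw [mul_assoc _ k k, kk, mul_assoc, h.p' H]
      rw [mul_assoc, this, a, t1, one_smul, ← mul_assoc, mul_sub, h.p' H, h.idem]; simp
    refine .inr (.inr fun s => ?_)
    obtain ⟨a, b, e⟩ := e s
    rw [e, mul_add, add_mul, mul_smul_comm, mul_smul_comm, smul_mul_assoc, smul_mul_assoc, c,
      ← mul_assoc, h.J, mul_assoc m.J, mul_assoc m.J, c]
    simp
  · have c : π = (t / 2) • m.p x := by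
      refine smul_right_injective _ (sub_ne_zero.2 t1) ?_
      linear_combination (norm := module) (-1 / 2 : ℝ) • b
    have d := h.idem
    rw [c, smul_mul_smul_comm, H.pidem, ← sub_eq_zero, ← sub_smul, ← mul_sub_one, mul_smul,
      smul_eq_zero, sub_smul, one_smul, ← c, sub_eq_zero] at d
    exact d.imp (fun d => by rw [c, d, zero_smul]) .inl

end Hf

end Crest.Agent.X212.Wrd81
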