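import Crest.Agent.X212.Eqv71.Job
import Crest.Agent.X212.Wrd81.Trf
import Crest.Agent.X212.Wrd81.LocN
import Crest.Agent.X212.Nat75.Tp
import Crest.Agent.X212.Cht98.Jb

/-!
# X212 / WORDS, part 29 (helper81): the data of a part depend on the live coordinates only.
-/

set_option autoImplicit false
set_option linter.unusedSectionVars false
noncomputable section
open scoped Manifold ContDiff Topology InnerProductSpace
open MeasureTheory Set Function Filter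

namespace Crest.Agent.X212.An.Job
open M Nd18 Wrd81 Eqv71

variable {Wi : Type} {X : Mf 4} {A κ lam : Type} [Fintype A] [Fintype κ] [Fintype lam]
  [DecidableEq lam] {M : Mark X A κ} {W : World M} {N : ML M lam}
  {Λ : Lns W N} {A' T : Type} [Fintype A'] [DecidableEq A'] [Fintype T] {r n : ℕ}
  {J : Job Wi Λ A' T r n} {c : M.Cl} {σ : Cel A'} {p : Prt A A' T} {t t' : A' → ℝ}

/-- a free wall whose band meets a piece is an inner wall -/
theorem inn_of {π : Reg A} (hπ : M.sys.Piece c.1 π) {a : A} (ha : a ∈ M.sys.fr c.1) {x : X.M}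
    (hx : x ∈ range (M.bn a).j) (hz : W.φ c x ∈ W.pc c π) : a ∈ M.sys.inn π :=
  have := M.con
  by_contra fun k => disjoint_left.1 (hπ.toIsReg.outer (by_contra fun e => ha.1 (hπ.bd_subset e))
    (fun a' e => ha.2 a' (hπ.bd_subset e)) k).1
    ((Cyl58.φ_mem_pc W.toCaps hπ (Mark.fr_not_mem ha hx)).1 hz) hx

section
variable {P : Set (Reg A)} (hP : ∀ π ∈ P, M.sys.Piece c.1 π)
include hP

theorem symm_mem {y : (W.Z c).M} (hy : y ∈ W.un c P) (e : y ∈ (W.φ c).target) :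
    (W.φ c).toPartialEquiv.symm y ∈ ⋃ π ∈ P, M.sys.U π := by
  obtain ⟨π, h1, h2⟩ := mem_un.1 hy
  refine mem_biUnion h1 ((Cyl58.φ_mem_pc W.toCaps (hP π h1)
    ((W.mem_src c).1 ((W.φ c).map_target e))).1 ?_)
  rwa [(W.φ c).toPartialEquiv.right_inv e]

theorem tp_s {g : X.M → Eu (lam ⊕ lam)} (hg : ∀ x ∈ ⋃ π ∈ P, M.sys.U π, g x = 0) :
    ∀ y ∈ W.un c P, (J.tp c).s g y = 0 := fun y hy => by
  simp only [tp, Tp.of, indicator_apply_eq_zero]
  exact fun e => by rw [hg _ (symm_mem hP hy e), map_zero]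

theorem van_tp {τ : Tm X.M (lam ⊕ lam) r n} (hT : τ.Van (⋃ π ∈ P, M.sys.U π)) :
    ((J.tp c).tm τ).Van (W.un c P) :=
  Nat75.van_tm (fun _ hg _ hy => indicator_apply_eq_zero.2 fun e => hg _ (symm_mem hP hy e))
    (fun _ => tp_s hP) hT

theorem van_tpc {τ : Tc X.M (lam ⊕ lam) r} (hT : τ.ξ.Van (⋃ π ∈ P, M.sys.U π)) :
    ((J.tp c).tc τ).ξ.Van (W.un c P) := by
  obtain ⟨_, _, _, _ | _ | ⟨_ | _⟩⟩ := τ
  exacts [hT, hT, hT, tp_s hP hT]

end

/-- the image of a neck does not depend on the parameter -/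
theorem OK.tgt_eq (hJ : J.OK) {a : A} {b : Option Bool} {s s' : Prm A} (ha : Act J.m c a b s)
    (ha' : Act J.m c a b s') : (J.K c a b s' ha').ψ.target = (J.K c a b s ha).ψ.target := by
  rw [Cht98.isNk_target ha (hJ.nk _ _ _ _ ha), Cht98.isNk_target ha' (hJ.nk _ _ _ _ ha')]
  exact Set.ext fun _ => (Cht98.act_Hs ha').trans (Cht98.act_Hs ha).symm

/-- necks of the same length have the same chart -/
theorem OK.sameN (hJ : J.OK) {a : A} {b : Option Bool} {s s' : Prm A} (ha : Act J.m c a b s)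
    (ha' : Act J.m c a b s') (e : s.2 a = s'.2 a) : SameN (J.K c a b s ha) (J.K c a b s' ha') := by
  have k := hJ.nk _ _ _ _ ha
  have k' := hJ.nk _ _ _ _ ha'
  refine ⟨k'.lo.trans k.lo.symm, by rw [k.hi, k'.hi, e], fun z hz => ?_⟩
  have h1 := (J.K c a b s ha).mem_src.1 hz
  rw [Cht98.isNk_ψ ha k h1, Cht98.isNk_ψ ha' k'
    (by rwa [Cht98.isNk_J ha' k', ← e, ← Cht98.isNk_J ha k]), e]

/-- **the ends do not depend on the parameter** -/
theorem OK.end_eq (hJ : J.OK) {a : A} {b : Bool} {s s' : Prm A} (ha : Act J.m c a (some b) s)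
    (ha' : Act J.m c a (some b) s') : SameN (J.K c a _ s ha) (J.K c a _ s' ha') :=
  hJ.sameN ha ha' ((ha.2.1.2 ha.2.2.2).trans (ha'.2.1.2 ha'.2.2.2).symm)

theorem OK.ν_end (hJ : J.OK) (hσ : σ ∈ J.𝒦) (h : J.Ov σ c t) {a : A} (ha : a ∈ cylW c) :
    J.ν a t = 1 :=
  let ⟨_, h1, h2⟩ := hJ.lin
  let ⟨a', h3, h4⟩ := hJ.inf σ hσ t h.1 a (h.2.ge ha.1)
  (h2 a' a h3 t (h1.le.trans h4.ge)).2 ha.2

namespace POK
variable (hp : J.POK σ c p) (hJ : J.OK) (hσ : σ ∈ J.𝒦) (h : J.Ov σ c t) (h' : J.Ov σ c t')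
  (e : ∀ a ∈ p.V, t a = t' a)
include hp h h' e

theorem par_eq {a : A} (ha : a ∈ M.sys.fr c.1) {x : X.M} (hx : x ∈ range (M.bn a).j)
    (hz : W.φ c x ∈ W.un c p.P) : (J.Θ t).2 a = (J.Θ t').2 a ∧ J.ν a t = J.ν a t' :=
  let ⟨π, h1, h2⟩ := mem_un.1 hz
  (hp.loc t t' h h' e).2.1 π h1 a (inn_of (hp.pc π h1) ha hx h2)

include hJ hσ

/-- **the geometries agree on the part** -/
theorem fr_eq : FrEq J c p t t' := fun z hz i => by
  have k : ∀ a ∈ M.sys.fr c.1, z ∈ W.φ c '' (M.bn a).slab (Icc (-2) 2) →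
      (J.Θ t).2 a = (J.Θ t').2 a := fun a ha ⟨x, h1, h2⟩ =>
    (hp.par_eq h h' e ha ((M.bn a).slab_subset _ h1) (h2 ▸ hz)).1
  have k0 : J.Θ t' = ((J.Θ t).1, (J.Θ t').2) := Prod.ext (hp.loc t t' h h' e).1.symm rfl
  have k1 : (J.G c t).F.e i z = (J.G c t').F.e i z := by
    refine (congrFun (congrFun ((W.L J.m c).F_e (Mark.mem_Ω _ (hJ.memO hσ h))) i) z).trans
      (Eq.trans ?_ (congrFun (congrFun ((W.L J.m c).F_e (Mark.mem_Ω _ (hJ.memO hσ h'))) i) z).symm)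
    rw [k0]
    exact congrFun (W.loc J.m c _ _ _ z k) i
  have k2 : ((Λ.Λ J.m c).ln (J.Θ t)).cm (W.Z c).I z = ((Λ.Λ J.m c).ln (J.Θ t')).cm (W.Z c).I z :=
    Line51.cm_congr (.refl _ _) (by rw [k0]; exact Λ.loc J.m c _ _ _ z k)
  exact ⟨k1, congrArg Line51.rl ((DFunLike.congr_fun k2 _).trans (congrArg _ k1))⟩

theorem agr : Cht98.Agr (J.G c t) (J.G c t') (W.un c p.P) :=
  ⟨(isClopen_un hp.pc).2, fun x hx a => (hp.fr_eq hJ hσ h h' e x hx a).1.symm,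
    fun x hx a => (hp.fr_eq hJ hσ h h' e x hx a).2.symm⟩

theorem μ_eq : (J.G c t).F.μ.restrict (W.un c p.P) = (J.G c t').F.μ.restrict (W.un c p.P) :=
  ((hp.agr hJ hσ h h' e).μ (Lay.F_vol _ _) (Lay.F_vol _ _)).symm

theorem kt2 : KT (J.B c) (J.G c t) (J.B c) (J.G c t') (W.un c p.P) (W.un c p.P) id id
    (fun x b a => (J.B c).P b a x) (J.B c).l :=
  have hO := isClopen_un (W := W) hp.pc
  kt_of ⟨lg_on (Λ.B_ok _ _) (hJ.G_ok hσ h) (hJ.G_ok hσ h') hO.2 (hp.fr_eq hJ hσ h h' e),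
    inv_refl hO.2, Measure.map_id.trans (hp.μ_eq hJ hσ h h' e)⟩ hO.1 hO.1 (hJ.tame hσ h)
    (hJ.tame hσ h')

/-- a neck is off the part, or inside and active with the same data at `t'` -/
theorem dich {a : A} {b : Option Bool} (ha : Act J.m c a b (J.Θ t)) :
    W.un c p.P ⊆ (J.K c a b _ ha).ψ.targetᶜ ∨ (J.K c a b _ ha).ψ.target ⊆ W.un c p.P ∧
      Act J.m c a b (J.Θ t') ∧ (J.Θ t).2 a = (J.Θ t').2 a ∧ J.ν a t = J.ν a t' := by
  have := J.conn_xs a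
  refine or_iff_not_imp_left.2 fun k => ⟨(nk_dich _ (isClopen_un hp.pc)).resolve_right k, ?_⟩
  have b' := hJ.memBr hσ h'
  have o' := hJ.memO hσ h'
  cases b with
  | none =>
    obtain ⟨z, h1, h2⟩ := not_subset.1 k
    obtain ⟨x, h3, rfl⟩ := (hJ.nk _ _ _ _ ha).tgt_sub ha (not_not.1 h2)
    have := hp.par_eq h h' e ha.2.2.2.2.1 ((M.bn a).slab_subset _ h3.2) h1
    exact ⟨⟨ha.1, b', o', ha.2.2.2.1, ha.2.2.2.2.1, this.1 ▸ ha.2.2.2.2.2⟩, this⟩
  | some b => exact ⟨⟨ha.1, b', o', ha.2.2.2⟩, (ha.2.1.2 ha.2.2.2).trans (b'.2 ha.2.2.2).symm,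
      (hJ.ν_end hσ h ⟨ha.2.2.2, ha.1⟩).trans (hJ.ν_end hσ h' ⟨ha.2.2.2, ha.1⟩).symm⟩

/-- sums over the active necks -/
theorem dsum_rel {τ : ∀ s i, J.Ac c s i → Pt (W.Z c).M (Option κ) (lam ⊕ lam) r n}
    (h0 : ∀ s i k, Van0 (J.K c i.1 i.2 _ k).ψ.targetᶜ (τ s i k))
    (h1 : ∀ i k k', (J.K c i.1 i.2 _ k).ψ.target ⊆ W.un c p.P →
      SameN (J.K c i.1 i.2 _ k) (J.K c i.1 i.2 _ k') → J.ν i.1 t = J.ν i.1 t' →
      PRel0 (J.B c) (J.G c t) (J.B c) (J.G c t') (W.un c p.P) (W.un c p.P) id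
        (fun x b a => (J.B c).P b a x) (J.B c).l (τ t i k) (τ t' i k')) :
    PRel0 (J.B c) (J.G c t) (J.B c) (J.G c t') (W.un c p.P) (W.un c p.P) id
      (fun x b a => (J.B c).P b a x) (J.B c).l (Pt.dsum _ (τ t)) (Pt.dsum _ (τ t')) :=
  prel0_dsum' (mapsTo_id _) (fun i k k' => (hp.dich hJ hσ h h' e k).elim
      (fun a => ((h0 t i k).mono a).rel ((h0 t' i k').mono (hJ.tgt_eq k k' ▸ a)) (mapsTo_id _))
      fun a => h1 i k k' a.1 (hJ.sameN k k' a.2.2.1) a.2.2.2)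
    (fun i k k' => (h0 t i k).mono ((hp.dich hJ hσ h h' e k).resolve_right fun a => k' a.2.1))
    fun i k k' => (h0 t' i k).mono ((hp.dich hJ hσ h' h (fun a ha => (e a ha).symm) k).resolve_right
      fun a => k' a.2.1)

theorem t0_rel : PRel0 (J.B c) (J.G c t) (J.B c) (J.G c t') (W.un c p.P) (W.un c p.P) id
    (fun x b a => (J.B c).P b a x) (J.B c).l (J.τ0 c t) (J.τ0 c t') :=
  hp.dsum_rel hJ hσ h h' e
    (τ := fun s i k => ((J.xs i.1).N.smul (J.ν i.1 s)).q1 (J.K c i.1 i.2 _ k))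
    (fun _ _ _ => van0_q1 _ _) fun i _ _ a b d => by
      rw [← d]; exact b.q1_rel (hp.kt2 hJ hσ h h' e) a (nd_smul (hJ.xs i.1).2 _)

theorem tm_rel (w : Wi) : PRel0 (J.B c) (J.G c t) (J.B c) (J.G c t') (W.un c p.P) (W.un c p.P) id
    (fun x b a => (J.B c).P b a x) (J.B c).l
    ((tmP (J.B c) (J.G c t).F ((J.tp c).tm (J.tw w))).smul (J.co w t))
    ((tmP (J.B c) (J.G c t').F ((J.tp c).tm (J.tw w))).smul (J.co w t')) := by
  rcases (hp.loc t t' h h' e).2.2.1 w with k | k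
  · rw [← k]
    by_cases h0 : J.co w t = 0
    · rw [h0]
      exact prel0_zero (mapsTo_id _) (fun _ _ _ => ⟨zero_smul _ _, zero_smul _ _⟩)
        (fun _ _ _ => ⟨zero_smul _ _, zero_smul _ _⟩) (fun _ _ => by simp [Pt.smul])
        fun _ _ => by simp [Pt.smul]
    · have i := (hJ.tw_in hσ h h0).choose_spec
      exact (tm_rel0 (hp.kt2 hJ hσ h h' e) (tmR_refl _ (trn_l (Λ.B_ok _ _)) _) i i).smul _
  · exact van_rel0 (isClopen_un hp.pc) (hJ.tame hσ h) (hJ.tame hσ h') (van_tp hp.pc k) _ _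

theorem tw_rel (w : Wi) : PRel0 (J.B c) (J.G c t) (J.B c) (J.G c t') (W.un c p.P) (W.un c p.P) id
    (fun x b a => (J.B c).P b a x) (J.B c).l (J.τw c t w) (J.τw c t' w) :=
  have := hp.dsum_rel hJ hσ h h' e
    (τ := fun s i k => fsum (fun d : YW _ _ => (J.xs i.1).N.q2 (J.K c i.1 i.2 _ k) d.1)
      (J.ν i.1 s • (J.xs i.1).ty w))
    (fun s i k => van0_fsum (τ := fun d : YW _ _ => (J.xs i.1).N.q2 (J.K c i.1 i.2 _ k) d.1)
      (fun _ => van0_q2 _ _ _) _) fun i _ _ a b d => by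
      rw [← d]
      exact prel0_fsum (fun d => b.q2_rel (hp.kt2 hJ hσ h h' e) a (hJ.xs i.1).2 d.2) _
  (hp.tm_rel hJ hσ h h' e w).add this

/-- **the perturbations at `t` and `t'` correspond on the part** -/
theorem t_rel (q : Wi →₀ ℝ) : PRel0 (J.B c) (J.G c t) (J.B c) (J.G c t') (W.un c p.P) (W.un c p.P)
    id (fun x b a => (J.B c).P b a x) (J.B c).l (J.τ c q t) (J.τ c q t') :=
  (hp.t0_rel hJ hσ h h' e).add (prel0_fsum (hp.tw_rel hJ hσ h h' e) q)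

theorem tc_rel {i : T} (hi : i ∈ p.H) (w : Wi) :
    PcRel0 (J.B c) (J.G c t) (J.B c) (J.G c t') (W.un c p.P) (W.un c p.P) id
      (fun x b a => (J.B c).P b a x) (J.B c).l
      (fun x => J.cc i w t • x.tc (J.B c) (J.G c t).F (J.cut c i) ((J.tp c).tc (J.tc i w)))
      fun x => J.cc i w t' • x.tc (J.B c) (J.G c t').F (J.cut c i) ((J.tp c).tc (J.tc i w)) :=
  fun k η a => by
    have u := unc_of hp.pc (hp.nb i hi)
    rcases (hp.loc t t' h h' e).2.2.2 i hi w with v | v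
    swap
    · have o := isClopen_un (W := W) hp.pc
      simp only [van_tc o (hJ.tame hσ h) k.adm k.off _ (van_tpc hp.pc v), van_tc o (hJ.tame hσ h')
        k.adm' k.off' _ (van_tpc hp.pc v), smul_zero, zero_apply, map_zero]
    rw [← v]
    by_cases h0 : J.cc i w t = 0
    · simp only [h0, zero_smul, zero_apply, map_zero]
    · obtain ⟨_, s⟩ := hJ.tc_in hσ h h0
      simp only [_root_.smul_apply, map_smul, k.tc (hp.kt2 hJ hσ h h' e) η
        (hJ.ct σ hσ t h.1 c h.2 i u) (hJ.ct σ hσ t' h'.1 c h'.2 i u)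
        (Cnt93.rel_refl (Λ.B_ok _ _) (hJ.cut_sub (hp.nb i hi)))
        (Cnt93.tcR_refl (Λ.B_ok _ _) _) s s a]

/-- **the rows of the cuts correspond** -/
theorem sc_rel {i : T} (hi : i ∈ p.H) (q : Wi →₀ ℝ) :
    PcRel0 (J.B c) (J.G c t) (J.B c) (J.G c t') (W.un c p.P) (W.un c p.P) id
      (fun x b a => (J.B c).P b a x) (J.B c).l (J.σc c q t i) (J.σc c q t' i) := fun k η a => by
  simp only [σc, Finsupp.sum, mul_smul, _root_.sum_apply, map_sum]
  refine Finset.sum_congr rfl fun w _ => ?_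
  exact (congrArg (q w • ·) (hp.tc_rel hJ hσ h h' e hi w k η a)).trans (map_smul _ _ _).symm

end POK

end Crest.Agent.X212.An.Job
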