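import Crest.Agent.X212.Wrd81.Exp
import Crest.Agent.X212.Wrd81.Fin
import Crest.Agent.X212.Mod61.Prob

/-!
# X212 / WORDS, part 17 (helper81): the universal linearisation is onto.
-/

set_option autoImplicit false
set_option linter.unusedSectionVars false
noncomputable section
open scoped Manifold ContDiff Topology InnerProductSpace
open MeasureTheory Set Function Filter

namespace Crest.Agent.X212.Wrd81
open An Sob92 Mod61 Map77

/-- from density to finitely many terms -/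
theorem exists_onto {C Y H W : Type*} [NormedAddCommGroup C] [NormedSpace ℝ C]
    [NormedAddCommGroup Y] [NormedSpace ℝ Y] [NormedAddCommGroup H] [NormedSpace ℝ H]
    {A : C →L[ℝ] Y} {σ : C →L[ℝ] H} (hF : (A.prod σ).IsFredholm) (v : W → Y)
    (hd : ∀ N : Submodule ℝ Y, IsClosed (N : Set Y) → (∀ u, A u ∈ N) → (∀ w, v w ∈ N) →
      ∀ e, e ∈ N) : ∃ J : Finset W, ∀ f, ∃ (u : C) (c : J → ℝ), A u + ∑ w : J, c w • v w = f := by
  classical
  have := hF.finite_coker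
  let v' : W ⊕ H → Y × H := Sum.elim (fun w => (v w, 0)) fun a => (0, a)
  let N := ((A.prod σ).range ⊔ Submodule.span ℝ (range v')).topologicalClosure
  have a : ∀ j, v' j ∈ N := fun j => Submodule.le_topologicalClosure _
    (Submodule.mem_sup_right (Submodule.subset_span ⟨j, rfl⟩))
  have b := hd (N.comap (LinearMap.inl ℝ Y H))
    ((Submodule.isClosed_topologicalClosure _).preimage (Continuous.prodMk_left 0))
    (fun u => show (A u, 0) ∈ N by
      convert sub_mem (Submodule.le_topologicalClosure _ (Submodule.mem_sup_left ⟨u, rfl⟩) :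
        A.prod σ u ∈ N) (a (.inr (σ u))) using 1
      simp [v']) fun w => a (.inl w)
  obtain ⟨s, hs⟩ := exists_finset_top _ hF.isClosed_range v' fun e => show e ∈ N by
    simpa [v'] using (add_mem (b e.1) (a (.inr e.2)) : _ ∈ N)
  refine ⟨s.toLeft, fun f => ?_⟩
  obtain ⟨_, ⟨u, rfl⟩, z, hz, e⟩ := Submodule.mem_sup.1 (hs ▸ Submodule.mem_top (x := (f, (0 : H))))
  have : Submodule.span ℝ (v' '' s) ≤
      (Submodule.span ℝ (range fun w : s.toLeft => v w)).comap (LinearMap.fst ℝ Y H) := by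
    rw [Submodule.span_le]
    rintro _ ⟨w | w, hw, rfl⟩
    exacts [Submodule.subset_span ⟨⟨w, Finset.mem_toLeft.2 hw⟩, rfl⟩, zero_mem (Submodule.span ℝ _)]
  obtain ⟨c, hc⟩ := (Submodule.mem_span_range_iff_exists_fun ℝ).1 (this hz)
  exact ⟨u, c, hc ▸ congrArg Prod.fst e⟩

lemma deriv_quad {X Y Z Y' : Type*} [NormedAddCommGroup X] [NormedSpace ℝ X] [NormedAddCommGroup Y]
    [NormedSpace ℝ Y] [NormedAddCommGroup Z] [NormedSpace ℝ Z] [NormedAddCommGroup Y']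
    [NormedSpace ℝ Y'] (J : Y →L[ℝ] Y') (L : X →L[ℝ] Y) (i : Z →L[ℝ] Y) (β : X →L[ℝ] X →L[ℝ] Z)
    (a w : X) : HasDerivAt (fun s : ℝ => J (L (a + s • w) + i (β (a + s • w) (a + s • w))))
      (J (L w + i (β a w + β w a))) 0 := by
  have h2 : HasDerivAt (fun s : ℝ => a + s • w) w 0 := by
    simpa using ((hasDerivAt_id (0 : ℝ)).smul_const w).const_add a
  exact (J.hasFDerivAt.comp_hasDerivAt 0 ((L.hasFDerivAt.comp_hasDerivAt 0 h2).add
    (i.hasFDerivAt.comp_hasDerivAt 0 ((β.hasFDerivAt.comp_hasDerivAt 0 h2).clm_apply h2)))).congr_deriv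
    (by simp [add_comm])

variable {E : Type} [NormedAddCommGroup E] [NormedSpace ℝ E] [FiniteDimensional ℝ E]
  [MeasurableSpace E] [BorelSpace E]
  {HM : Type} [TopologicalSpace HM] {I : ModelWithCorners ℝ E HM} [I.Boundaryless]
  {M : Type} [TopologicalSpace M] [ChartedSpace HM M] [IsManifold I ∞ M]
  [MeasurableSpace M] [T2Space M] [BorelSpace M] [SecondCountableTopology M]
  {ι : Type} [Fintype ι] {lam : Type} [Fintype lam]
  {T : Type} [NormedAddCommGroup T] [NormedSpace ℝ T] {r n : ℕ}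
  {𝔉 : Mod61.Fam I M ι lam T} {o : Ref 𝔉} {m j k : ℕ} {Ω : Set M} {Fs : T → Fr I M ι}
  {y : Pnt o r}

/-- the derivative of the monopole map at fixed parameter -/
theorem fderiv_f0 (h : Adj 𝔉 Fs) (hk : 6 ≤ k) (y : Pnt o r) {v : o.C r k} (hv : v.2.2.2 = 0) :
    fderiv ℝ (f0 o Fs r n m k) (y.pt k) v = jY o n m k ((bd o).LL 𝔉.F0.toPre (Fs y.t) k (uy y)
      (SH (k + 1) o (𝔉.S y.t) (jC o r k v))) := by
  have h1 := (((h.sm_f0 (n := n) (m := m)).contDiffAt ((Mod61.isOpen_U h.toOK).mem_nhds (pt_mem y))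
    ).differentiableAt (by simp)).hasFDerivAt.hasLineDerivAt v
  rw [uy_val h.toOK (by omega : 3 ≤ k), (h.hy o y.ht).LL_add ((sb_u0 o h.toOK).cb _ y.ht) hk _
    (cb_hC h.toOK (by omega) y)]
  refine HasDerivAt.unique h1 ((deriv_quad _ _ _ _ _ _).congr_of_eventuallyEq
    (Eventually.of_forall fun s => ?_))
  have e : (y.pt k + s • v).2.2.2 = y.t := by simp [hv, Pnt.pt]
  have e' : hC o r k (y.pt k + s • v) =
      hC o r k (y.pt k) + s • SH (k + 1) o (𝔉.S y.t) (jC o r k v) := by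
    rw [hC, e, map_add (jC o r k), map_add (SH _ _ _), (jC o r k).map_smul, (SH _ _ _).map_smul]
    rfl
  beta_reduce
  rw [f0, e, e', Bd.NH]

variable (o n m k) in
/-- multiplication of the equations by a function -/
def gY (g : M → ℝ) : o.Y n m k →L[ℝ] o.Y n m k :=
  (smulH 𝔉.F0.toPre k o.Pm g).prodMap ((smulH 𝔉.F0.toPre k o.P2 g).prodMap (.id ℝ _))

lemma gY_mem {g : M → ℝ} (hg : 𝔉.F0.Cb g) (hs : tsupport g ⊆ Ω) (e : o.Y n m k) :
    gY n o m k g e ∈ Lc n o m k Ω := mem_Lc.2 ⟨smulH_mem_HO hg hs _, smulH_mem_HO hg hs _⟩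

lemma mem_Lc_top (h : 𝔉.OK) (hΩ : 𝔉.Om ⊆ Ω) (e : o.Y n m k) : e ∈ Lc n o m k Ω :=
  mem_Lc.2 ⟨HO_top h.Om'.1 (fun _ hx => indicator_of_notMem hx _) (h.sub.trans hΩ) _,
    HO_top h.Om.1 (fun _ => off_P2) hΩ _⟩

/-- maps which off the support of `g` depend on the parameter only -/
theorem lc_of (h : 𝔉.OK) (hk : 3 ≤ k) (hj : 4 ≤ j) {f : o.C r k → o.Y n m j}
    (hf : ContDiffOn ℝ ∞ f (o.U r k)) {g : M → ℝ} (hg : 𝔉.F0.Cb g) (hs : tsupport g ⊆ Ω)
    (he : ∀ y y' : Pnt o r, y.t = y'.t → ∀ x,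
      (1 - g x) • 𝔉.F0.val _ _ (f (y.pt k)).1 x = (1 - g x) • 𝔉.F0.val _ _ (f (y'.pt k)).1 x ∧
      (1 - g x) • 𝔉.F0.val _ _ (f (y.pt k)).2.1 x = (1 - g x) • 𝔉.F0.val _ _ (f (y'.pt k)).2.1 x)
    {u v : o.C r k} (hu : u ∈ o.U r k) (hv : v.2.2.2 = 0) : fderiv ℝ f u v ∈ Lc n o m j Ω := by
  let π : o.C r k →L[ℝ] o.C r k := .inr ℝ _ _ ∘L .inr ℝ _ _ ∘L .inr ℝ _ _ ∘L tC o r k
  let L := .id ℝ _ - gY n o m j g
  have a : EqOn (L ∘ f) ((L ∘ f) ∘ π) (o.U r k) := by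
    have c := L.continuous.comp_continuousOn hf.continuousOn
    refine eqOn_U h hk c (c.comp π.continuous.continuousOn fun _ hv => hv) fun y => ?_
    let y' : Pnt o r := ⟨0, 0, 0, y.t, zero_mem _, zero_mem _, y.ht⟩
    have e : π (y.pt k) = y'.pt k :=
      Prod.ext (ofV_eq h.sup (by omega) val_zero).symm
        (Prod.ext (ofV_eq h.sup (by omega) val_zero).symm rfl)
    rw [comp_apply, comp_apply, comp_apply, e]
    refine Y_ext h hj (funext fun x => ?_) (funext fun x => ?_)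
      ((sub_self _).trans (sub_self _).symm)
    · simpa [L, gY, val_sub, val_smulH h.sup hj hg, sub_smul] using (he y y' rfl x).1
    · simpa [L, gY, val_sub, val_smulH h.sup hj hg, sub_smul] using (he y y' rfl x).2
  have d : ∀ u ∈ o.U r k, HasFDerivAt (L ∘ f) (L ∘L fderiv ℝ f u) u := fun u hu =>
    L.hasFDerivAt.comp u
      ((hf.contDiffAt ((Mod61.isOpen_U h).mem_nhds hu)).differentiableAt (by simp)).hasFDerivAt
  have b := DFunLike.congr_fun ((d u hu).unique (((d (π u) hu).comp u π.hasFDerivAt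
    ).congr_of_eventuallyEq (a.eventuallyEq_of_mem ((Mod61.isOpen_U h).mem_nhds hu)))) v
  have e : π v = 0 := by simp [π, tC, hv]
  simp only [ContinuousLinearMap.comp_apply, e, map_zero, L, sub_apply,
    sub_eq_zero, ContinuousLinearMap.id_apply] at b
  exact b ▸ gY_mem hg hs _

variable (o) in
/-- `g` fixes the values of the perturbation -/
def Fx (g : M → ℝ) (τ : T → PtX M ι lam r n m) : Prop := ∀ (y : Pnt o r) x,
  g x • (τ y.t).D y.cfg x = (τ y.t).D y.cfg x ∧ g x • (τ y.t).C y.cfg x = (τ y.t).C y.cfg x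

lemma smul_ind {N : Type} [NormedAddCommGroup N] [NormedSpace ℝ N] {c : ℝ} {O : Set M} {x : M}
    {a : M → N} (h : c • a x = a x) : (1 - c) • O.indicator a x = 0 := by
  by_cases hx : x ∈ O <;> simp [hx, sub_smul, h]

/-- the derivative of a localised perturbation is localised -/
theorem lc_fderiv (h : 𝔉.OK) (hk : 3 ≤ k) (hj : 4 ≤ j) {τ : T → PtX M ι lam r n m}
    {f : o.C r k → o.Y n m j} (hf : RepF τ f) {g : M → ℝ} (hg : 𝔉.F0.Cb g) (hs : tsupport g ⊆ Ω)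
    (he : Fx o g τ) {u v : o.C r k} (hu : u ∈ o.U r k) (hv : v.2.2.2 = 0) :
    fderiv ℝ f u v ∈ Lc n o m j Ω := by
  refine lc_of h hk hj hf.1 hg hs (fun y y' _ x => ?_) hu hv
  rw [(hf.2 y).D, (hf.2 y).C, (hf.2 y').D, (hf.2 y').C]
  exact ⟨(smul_ind (he y x).1).trans (smul_ind (he y' x).1).symm,
    (smul_ind (he y x).2).trans (smul_ind (he y' x).2).symm⟩

/-- equations which agree with the unperturbed ones off the support of `g` -/
theorem lc_sub (h : Adj 𝔉 Fs) (hk : 6 ≤ k) {e : T → PtX M ι lam r n m} {f : o.C r k → o.Y n m k}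
    (hf : RepF e f) {g : M → ℝ} (hg : 𝔉.F0.Cb g) (hs : tsupport g ⊆ Ω)
    (he : ∀ (y : Pnt o r) x, g x ≠ 1 → (e y.t).D y.cfg x = (𝔉.eq0 r n m y.t).D y.cfg x ∧
      (e y.t).C y.cfg x = (𝔉.eq0 r n m y.t).C y.cfg x)
    {u v : o.C r k} (hu : u ∈ o.U r k) (hv : v.2.2.2 = 0) :
    fderiv ℝ f u v - fderiv ℝ (f0 o Fs r n m k) u v ∈ Lc n o m k Ω := by
  have d := fun {f : o.C r k → o.Y n m k} (hf : ContDiffOn ℝ ∞ f (o.U r k)) =>
    (hf.contDiffAt ((Mod61.isOpen_U h.toOK).mem_nhds hu)).differentiableAt (by simp)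
  have c : ∀ {N : Type} [AddCommGroup N] {O : Set M} {a b c : M → N} {x : M}, a x = b x →
      (O.indicator a - (O.indicator b - c)) x = c x := fun {N _ O a b c x} e => by
    by_cases hx : x ∈ O <;> simp [hx, e]
  have a : ∀ (y : Pnt o r) x, g x ≠ 1 →
      𝔉.F0.val _ _ (f (y.pt k) - f0 o Fs r n m k (y.pt k)).1 x = eD n m (bs y) x ∧
      𝔉.F0.val _ _ (f (y.pt k) - f0 o Fs r n m k (y.pt k)).2.1 x = eC n m (bs y) x := fun y x hx => by
    rw [Prod.fst_sub, Prod.snd_sub, Prod.fst_sub, val_sub, val_sub, (hf.2 y).D, (hf.2 y).C,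
      (h.val_f0 hk y).1, (h.val_f0 hk y).2.1]
    exact ⟨c (he y x hx).1, c (he y x hx).2⟩
  rw [← sub_apply, ← fderiv_fun_sub (d hf.1) (d h.sm_f0)]
  refine lc_of h.toOK (by omega) (by omega) (hf.1.sub h.sm_f0) hg hs (fun y y' e x => ?_) hu hv
  by_cases hx : g x = 1
  · simp [hx]
  rw [(a y x hx).1, (a y x hx).2, (a y' x hx).1, (a y' x hx).2]
  cases y; cases y'; cases e
  exact ⟨rfl, rfl⟩

lemma jY_mem (h : 𝔉.OK) (w : Sec I (ps o.Pm o.P2)) (hw : tsupport w.1 ⊆ Ω ∪ 𝔉.Omᶜ) :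
    jY o n m k (𝔉.F0.toH k _ w) ∈ Lc n o m k Ω := by
  have s : ∀ {u : Set M}, u ⊆ 𝔉.Om → u ⊆ Ω ∪ 𝔉.Omᶜ → u ⊆ Ω :=
    fun h1 h2 x hx => (h2 hx).resolve_right fun k => k (h1 hx)
  refine mem_Lc.2 ⟨mem_of_eq_of_mem (RepT_toH rep_fH w) (toH_mem_HO _ (s ?_ ?_)),
    mem_of_eq_of_mem (RepT_toH rep_sH w) (toH_mem_HO _ (s ?_ ?_))⟩
  exacts [(tsupport_sec (q := o.Pm) h.Om'.1 (fun x hx => indicator_of_notMem hx _) _).trans h.sub,
    (tsupport_app (fun _ => f2 o.m.V (Fm (ι × ι) o.m.A)) w.1).trans hw,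
    tsupport_sec (q := o.P2) h.Om.1 (fun x => off_P2) _,
    (tsupport_app (fun _ => s2 o.m.V (Fm (ι × ι) o.m.A)) w.1).trans hw]

/-- **Density.** -/
theorem Den.top (h : Adj 𝔉 Fs) (D : Den n Ω y) (hk : 6 ≤ k) {N : Submodule ℝ (o.Y n m k)}
    (hN : IsClosed (N : Set (o.Y n m k))) (hT : Has Ω y N) {A : o.C r k →L[ℝ] o.Y n m k}
    (hA : ∀ v, A v ∈ N)
    (hL : ∀ v : o.C r k, v.2.2.2 = 0 →
      A v - fderiv ℝ (f0 o Fs r n m k) (y.pt k) v ∈ Lc n o m k Ω)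
    (hR : ∀ ρ, ∃ e ∈ N, e ∈ Lc n o m k Ω ∧ e.2.2.2 = ρ) (e : o.Y n m k) : e ∈ N := by
  have l := D.lc_le h.toOK hN hT (by omega) hR
  have a := cok_lin (h.hy o y.ht) (cb_uy h.toOK y) (D.op.union h.Om.1.isOpen_compl)
    (null_frame _ _ (measure_mono_null (fun x hx => by simpa [and_comm] using hx) D.null))
    (N := N.comap (jY o n m k).toLinearMap) (hN.preimage (jY o n m k).continuous) (fun x => ?_)
    (fun w hw => l (jY_mem h.toOK w hw)) (iH1 _ _ o.Pm o.P2 e.1 + iH2 _ _ o.Pm o.P2 e.2.1)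
  · have b : ((0, 0, e.2.2) : o.Y n m k) ∈ N := l (mem_Lc.2 ⟨zero_mem _, zero_mem _⟩)
    convert add_mem (Submodule.mem_comap.1 a) b using 1
    simp [jY]
  · obtain ⟨x, rfl⟩ := (SE (k + 1) o h.toOK y.ht).surjective x
    let v : o.C r k := (fH _ _ _ _ x, sH _ _ _ _ x, 0)
    have := sub_mem (hA v) (l (hL v rfl))
    rwa [sub_sub_cancel, fderiv_f0 h hk y rfl, jC_apply, iH_add] at this

end Crest.Agent.X212.Wrd81
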