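import Crest.Agent.X212.Wrd81.Alg
import Crest.Agent.X212.Nd18.Defs
import Crest.Agent.X212.Dgr80.Pw
import Crest.Agent.X212.Std94.Gau

/-!
# X212 / WORDS, part 19 (helper81): proper parallel subbundles give fixed points or parallel lines.
-/

set_option autoImplicit false
set_option linter.unusedSectionVars false
noncomputable section
open scoped Manifold ContDiff Topology InnerProductSpace
open MeasureTheory Set Function Filter

namespace Crest.Agent.X212.Wrd81
open An Sob92 Wz78

variable {E : Type} [NormedAddCommGroup E] [NormedSpace ℝ E] [FiniteDimensional ℝ E]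
  [MeasurableSpace E] [BorelSpace E]
  {HM : Type} [TopologicalSpace HM] {I : ModelWithCorners ℝ E HM} [I.Boundaryless]
  {M : Type} [TopologicalSpace M] [ChartedSpace HM M] [IsManifold I ∞ M]
  [MeasurableSpace M] [T2Space M] [BorelSpace M] [SecondCountableTopology M]
  {ι : Type} [Fintype ι] {ι' : Type} [Fintype ι'] {lam : Type} [Fintype lam] {r n : ℕ}
  {B : Base M ι lam}

/-- a half gives an element of `g` -/
lemma Hf.xi {m : Md M ι lam} {x : M} {π : En (Fin m.N)} (hB : B.OK I) (H : m.OK I B) (h : Hf m x π)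
    (h0 : π ≠ 0) (hh : ∀ s, π * m.j x s * π = 0) : hsL (m.J * (π + π - m.p x)) ∈ m.gS x := by
  obtain ⟨s, t, kk, e, ht⟩ := h.exists_t hB H
  have a := hh s
  have kp := j_p H x s
  have pk := H.pj x s
  have kJ := H.jJ x s
  generalize m.j x s = k at *
  have b := congrArg (π * ·) ht
  simp only [mul_add, ← mul_assoc, a, h.idem, zero_mul, add_zero, mul_smul_comm, h.p' H] at b
  obtain rfl : t = 1 := by
    rw [← sub_eq_zero, ← one_smul ℝ π, smul_smul, ← sub_smul, smul_eq_zero] at b
    linarith [b.resolve_right h0]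
  have c := congrArg (· * k) ht
  simp only [add_mul, mul_assoc, kk, h.p' H, one_smul, pk] at c
  have cJ : (π + π - m.p x) * m.J = m.J * (π + π - m.p x) := by
    rw [sub_mul, add_mul, mul_sub, mul_add, h.J, H.Jp]
  have ck : k * (m.J * (π + π - m.p x)) = m.J * (π + π - m.p x) * k := by
    rw [← mul_assoc, kJ, neg_mul, mul_assoc, mul_assoc, ← mul_neg, mul_sub, sub_mul, mul_add,
      add_mul, kp, pk]
    congr 1
    linear_combination (norm := abel) -(c + c)
  refine mem_g (fun v w => ?_) ?_ (by rw [mul_assoc, cJ]) (fun a => ?_) fun s => ?_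
  · rw [mul_apply_eq_comp, H.Jsk, ← cJ, mul_apply_eq_comp]
    simp only [sub_apply, add_apply, inner_sub_left, inner_sub_right, inner_add_left,
      inner_add_right, h.sym _, H.psym x _]
  · rw [← mul_assoc, ← H.Jp, mul_assoc, mul_sub, mul_add, h.p, H.pidem]
  · rw [← mul_assoc, ← H.Jρ, mul_assoc, mul_assoc, mul_sub, mul_add, sub_mul, add_mul, h.ρ,
      (H.cl x).pl, (H.cl x).pr]
  · obtain ⟨a, b, e⟩ := e s
    rw [e, add_mul, mul_add _ (a • k), smul_mul_assoc, smul_mul_assoc, mul_smul_comm, mul_smul_comm,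
      ck, mul_assoc m.J k, ck, ← mul_assoc _ m.J k, mul_assoc m.J _ m.J, cJ]
    simp only [mul_assoc]

/-- a self-dual form is determined by its contraction with a unit vector -/
lemma sd_zero [DecidableEq ι] {V : Type} [NormedAddCommGroup V] [InnerProductSpace ℝ V]
    (hB : B.OK I) {x : M} {a₀ : ι} (hP : ∀ a, B.P a₀ a x = if a = a₀ then 1 else 0)
    {v : ι × ι → V} (hv : ∀ s, ∑ t, B.sd x s t • v t = v s)
    (h1 : ∀ b ≠ a₀, ∑ a, B.P b a x • v (a₀, a) = 0) : v = 0 := by
  have a : ∀ s, ∑ t, B.a2 x s t • v t = v s := fun s => by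
    rw [← hv s, Finset.sum_congr rfl fun t _ => congrArg _ (hv t).symm]
    simp only [Finset.smul_sum, smul_smul, ← a2_sd hB x s, Finset.sum_smul]
    exact Finset.sum_comm
  have h0 : ∀ b, v (a₀, b) = 0 := fun b => by
    by_cases e : b = a₀
    · rw [← a, e]; simp [Base.a2, mul_comm]
    rw [← h1 b e, ← a, Finset.sum_congr rfl fun t _ => congrArg _ (a (a₀, t)).symm]
    simp only [Finset.smul_sum, smul_smul]
    rw [Finset.sum_comm]
    refine Finset.sum_congr rfl fun t _ => ?_
    simp only [← Finset.sum_smul, Base.a2, ← mul_div_assoc, ← Finset.sum_div, mul_sub,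
      Finset.sum_sub_distrib, mul_left_comm (B.P b _ x), ← Finset.mul_sum, (hB.pr x).idem]
  have b : ∀ s, ∑ t, B.st x s t • v t = v s := fun s => by
    have := hv s
    simp only [Base.sd, add_smul, Finset.sum_add_distrib, div_eq_inv_mul, mul_smul,
      ← Finset.smul_sum, a] at this
    linear_combination (norm := module) (2 : ℝ) • this
  have c : ∀ b, v (b, a₀) = 0 := fun b => by
    rw [← a, ← neg_eq_zero, ← h0 b, ← a, ← Finset.sum_neg_distrib]
    exact Finset.sum_congr rfl fun t _ => by rw [← neg_smul, Base.a2, Base.a2]; congr 1; ring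
  funext s
  have d : ∀ t : ι × ι, B.st x s t • v t = B.P a₀ s.1 x • B.st x (a₀, s.2) t • v t +
      B.P a₀ s.2 x • B.st x (s.1, a₀) t • v t := fun t => by
    have e := Dgr80.o_five hB x a₀ s.1 s.2 t.1 t.2
    by_cases h1 : t.1 = a₀
    · simp [show v t = 0 from (h1 ▸ h0 t.2 : v (t.1, t.2) = 0)]
    by_cases h2 : t.2 = a₀
    · simp [show v t = 0 from (h2 ▸ c t.1 : v (t.1, t.2) = 0)]
    rw [hP a₀, hP t.1, hP t.2, if_pos rfl, if_neg h1, if_neg h2] at e
    rw [smul_smul, smul_smul, ← add_smul, Base.st, Base.st, Base.st]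
    congr 1
    linarith
  rw [← b]
  simp only [d, Finset.sum_add_distrib, ← Finset.smul_sum, b, h0, c, smul_zero, add_zero,
    Pi.zero_apply]

variable {c : Cfg M ι lam r} {G : Geo I M ι lam} {K : Set M}

/-- away from the fixed points the spinor words generate the whole module -/
theorem p_of_not_fix (hB : B.OK I) (H : c.m.OK I B) (hW : c.m.IsConn B G c.W)
    (hK : IsPreconnected K) {π : M → En (Fin c.m.N)} (sm : Sm I π) (hf : ∀ x ∈ K, Hf c.m x (π x))
    (hi : ∀ x v, π x (π x v) = π x v) (par : ∀ a x, nabE I G.F.e c.W a π x = 0)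
    (fix : ∀ x ∈ K, π x (c.Φ x) = c.Φ x) (h : ¬Nd18.Fix G.F c K) : ∀ x ∈ K, π x = c.m.p x := by
  obtain ⟨y, hy, h0⟩ : ∃ y ∈ K, c.Φ y ≠ 0 := by
    by_contra! k
    exact h ⟨0, ⟨contMDiffOn_const, fun _ _ => zero_mem _, fun a x _ => by simp [nab, dv_zero]⟩,
      fun x hx => by simp [k x hx]⟩
  have n0 : ∀ x ∈ K, π x ≠ 0 := fun x hx e =>
    h0 (by rw [← fix y hy, zero_const sm.continuous hi hK hx hy e, zero_apply])
  by_cases e : ∃ y ∈ K, π y = c.m.p y
  · obtain ⟨y, hy, e⟩ := e
    intro x hx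
    refine (sub_eq_zero.1 (zero_const (X := K) (π := fun x => c.m.p x - π x)
      ((H.sp.continuous.sub sm.continuous).comp continuous_subtype_val) (fun x v => ?_)
      (K := univ) (by exact (isPreconnected_iff_preconnectedSpace.1 hK).1) (x := ⟨y, hy⟩)
      (y := ⟨x, hx⟩) trivial trivial (sub_eq_zero.2 e.symm))).symm
    rw [← mul_apply_eq_comp, sub_mul, mul_sub, mul_sub, H.pidem, (hf x x.2).p, (hf x x.2).p' H,
      (hf x x.2).idem, sub_self, sub_zero]
  have s1 : Sm I fun x => π x + π x := sm.add sm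
  have s : Sm I fun x => π x + π x - c.m.p x := s1.sub H.sp
  refine (h ⟨fun x => hsL (c.m.J * (π x + π x - c.m.p x)), ⟨(hsL.contMDiff.comp
    (contMDiff_const.clm_comp s)).contMDiffOn, fun x hx => (hf x hx).xi hB H (n0 x hx)
      ((((hf x hx).tri hB H).resolve_left (n0 x hx)).resolve_left fun k => e ⟨x, hx, k⟩),
    fun a x _ => ?_⟩, fun x hx => ?_⟩).elim
  · rw [hsL_nab a (SA.mul contMDiffAt_const (s x)), nabE_mul a contMDiffAt_const (s x),
      nabE_sub a (s1 x) (H.sp x), nabE_add a (sm x) (sm x), par,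
      show nabE I G.F.e c.W a c.m.p x = 0 from hW.cc.par a x, nabE, dv_const, hW.J]
    simp
  · have := fix x hx
    rw [opL_hsL, mul_apply_eq_comp, sub_apply, add_apply, this, ← this, ← mul_apply_eq_comp (c.m.p x),
      (hf x hx).p, add_sub_cancel_right]

/-- no parallel line and non-zero curvature give full holonomy -/
theorem full_of_not_lin (hB : B.OK I) (H : c.m.OK I B) (hW : c.m.IsConn B G c.W)
    (hK : IsPreconnected K) (h : ¬Nd18.Lin G.F c K) (h0 : ∃ x ∈ K, c.m.Fg G.F c.W x ≠ 0) :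
    Full c G K := by
  intro σ sm sy hi hg par fix x hx
  have sg := Std94.sm_pg hB H
  have tr : ∀ {T : CL c.m.A c.m.A}, (∀ v, T (T v) = T v) →
      LinearMap.trace ℝ _ (T : c.m.A →ₗ[ℝ] c.m.A) = Module.finrank ℝ T.range := fun h =>
    LinearMap.IsProj.trace ⟨fun v => ⟨v, rfl⟩, by rintro _ ⟨v, rfl⟩; exact h v⟩
  have hg' : ∀ x v, σ x (c.m.pg x v) = σ x v := fun x v =>
    ext_inner_right ℝ fun w => by rw [sy, inner_pg, hg, sy]
  have i2 : ∀ x v, (c.m.pg x - σ x) ((c.m.pg x - σ x) v) = (c.m.pg x - σ x) v := fun x v => by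
    simp only [sub_apply, map_sub, pg_pg, hg, hg', hi, sub_self, sub_zero]
  have t3 : ∀ x, Module.finrank ℝ (c.m.pg x - σ x).range + Module.finrank ℝ (σ x).range = 3 :=
    fun x => by
      have := (⟨pg_mem x, fun _ => pg_of_mem⟩ :
        LinearMap.IsProj (c.m.gS x) (c.m.pg x : _ →ₗ[ℝ] _)).trace
      rw [Std94.finrank_g hB (Std94.pmx H x), ← sub_add_cancel (c.m.pg x) (σ x),
        ContinuousLinearMap.toLinearMap_add, map_add, tr (i2 x), tr (hi x)] at this
      exact_mod_cast this
  have rk := fun y hy => rank_const sm.continuous hi hK hx (y := y) hy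
  have z : ∀ {T : CL c.m.A c.m.A}, Module.finrank ℝ T.range = 0 → T = 0 := fun h =>
    ContinuousLinearMap.coe_injective (LinearMap.range_eq_bot.1 (Submodule.finrank_eq_zero.1 h))
  have t := t3 x
  rcases (by omega : Module.finrank ℝ (σ x).range = 0 ∨ Module.finrank ℝ (σ x).range = 1 ∨
    Module.finrank ℝ (σ x).range = 2 ∨ Module.finrank ℝ (c.m.pg x - σ x).range = 0) with e | e | e | e
  · obtain ⟨y, hy, h0⟩ := h0
    refine (h0 ?_).elim
    ext1 s
    rw [← fix y hy, z ((rk y hy).symm.trans e)]; rfl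
  · exact (h ⟨σ, sm.contMDiffOn, fun y hy => ⟨sy y, ContinuousLinearMap.ext (hi y),
      ContinuousLinearMap.ext (hg y), by rw [tr (hi y), ← rk y hy, e, Nat.cast_one],
      fun a => par a y⟩⟩).elim
  · refine (h ⟨fun y => c.m.pg y - σ y, (sg.sub sm).contMDiffOn, fun y hy => ⟨fun v w => ?_,
      ContinuousLinearMap.ext (i2 y), ContinuousLinearMap.ext fun v => ?_, ?_, fun a => ?_⟩⟩).elim
    · simp only [sub_apply, inner_sub_left, inner_sub_right, sy, inner_pg]
    · simp only [mul_apply_eq_comp, sub_apply, map_sub, pg_pg, hg]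
    · have := t3 y
      rw [← rk y hy, e] at this
      rw [tr (i2 y), show Module.finrank ℝ (c.m.pg y - σ y).range = 1 by omega, Nat.cast_one]
    · exact (nabE_sub a (sg y) (sm y)).trans (by rw [pg_par H hW sg, par, sub_self])
  · exact (sub_eq_zero.1 (z e)).symm

end Crest.Agent.X212.Wrd81
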