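import Crest.Agent.X212.Wrd81.Onto
import Crest.Agent.X212.Wrd81.Cls
import Crest.Agent.X212.Mod61.Fmt

/-!
# X212 / WORDS, part 21 (helper81): supports, approximation along families, clopen pieces.
-/

set_option autoImplicit false
set_option linter.unusedSectionVars false
noncomputable section
open scoped Manifold ContDiff Topology InnerProductSpace
open MeasureTheory Set Function Filter

namespace Crest.Agent.X212.Wrd81
open An Sob92 Mod61 Map77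

theorem _root_.Crest.Agent.X212.Mod61.Prob.Ax.onto {W : Type} {Q : Prob W}
    {Adm : (W →₀ ℝ) → Prop} (H : Q.Ax Adm) {q : W →₀ ℝ} {x : Q.X} (ha : Adm q) (hx : Q.Sol q x)
    (hd : ∀ N : Submodule ℝ (Q.E x.1), IsClosed (N : Set (Q.E x.1)) →
      (∀ u, fderiv ℝ (Q.F x.1 q) (Q.pt x.2) u ∈ N) → (∀ w, Q.τ x.1 w (Q.pt x.2) ∈ N) →
      ∀ e, e ∈ N) : ∃ J, Q.Onto q x J :=
  let ⟨_, _, h, _⟩ := H.slc q x ha hx; exists_onto h.1 _ hd

variable {E : Type} [NormedAddCommGroup E] [NormedSpace ℝ E] [FiniteDimensional ℝ E]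
  [MeasurableSpace E] [BorelSpace E]
  {HM : Type} [TopologicalSpace HM] {I : ModelWithCorners ℝ E HM} [I.Boundaryless]
  {M : Type} [TopologicalSpace M] [ChartedSpace HM M] [IsManifold I ∞ M]
  [MeasurableSpace M] [T2Space M] [BorelSpace M] [SecondCountableTopology M]
  {ι : Type} [Fintype ι] {lam : Type} [Fintype lam]
  {T : Type} [NormedAddCommGroup T] [NormedSpace ℝ T] {r n : ℕ} {Ω Ω' K : Set M}

/-! ### supports -/

section mono
variable (e : Ω ⊆ Ω')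
include e

lemma Tv.mono {s : M → Eu lam} (h : Tv I Ω s) : Tv I Ω' s := ⟨h.sm, h.hcs, h.sub.trans e⟩

lemma SwIn.mono {u : SW M} (h : SwIn I Ω u) : SwIn I Ω' u := fun t ht => by
  have := h t ht
  cases t
  exacts [this.mono e, this.mono e, trivial, trivial]

lemma LlIn.mono {l : List (La M)} (h : LlIn I Ω l) : LlIn I Ω' l := fun t ht => by
  have := h t ht
  cases t
  exacts [this.mono e, trivial]

lemma AwIn.mono {ξ : AW M} (h : AwIn I Ω ξ) : AwIn I Ω' ξ := by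
  obtain ⟨s, l⟩ := ξ
  refine ⟨?_, h.2.mono e⟩
  cases s
  exacts [⟨h.1.1.mono e, h.1.2.mono e⟩, ⟨h.1.1.mono e, h.1.2.1.mono e, h.1.2.2.mono e⟩]

lemma SgIn.mono {g : Sg M lam} (h : SgIn I Ω g) : SgIn I Ω' g :=
  ⟨h.1.mono e, h.2.1.mono e, h.2.2.mono e⟩

lemma CoIn.mono {d : Co M lam r} (h : CoIn I Ω d) : CoIn I Ω' d := by
  cases d
  exacts [trivial, ⟨h.1.mono e, fun g k => (h.2 g k).mono e⟩]

lemma TmIn.mono {τ : Tm M lam r n} (h : TmIn I Ω τ) : TmIn I Ω' τ := by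
  cases τ
  exacts [⟨h.1.mono e, h.2⟩, ⟨h.1.mono e, h.2.1.mono e, h.2.2.mono e⟩,
    ⟨h.1.mono e, h.2.1.mono e, h.2.2.mono e⟩, ⟨h.1.mono e, h.2.1.mono e, h.2.2.1.mono e,
      h.2.2.2.1.mono e, h.2.2.2.2.1.mono e, h.2.2.2.2.2.1.mono e, h.2.2.2.2.2.2.mono e⟩,
    ⟨h.1.mono e, h.2.1.mono e, h.2.2.1.mono e, h.2.2.2.1, h.2.2.2.2.1,
      fun ξ k => (h.2.2.2.2.2 ξ k).mono e⟩, SgIn.mono e h, trivial]

end mono

/-! ### approximation -/

section ap
variable {V : Type} [NormedAddCommGroup V] [InnerProductSpace ℝ V] [FiniteDimensional ℝ V]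
  {F : Pre I M ι} {k : ℕ} {𝒯 𝒯' : Set (M → V)} {u : M → V}

lemma Ap.trans (h : ∀ v ∈ 𝒯, v ∈ Tst I M V → v ∈ Ap F k 𝒯') (hu : u ∈ Ap F k 𝒯) :
    u ∈ Ap F k 𝒯' := Ap.map (T := fun _ => 1) (Cb_const _) h hu

lemma Ap.mono (h : 𝒯 ⊆ 𝒯') (hu : u ∈ Ap F k 𝒯) : u ∈ Ap F k 𝒯' :=
  Ap.trans (fun _ a b => Ap.of_mem b (h a)) hu

/-- limits along smooth families -/
lemma Ap.of_fam {f : ℝ → M → V} (hf : Prm93.JS I univ f) (hK : IsCompact K)
    (h0 : ∀ s, ∀ x ∉ K, f s x = 0) (h : ∀ s ≠ 0, f s ∈ Ap F k 𝒯) : f 0 ∈ Ap F k 𝒯 := by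
  have t := fun s => mem_tst (hf.sm (mem_univ s)) (HasCompactSupport.intro hK (h0 s))
  obtain ⟨g, hg, g1⟩ := exists_tf_one (I := I) hK isOpen_univ (subset_univ _)
  have c := Prm93.SB.toH (k := k) (s := fun s => ⟨f s, t s⟩) (Prm93.Fam.sb (F := F) hK isOpen_univ
    ⟨hf, fun s _ => Cb_of_hcs (t s).1 (t s).2.1, fun s _ s' _ x hx =>
      (h0 s x hx).trans (h0 s' x hx).symm⟩)
    (Cb_const _) (fun _ _ => rfl) hg.sm hg.hcs fun s _ x => by
      by_cases hx : x ∈ K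
      · simp [g1 x hx]
      · simp [h0 s x hx]
  exact mem_Ap.2 ⟨t 0, (isClosed_cl _).mem_of_tendsto
    (((continuousOn_univ.1 c.continuousOn).tendsto 0).mono_left nhdsWithin_le_nhds)
    (eventually_mem_nhdsWithin.mono fun s (hs : s ∈ ({0}ᶜ : Set ℝ)) => (mem_Ap.1 (h s hs)).2)⟩

lemma ind_tst (hK : IsClopen K) (hu : u ∈ Tst I M V) :
    K.indicator u ∈ Tst I M V ∧ tsupport (K.indicator u) ⊆ tsupport u ∩ K := by
  have e : support (K.indicator u) ⊆ K ∩ support u := support_indicator.subset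
  exact ⟨mem_tst (Eqv71.sm_ind hK fun x _ => hu.1 x) (hu.2.1.mono (e.trans inter_subset_right)),
    subset_inter (closure_mono (e.trans inter_subset_right))
      (closure_minimal (e.trans inter_subset_left) hK.1)⟩

/-- pointwise normalisation does not change the approximable functions -/
lemma Ap.of_nrm (hu : u ∈ Tst I M V)
    (h : ∀ s : ℝ, s ≠ 0 → (fun x => (√(1 + ‖s • u x‖ ^ 2))⁻¹ • s • u x) ∈ 𝒯) : u ∈ Ap F k 𝒯 := by
  have c : ContDiff ℝ ∞ fun z : ℝ × V => (√(1 + ‖z.1 • z.2‖ ^ 2))⁻¹ • z.2 :=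
    (((contDiff_const.add ((contDiff_fst.smul contDiff_snd).norm_sq ℝ)).sqrt
      fun _ => by positivity).inv fun _ => by positivity).smul contDiff_snd
  have z : ∀ s : ℝ, ∀ x ∉ tsupport u, (√(1 + ‖s • u x‖ ^ 2))⁻¹ • u x = 0 := fun s x hx => by
    rw [image_eq_zero_of_notMem_tsupport hx, smul_zero]
  have j : Prm93.JS I univ fun (s : ℝ) x => (√(1 + ‖s • u x‖ ^ 2))⁻¹ • u x := fun s _ x =>
    c.comp_contMDiffAt (contMDiffAt_fst.prodMk_space ((hu.1 x).comp (s, x) contMDiffAt_snd))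
  refine mem_of_eq_of_mem (funext fun x => by simp) (Ap.of_fam j hu.2.1 z fun s hs => ?_)
  have t := (Tst I M V).smul_mem s (mem_tst (j.sm (mem_univ s)) (.intro hu.2.1 (z s)))
  have e : (s • fun x => (√(1 + ‖s • u x‖ ^ 2))⁻¹ • u x) =
    fun x => (√(1 + ‖s • u x‖ ^ 2))⁻¹ • s • u x := funext fun x => smul_comm _ _ _
  exact (Submodule.smul_mem_iff _ hs).1 (Ap.of_mem t (mem_of_eq_of_mem e (h s hs)))

/-- from clopen pieces to the whole -/
lemma mem_of_pcs {U : Submodule ℝ (M → V)} {q : M → V →L[ℝ] V}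
    (h : ∀ x ∈ Ω, ∃ K, IsClopen K ∧ x ∈ K ∧ ∀ u ∈ Tst I M V, tsupport u ⊆ Ω ∩ K →
      (∀ x, q x (u x) = u x) → u ∈ U) (hu : u ∈ Tst I M V) (hs : tsupport u ⊆ Ω)
    (hq : ∀ x, q x (u x) = u x) : u ∈ U := by
  have a : ∀ (K : Set M) x, q x (K.indicator u x) = K.indicator u x := fun K x => by
    by_cases hx : x ∈ K <;> simp [hx, hq]
  obtain ⟨K, h1, h2, h3⟩ : ∃ K, IsClopen K ∧ tsupport u ⊆ K ∧
      ∀ L ⊆ K, IsClopen L → L.indicator u ∈ U := by
    refine hu.2.1.isCompact.induction_on ⟨∅, isClopen_empty, Subset.rfl, fun L e _ => by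
      rw [subset_empty_iff.1 e, indicator_empty]; exact U.zero_mem⟩ (fun s t e ⟨K, h⟩ => ⟨K, h.1, e.trans h.2.1, h.2.2⟩)
      (fun s t ⟨K, h⟩ ⟨K', h'⟩ => ⟨K ∪ K', h.1.union h'.1, union_subset_union h.2.1 h'.2.1,
        fun L e hL => ?_⟩) fun x hx => ?_
    · rw [← inter_union_sdiff L K, indicator_union_of_disjoint disjoint_sdiff_inter.symm]
      exact add_mem (h.2.2 _ inter_subset_right (hL.inter h.1))
        (h'.2.2 _ (sdiff_subset_iff.2 e) (hL.diff h.1))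
    · obtain ⟨K, h1, h2, h3⟩ := h x (hs hx)
      exact ⟨K, mem_nhdsWithin_of_mem_nhds (h1.2.mem_nhds h2), K, h1, Subset.rfl, fun L e hL => h3 _
        (ind_tst hL hu).1 ((ind_tst hL hu).2.trans (inter_subset_inter hs e)) (a L)⟩
  exact mem_of_eq_of_mem (indicator_eq_self.2 (subset_closure.trans h2)).symm (h3 K Subset.rfl h1)

end ap

end Crest.Agent.X212.Wrd81
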