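import Crest.Agent.X212.Wrd81.Pw
import Crest.Agent.X212.An.Syn

/-!
# X212 / WORDS, part 24 (helper81): richness is transported along partial diffeomorphisms.
-/

set_option autoImplicit false
set_option linter.unusedSectionVars false
noncomputable section
open scoped Manifold ContDiff Topology InnerProductSpace
open MeasureTheory Set Function Filter

namespace Crest.Agent.X212.Wrd81
open An Sob92 Mod61

variable {E : Type} [NormedAddCommGroup E] [NormedSpace ℝ E] [FiniteDimensional ℝ E]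
  [MeasurableSpace E] [BorelSpace E]
  {HM : Type} [TopologicalSpace HM] {I : ModelWithCorners ℝ E HM} [I.Boundaryless]
  {M : Type} [TopologicalSpace M] [ChartedSpace HM M] [IsManifold I ∞ M]
  [MeasurableSpace M] [T2Space M] [BorelSpace M] [SecondCountableTopology M]
  {E' : Type} [NormedAddCommGroup E'] [NormedSpace ℝ E'] [FiniteDimensional ℝ E']
  [MeasurableSpace E'] [BorelSpace E']
  {HM' : Type} [TopologicalSpace HM'] {I' : ModelWithCorners ℝ E' HM'} [I'.Boundaryless]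
  {M' : Type} [TopologicalSpace M'] [ChartedSpace HM' M'] [IsManifold I' ∞ M']
  [MeasurableSpace M'] [T2Space M'] [BorelSpace M'] [SecondCountableTopology M']
  {ι : Type} [Fintype ι] {lam lam' : Type} [Fintype lam] [Fintype lam'] {r n : ℕ}
  {t : Tp M M' lam lam'} {t' : Tp M' M lam' lam} {Ω : Set M} {Ω' : Set M'} {l : M' → En lam'}

variable (I I' t t' Ω Ω' l) in
/-- `t'` is a right inverse of `t` on test data in `Ω'` -/
structure Inv : Prop extends t'.In I' I Ω' Ω where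
  tf : ∀ f, Tf I' Ω' f → t.f (t'.f f) = f
  ts : ∀ s, Tv I' Ω' s → t.s (t'.s s) = fun y => l y (s y)

theorem inv_of (φ : PartialDiffeomorph I I' M M' ∞) {v : M → CL (Eu lam) (Eu lam')}
    (hv : ContMDiffOn I 𝓘(ℝ, CL (Eu lam') (Eu lam)) ∞ (fun x => trn (v x)) φ.source)
    (hl : ∀ x ∈ φ.source, v x ∘L trn (v x) = l (φ x)) (hΩ : Ω ⊆ φ.source) :
    Inv I I' (.of φ.toPartialEquiv v)
      (.of φ.symm.toPartialEquiv fun y => trn (v (φ.toPartialEquiv.symm y))) Ω (φ '' Ω) l := by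
  have e : φ '' Ω ⊆ φ.target := image_subset_iff.2 fun x hx => φ.map_source (hΩ hx)
  have i := Tp.in_of φ.symm (v := fun y => trn (v (φ.toPartialEquiv.symm y)))
    (hv.comp φ.contMDiffOn_invFun fun z hz => φ.map_target hz) e
  rw [show φ.symm '' (φ '' Ω) = Ω from φ.toPartialEquiv.symm_image_image_of_subset_source hΩ] at i
  refine ⟨i, fun f hf => funext fun y => ?_, fun s hs => funext fun y => ?_⟩
  · by_cases hy : y ∈ φ.target
    · exact (indicator_of_mem hy _).trans ((indicator_of_mem (φ.map_target hy) _).trans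
        (congrArg f (φ.right_inv hy)))
    · exact (indicator_of_notMem hy _).trans
        (image_eq_zero_of_notMem_tsupport fun k => hy (e (hf.sub k))).symm
  · simp only [Tp.of]
    by_cases hy : y ∈ φ.target
    · rw [indicator_of_mem hy, indicator_of_mem (s := φ.symm.target) (φ.map_target hy)]
      obtain ⟨x, hx, rfl⟩ := φ.toPartialEquiv.surjOn hy
      have a : φ.toPartialEquiv.symm (φ.toPartialEquiv x) = x := φ.left_inv hx
      show v _ (trn (v (φ.toPartialEquiv.symm (φ.toPartialEquiv _))) (s (φ.toPartialEquiv _))) = _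
      simp only [a]
      exact congrArg (· (s (φ x))) (hl x hx)
    · rw [indicator_of_notMem hy,
        image_eq_zero_of_notMem_tsupport fun k => hy (e (hs.sub k)), map_zero]

namespace Inv
variable (h : Inv I I' t t' Ω Ω' l)
include h

lemma sw' {u : SW M'} (hu : SwIn I' Ω' u) : (u.map t'.lt).map t.lt = u := by
  rw [List.map_map]
  refine (List.map_congr_left fun a ha => ?_).trans (List.map_id u)
  have := hu a ha
  cases a
  exacts [congrArg _ (h.tf _ this), congrArg _ (h.tf _ this), rfl, rfl]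

lemma ll' {u : List (La M')} (hu : LlIn I' Ω' u) : (u.map t'.la).map t.la = u := by
  rw [List.map_map]
  refine (List.map_congr_left fun a ha => ?_).trans (List.map_id u)
  have := hu a ha
  cases a
  exacts [congrArg _ (h.tf _ this), rfl]

lemma aw' {ξ : AW M'} (hξ : AwIn I' Ω' ξ) : t.aw (t'.aw ξ) = ξ := by
  obtain ⟨s, u⟩ := ξ
  simp only [Tp.aw, h.ll' hξ.2]
  cases s
  · simp only [Tp.sd, h.sw' hξ.1.1, h.sw' hξ.1.2]
  · simp only [Tp.sd, h.tf _ hξ.1.1, h.tf _ hξ.1.2.1, h.tf _ hξ.1.2.2]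

lemma ad {Av : Tm M' lam' r n → Prop} (hR : ∀ g g' s f u, Tf I Ω g → Tf I Ω g' →
      AwIn I Ω ⟨s, .mul f :: u⟩ → Av (t.tm (.ad g g' ⟨s, .mul f :: u⟩)))
    (g g' s f u) (h1 : Tf I' Ω' g) (h2 : Tf I' Ω' g') (h3 : AwIn I' Ω' ⟨s, .mul f :: u⟩) :
    Av (.ad g g' ⟨s, .mul f :: u⟩) := by
  have := hR _ _ (t'.sd s) (t'.f f) (u.map t'.la) (h.f _ h1) (h.f _ h2) (h.toIn.aw h3)
  rwa [Tp.tm, h.tf _ h1, h.tf _ h2, show (⟨t'.sd s, .mul (t'.f f) :: u.map t'.la⟩ : AW M) =
    t'.aw ⟨s, .mul f :: u⟩ from rfl, h.aw' h3] at this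

lemma sg' {c : Cfg M' ι lam' r} (hj : ∀ x s, c.m.j x (l x s) = c.m.j x s) (F : Fr I' M' ι)
    {g : Sg M' lam'} (hg : SgIn I' Ω' g) : c.sg F (t.sg (t'.sg g)) = c.sg F g := by
  simp only [Cfg.sg, Tp.sg, h.ts _ hg.1, h.sw' hg.2.1, h.sw' hg.2.2, hj]

variable {T : Type} [NormedAddCommGroup T] [NormedSpace ℝ T] {𝔉 : Mod61.Fam I' M' ι lam' T}
  {o : Ref 𝔉} {m k : ℕ} {N : Submodule ℝ (o.Y n m k)} {y : Pnt o r}

theorem rich (hl : 𝔉.B.l = l) {d : Co M lam r} (hR : RichP I Ω d fun τ => Av N y (t.tm τ)) :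
    RichP I' Ω' (t.co d) (Av N y) := by
  have hj : ∀ x s, y.cfg.m.j x (l x s) = y.cfg.m.j x s := hl ▸ o.ok.jl
  refine ⟨fun f u h1 h2 => ?_, fun s u h1 h2 => ?_, h.ad hR.ad, fun s g g' u v h1 h2 h3 h4 h5 => ?_⟩
  · have := hR.lin _ _ (h.f _ h1) (h.toIn.sw h2)
    rwa [Tp.tm, List.map_cons, h.sw' h2, Tp.lt, h.tf _ h1] at this
  · have := hR.anti _ _ (h.s _ h1) (h.toIn.sw h2)
    rw [Tp.tm, h.sw' h2, h.ts _ h1] at this
    simpa only [Av, Cfg.tD, Cfg.tC, Cfg.tS, hj] using this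
  · have := hR.adj _ _ _ _ _ (h.s _ h1) (h.f _ h2) (h.f _ h3) (h.toIn.sw h4) (h.toIn.sw h5)
    rw [Tp.tm, h.sw' h4, h.sw' h5, h.ts _ h1, h.tf _ h2, h.tf _ h3] at this
    have e : y.cfg.qj (𝔉.G y.t).F (t.co d) (fun y => l y (s y)) u v =
      y.cfg.qj (𝔉.G y.t).F (t.co d) s u v := funext fun x => by simp only [Cfg.qj, hj]
    simpa only [Av, Cfg.tD, Cfg.tC, Cfg.tS, e, List.map_nil] using this

end Inv

end Crest.Agent.X212.Wrd81
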