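import Crest.Agent.X212.Wrd81.Ms
import Crest.Agent.X212.Wrd81.Pw
import Crest.Agent.X212.Nd18.Ms

/-!
# X212 / WORDS, part 23 (helper81): `MS-DENS` in the Banach model.
-/

set_option autoImplicit false
set_option linter.unusedSectionVars false
noncomputable section
open scoped Manifold ContDiff Topology InnerProductSpace
open MeasureTheory Set Function Filter

namespace Crest.Agent.X212.Wrd81
open An Sob92 Wz78 Nd18 Cyf70 Dgr80 Mod61

section gen
variable {E : Type} [NormedAddCommGroup E] [NormedSpace ℝ E] [FiniteDimensional ℝ E]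
  [MeasurableSpace E] [BorelSpace E]
  {HM : Type} [TopologicalSpace HM] {I : ModelWithCorners ℝ E HM} [I.Boundaryless]
  {M : Type} [TopologicalSpace M] [ChartedSpace HM M] [IsManifold I ∞ M]
  [MeasurableSpace M] [T2Space M] [BorelSpace M] [SecondCountableTopology M]
  {ι : Type} [Fintype ι] {lam : Type} [Fintype lam] {r : ℕ}
  {T : Type} [NormedAddCommGroup T] [NormedSpace ℝ T] {𝔉 : Mod61.Fam I M ι lam T} {o : Ref 𝔉}

lemma cb_W (h : 𝔉.OK) (y : Pnt o r) (a : ι) : (𝔉.G y.t).F.Cb (y.cfg.W a) :=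
  (h.mix _ y.ht).Cb (fun a b => (h.sS a b).cb _ y.ht) (by
    have := Cb_clm (Map77.oa a) (Map77.cb_uy h y)
    simp only [Map77.uy, Map77.oa_base] at this
    exact this)

lemma zero_of_isRes {V : Type} [NormedAddCommGroup V] [InnerProductSpace ℝ V]
    [FiniteDimensional ℝ V] {F : Fr I M ι} {A : ι → M → V →L[ℝ] V} {s u : M → V}
    (h : F.IsRes A s u) (e : u = 0) : s = 0 := funext fun x => by
  rw [← h.2.2, e, Mp86.lap_zero]; simp

end gen

variable {E3 : Type} [NormedAddCommGroup E3] [NormedSpace ℝ E3] [FiniteDimensional ℝ E3]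
  [MeasurableSpace E3] [BorelSpace E3]
  {H3 : Type} [TopologicalSpace H3] {I3 : ModelWithCorners ℝ E3 H3} [I3.Boundaryless]
  {Y : Type} [TopologicalSpace Y] [ChartedSpace H3 Y] [IsManifold I3 ∞ Y] [T2Space Y]
  [MeasurableSpace Y] [BorelSpace Y] [SecondCountableTopology Y] [CompactSpace Y]
  {κ : Type} [Fintype κ] {lam : Type} [Fintype lam]
  {N : ND Y lam} {D : YD I3 Y κ lam} {c : Cfg (Y × ℝ) (Option κ) lam 0}

/-- a moving configuration has non-zero smoothed energy -/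
theorem ewT_ne (h : Pc c D.B D.G univ univ) (hT : ∃ C, D.Z.Tame C) (cW : ∀ a, D.Z.Cb (c.W a))
    (hN : N.OK D) (i : Integrable (N.ew D.nk c) D.Z.μ) (hm : D.Moves c) : N.ewT D c ≠ 0 := by
  intro e
  obtain ⟨C, hC⟩ := hT
  obtain ⟨x, hx⟩ := hm
  have e1 : D.nk.χ4 = fun _ => 1 := funext fun _ => ct_none
  have e2 : N.ew D.nk c = fun x => ∑ i, ‖c.sd D.Z (.cv (fun _ => 1) D.nk.τ (D.nk.ext (N.y i))) x‖ ^ 2
      + ‖nt D.Z c.W D.nk.τ c.Φ x‖ ^ 2 := funext fun x => by simp [ND.ew, Dgr80.ew, e1]; rfl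
  have c1 : Continuous (N.ew D.nk c) := by
    rw [e2]
    exact (continuous_finsetSum _ fun i _ => (Mp86.sm_res _ _ _).continuous.norm.pow 2).add
      ((contMDiff_finsetSum fun a _ => sm_smul (D.Z.sm_D D.nk.sm_τ a)
        (sm_nab h.conn.cc.sm a h.sm)).continuous.norm.pow 2)
  have z := (c1.ae_eq_iff_eq D.Z.μ continuous_zero).1
    ((integral_eq_zero_iff_of_nonneg (fun x => by rw [e2]; positivity) i).1 e)
  have z' := fun x => (add_eq_zero_iff_of_nonneg (by positivity) (by positivity)).1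
    (congrFun (e2.symm.trans z) x)
  choose R hR using bdd_Fg (c := c) hC cW
  have w : ∀ i, ∑ b, D.F.D b (N.y i) x.1 • c.m.Fg D.Z c.W x (none, some b) = 0 := fun i => by
    choose R' hR' using fun t : _ × _ => Cb_bil (ContinuousLinearMap.mul ℝ ℝ)
      (Cb_bil (ContinuousLinearMap.mul ℝ ℝ) (Cb_const (1 : ℝ)) ((D.nk.cd_fn (g := none)
        (by simp [OF])).2 t.1)) ((D.nk.cd_fn (g := some (N.y i)) (by simpa [OF] using hN.sy i)).2 t.2)
    have a1 := Mp86.res_spec (Mon62.exists_res_sm hC h.ra.mc.sm h.ra.mc.sk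
      (contMDiff_finsetSum fun t _ => sm_smul (hR' t).1 (h.sm_Fg t)) ⟨∑ t, R' t 0 * R t, fun x =>
        norm_sum_le_of_le _ fun t _ => (norm_smul_le _ _).trans (mul_le_mul
          (CB_zero.1 ((hR' t).2 0) x) (hR t x) (norm_nonneg _)
          ((norm_nonneg _).trans (CB_zero.1 ((hR' t).2 0) x)))⟩)
    have a2 := Mp86.res_spec (Mon62.exists_res_sm hC h.ra.mc.sm h.ra.mc.sk a1.1 a1.2.1)
    have a3 := congrFun (zero_of_isRes a1 (zero_of_isRes a2 (funext fun x => norm_eq_zero.1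
      (pow_eq_zero_iff two_ne_zero |>.1 ((Finset.sum_eq_zero_iff_of_nonneg fun _ _ => by positivity).1
        (z' x).1 i (Finset.mem_univ _)))))) x
    have d1 : D.Z.D none (fun x => N.y i x.1) x = 0 := congrFun (D_none_fst D.F.toPre (hN.sy i)) x
    have d2 : ∀ a, D.Z.D (some a) (fun x => N.y i x.1) x = D.F.D a (N.y i) x.1 := fun a =>
      congrFun (D_some_fst D.F.toPre (hN.sy i) a) x
    simp only [ContinuousLinearMap.mul_apply', Nk.fn, nk_ext, show D.G.F = D.Z from rfl, D_τ,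
      Fintype.sum_prod_type, Fintype.sum_option] at a3
    simpa [YD.B, cP, d1, d2] using a3
  have f : ∀ a, c.m.Fg D.Z c.W x (none, a) = 0 := fun a => by
    have s := fun t => Fg_swap h.hG h.conn (x := x) t
    cases a with
    | none =>
      have : c.m.Fg D.Z c.W x (none, none) = -c.m.Fg D.Z c.W x (none, none) := s (none, none)
      linear_combination (norm := module) (1 / 2 : ℝ) • this
    | some a =>
      refine ext_inner_left ℝ fun v => ?_
      obtain ⟨ξ, hξ⟩ := exists_covector D.F x.1 a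
      have := congrArg ξ (hN.span x.1 (fun b => ⟪v, c.m.Fg D.Z c.W x (none, some b)⟫_ℝ) fun i => by
        simpa [inner_sum, real_inner_smul_right, mul_comm] using congrArg (⟪v, ·⟫_ℝ) (w i))
      have p := Fg_proj h.hG h.conn (x := x) (some a) none
      simp only [show ∀ k, c.m.Fg D.G.F c.W x (k, none) = -c.m.Fg D.Z c.W x (none, k) from
        fun k => s (none, k), Fintype.sum_option, smul_neg, Finset.sum_neg_distrib] at p
      simp only [map_sum, map_smul, hξ, map_zero, smul_eq_mul] at this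
      rw [← neg_inj, ← inner_neg_right, ← p]
      simpa [YD.B, cP, inner_sum, real_inner_smul_right, mul_comm] using this
  have g := norm_eq_zero.1 (pow_eq_zero_iff two_ne_zero |>.1 (z' x).2)
  rw [nk_τ] at g
  refine hx ?_
  rw [en, xP, g, show xA D.Z c Prod.snd x = 0 from ?_]
  · simp
  · ext1 a
    simp only [xA, ← nk_τ (D := D), D_τ]
    simp [YD.B, cP, f]

variable {T : Type} [NormedAddCommGroup T] [NormedSpace ℝ T] [PreconnectedSpace Y]
  {𝔉 : Mod61.Fam (IC I3) (Y × ℝ) (Option κ) lam T} {o : Ref 𝔉} {k : ℕ} {y : Pnt o 0}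

/-- **MS-DENS**: the values of the terms `N.mT` are dense -/
theorem ms_top (h : 𝔉.OK) (hk : 4 ≤ k) (hB : 𝔉.B = D.B) (hG : 𝔉.G y.t = D.G) (hN : N.OK D)
    (i : Integrable (N.ew D.nk y.cfg) D.Z.μ) (hm : D.Moves y.cfg)
    (ht : ¬Fix D.Z y.cfg univ ∨ 𝔉.Om' = ∅ ∧ Zr y.cfg univ ∧ ¬Lin D.Z y.cfg univ)
    {τ : Option (YW I3 Y) → T → PtX (Y × ℝ) (Option κ) lam 0 0 1} {s : ℝ} (hs : s ≠ 0)
    (hτ : ∀ w, τ w y.t = s • N.mT D w) {U : Submodule ℝ (o.Y 0 1 k)}
    (hU : IsClosed (U : Set (o.Y 0 1 k))) (hv : ∀ w e, RepE (τ w) y e → e ∈ U) (e : o.Y 0 1 k) :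
    e ∈ U := by
  have p := pc h y isClopen_univ isOpen_univ (by simp)
  have t := h.tameG _ y.ht
  have w := cb_W h y
  rw [hG] at t w
  rw [hB, hG] at p
  have e0 := ewT_ne p t w hN i hm
  have H : MH N D y.cfg D.G.a := ⟨p, t, w, hN.δ0, e0⟩
  refine Dn.top h ⟨fun u a b c => ?_, fun u a _ c => Ap.mono ?_ (H.ap_C ?_ a (hB ▸ c))⟩ hU hk
    (fun s => mem_of_eq_of_mem (by rw [Subsingleton.elim s 0]; rfl) U.zero_mem) (fun ρ => ?_) e
  · rcases ht with ht | ht
    · refine Ap.mono ?_ (H.ap_D ht a (hB ▸ c))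
      rintro _ ⟨T, rfl, t1, t2⟩
      exact ⟨by rw [hB]; exact t2, .of_rep (hv (some T)) hs (fun x _ => by rw [hτ]; rfl)
        (fun x _ => by rw [hτ]; exact congrArg (s • ·) (congrFun t1 x))
        (Subsingleton.elim _ _) (by rw [hτ]; rfl)⟩
    · obtain rfl : u = 0 := tsupport_eq_empty_iff.1 (subset_eq_empty b (by simp [ht.1]))
      exact zero_mem _
  · rintro _ ⟨T, rfl, t1, t2⟩
    exact ⟨by rw [hB]; exact t2, .of_rep (hv (some T)) hs
      (fun x _ => by rw [hτ]; exact congrArg (s • ·) (congrFun t1 x)) (fun x _ => by rw [hτ]; rfl)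
      (Subsingleton.elim _ _) (by rw [hτ]; rfl)⟩
  · refine ht.imp id fun k => ⟨k.2.2, by_contra fun n => hm.choose_spec ?_⟩
    have : y.cfg.Φ = 0 := funext fun x => k.2.1 x trivial
    simp [en, xA, xP, nt, this, nab, dv_zero, not_not.1 (not_exists.1 n _), ← Pi.zero_def]
  · have := (Val.of_rep (hv none) hs (a := 0) (b := 0) (ρ := (0, fun _ => N.ewT D y.cfg))
      (fun x _ => by rw [hτ]; rfl) (fun x _ => by rw [hτ]; rfl) (Subsingleton.elim _ _)
      (by rw [hτ]; rfl)).row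
    exact ⟨_, U.smul_mem (ρ 0 / N.ewT D y.cfg) this, funext fun j => by
      simp [e0, Subsingleton.elim j 0]⟩

/-- **MS-DENS** for a theory -/
theorem ms_onto [CompleteSpace T] {Θ : Th 𝔉 0 0 1 (Option (YW I3 Y))}
    {Adm : (Option (YW I3 Y) →₀ ℝ) → Prop} (H : Θ.OK Adm) {q} {x : Θ.X} (ha : Adm q)
    (hx : H.Q.Sol q x) (hB : 𝔉.B = D.B) (hG : 𝔉.G x.2.t = D.G) (hN : N.OK D)
    (i : Integrable (N.ew D.nk x.2.cfg) D.Z.μ) (hm : D.Moves x.2.cfg)
    (ht : ¬Fix D.Z x.2.cfg univ ∨ 𝔉.Om' = ∅ ∧ Zr x.2.cfg univ ∧ ¬Lin D.Z x.2.cfg univ)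
    {s : ℝ} (hs : s ≠ 0) (hτ : ∀ w, Θ.τ w x.2.t = s • N.mT D w) : ∃ J, H.Q.Onto q x J :=
  H.onto ha hx fun _ h1 _ h2 => ms_top H.fam H.k4 hB hG hN i hm ht hs hτ h1 h2

end Crest.Agent.X212.Wrd81
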