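import Crest.Agent.X212.Wrd81.Adj
import Mathlib.Topology.ContinuousMap.StoneWeierstrass

/-!
# X212 / WORDS, part 18 (helper81): words over an algebra of functions which separates points.
-/

set_option autoImplicit false
set_option linter.unusedSectionVars false
noncomputable section
open scoped Manifold ContDiff Topology InnerProductSpace
open MeasureTheory Set Function Filter

namespace Crest.Agent.X212.Wrd81
open An Sob92

variable {E : Type} [NormedAddCommGroup E] [NormedSpace ℝ E] [FiniteDimensional ℝ E]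
  [MeasurableSpace E] [BorelSpace E]
  {HM : Type} [TopologicalSpace HM] {I : ModelWithCorners ℝ E HM} [I.Boundaryless]
  {M : Type} [TopologicalSpace M] [ChartedSpace HM M] [IsManifold I ∞ M]
  [MeasurableSpace M] [T2Space M] [BorelSpace M] [SecondCountableTopology M]
  {ι : Type} [Fintype ι] {ι' : Type} [Fintype ι']
  {V : Type} [NormedAddCommGroup V] [InnerProductSpace ℝ V] [FiniteDimensional ℝ V]
  {W : Type} [NormedAddCommGroup W] [InnerProductSpace ℝ W] [FiniteDimensional ℝ W]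

variable (I) in
/-- functions `𝒢` which separate points, cut-off functions `𝒞` among them -/
structure Gn (𝒢 𝒞 : Set (M → ℝ)) : Prop where
  sm : ∀ g ∈ 𝒢, Sm I g
  sep : ∀ x y, x ≠ y → ∃ g ∈ 𝒢, g x ≠ g y
  sub : 𝒞 ⊆ 𝒢
  hcs : ∀ a ∈ 𝒞, HasCompactSupport a
  one : ∀ K, IsCompact K → ∃ a ∈ 𝒞, ∀ x ∈ K, a x = 1

/-- the words multiplied by cut-off functions -/
def LocA (𝒞 : Set (M → ℝ)) (𝒲 : Set (M → V)) : Set (M → V) :=
  {v | ∃ a ∈ 𝒞, ∃ w ∈ 𝒲, v = fun x => a x • w x}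

variable {𝒢 𝒞 : Set (M → ℝ)} {𝒲 : Set (M → V)} {F : Fr I M ι} {A : ι → M → V →L[ℝ] V}

lemma Gn.tf (h : Gn I 𝒢 𝒞) {a : M → ℝ} (ha : a ∈ 𝒞) : Tf I univ a :=
  ⟨h.sm a (h.sub ha), h.hcs a ha, subset_univ _⟩

lemma Gn.approx (h : Gn I 𝒢 𝒞) {g : M → ℝ} (hg : Continuous g) {K : Set M} (hK : IsCompact K)
    {ε : ℝ} (hε : 0 < ε) : ∃ p ∈ Algebra.adjoin ℝ 𝒢, ∀ x ∈ K, ‖p x - g x‖ < ε := by
  obtain ⟨p, h1, h2⟩ :=
    ContinuousMap.exists_mem_subalgebra_near_continuous_of_isCompact_of_separatesPoints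
      (A := (Algebra.adjoin ℝ 𝒢).comap (ContinuousMap.coeFnAlgHom ℝ)) (fun x y e =>
        let ⟨f, f1, f2⟩ := h.sep x y e
        ⟨f, ⟨⟨f, (h.sm f f1).continuous⟩, Algebra.subset_adjoin f1, rfl⟩, f2⟩) ⟨g, hg⟩ hK hε
  exact ⟨p, h1, h2⟩

variable (F A 𝒢 𝒲) in
/-- a family of words closed under `𝒢` and the resolvent -/
structure ClA : Prop where
  sm : ∀ w ∈ 𝒲, Sm I w
  mul : ∀ g ∈ 𝒢, ∀ w ∈ 𝒲, (fun x => g x • w x) ∈ 𝒲
  res : ∀ w ∈ 𝒲, F.res A w ∈ 𝒲

lemma ClA.sm_span (c : ClA 𝒢 𝒲 F A) {w : M → V} (hw : w ∈ Submodule.span ℝ 𝒲) : Sm I w := by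
  induction hw using Submodule.span_induction with
  | mem w hw => exact c.sm w hw
  | zero => exact contMDiff_const
  | add u v _ _ hu hv => exact hu.add hv
  | smul c u _ hu => exact sm_smul (f := fun _ => c) contMDiff_const hu

lemma ClA.adj (c : ClA 𝒢 𝒲 F A) {p : M → ℝ} (hp : p ∈ Algebra.adjoin ℝ 𝒢) :
    ∀ w ∈ Submodule.span ℝ 𝒲, (fun x => p x • w x) ∈ Submodule.span ℝ 𝒲 := by
  induction hp using Algebra.adjoin_induction with
  | mem g hg =>
    exact fun w hw => Submodule.span_le (p := (Submodule.span ℝ 𝒲).comap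
      (act fun x => g x • (1 : V →L[ℝ] V))).2 (fun w hw => Submodule.subset_span (c.mul g hg w hw)) hw
  | algebraMap r => exact fun w hw => Submodule.smul_mem _ r hw
  | add p q _ _ hp hq =>
    intro w hw
    simp only [Pi.add_apply, add_smul]
    exact add_mem (hp w hw) (hq w hw)
  | mul p q _ _ hp hq => exact fun w hw => by simpa [mul_smul] using hp _ (hq w hw)

/-- **Density of words over an algebra.** -/
theorem ClA.exists_prj (c : ClA 𝒢 𝒲 F A) (g : Gn I 𝒢 𝒞) (h : RH F A) :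
    ∃ π, IsPrj F A univ 𝒲 π ∧ ∀ (k : ℕ), ∀ u ∈ Tst I M V,
      (∀ x, π x (u x) = u x) → u ∈ Ap F.toPre k (LocA 𝒞 𝒲) := by
  set r := h.rsd
  let S := cl {x | ∃ a ∈ 𝒞, ∃ w ∈ 𝒲, r.Rp x fun y => a y • w y}
  have m1 : ∀ a ∈ 𝒞, ∀ w ∈ Submodule.span ℝ 𝒲, ∀ x, (r.Rp x fun y => a y • w y) → x ∈ S := by
    intro a ha w hw
    have hf := g.tf ha
    have j := fun {u} (hu : u ∈ Submodule.span ℝ 𝒲) =>
      r.rp_j ⟨_, smul_mem_tst hf.sm hf.hcs (c.sm_span hu)⟩
    induction hw using Submodule.span_induction with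
    | mem w hw => exact fun x hx => mem_cl ⟨a, ha, w, hw, hx⟩
    | zero => exact fun x hx => hx.unique (y := 0) (fun φ => by simp) ▸ zero_mem _
    | add u v hu hv iu iv =>
      intro x hx
      rw [hx.unique (y := _ + _) (by
        convert (j hu).add (j hv) (sm_smul hf.sm (c.sm_span hu)) (sm_smul hf.sm (c.sm_span hv))
          using 1
        funext y; simp)]
      exact add_mem (iu _ (j hu)) (iv _ (j hv))
    | smul t u hu iu =>
      intro x hx
      rw [hx.unique (y := t • _) (by convert (j hu).smul t using 1; funext y; simp [smul_comm t])]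
      exact Submodule.smul_mem _ t (iu _ (j hu))
  have m2 : ∀ f, Tf I univ f → ∀ w ∈ Submodule.span ℝ 𝒲, ∀ x, (r.Rp x fun y => f y • w y) →
      x ∈ S := by
    intro f hf w hw x hx
    obtain ⟨a, ha, a1⟩ := g.one _ hf.hcs
    have ha' := g.tf ha
    let v : Tst I M V := ⟨_, smul_mem_tst ha'.sm ha'.hcs (c.sm_span hw)⟩
    refine (isClosed_cl _).closure_subset (Metric.mem_closure_iff.2 fun ε hε => ?_)
    obtain ⟨p, p1, p2⟩ := g.approx hf.sm.continuous ha'.hcs (ε := ε / (‖r.j v‖ + 1)) (by positivity)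
    have hp := c.adj p1 w hw
    let v' : Tst I M V := ⟨_, smul_mem_tst ha'.sm ha'.hcs (c.sm_span hp)⟩
    let u : Tst I M V := ⟨_, smul_mem_tst hf.sm hf.hcs (c.sm_span hw)⟩
    refine ⟨_, m1 a ha _ hp _ (r.rp_j v'), ?_⟩
    rw [hx.unique (r.rp_j u), dist_comm, dist_eq_norm, ← map_sub]
    refine lt_of_le_of_lt (b := ε / (‖r.j v‖ + 1) * ‖r.j v‖) (abs_le_of_sq_le_sq' ?_ (by positivity)).2
      (by rw [div_mul_eq_mul_div, div_lt_iff₀ (by positivity)]; nlinarith)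
    rw [mul_pow, ← real_inner_self_eq_norm_sq, ← real_inner_self_eq_norm_sq, r.inner_j, r.inner_j,
      ← integral_const_mul]
    refine integral_mono (L2D.integrable (v' - u).2 (v' - u).2.1)
      ((L2D.integrable v.2 v.2.1).const_mul _) fun y => ?_
    simp only [real_inner_self_eq_norm_sq, ← mul_pow]
    refine pow_le_pow_left₀ (norm_nonneg _) ?_ 2
    have e : (v' - u).1 y = (p y - f y) • v.1 y := by
      change a y • p y • w y - f y • w y = (p y - f y) • a y • w y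
      rw [sub_smul, smul_comm (a y), smul_comm (f y), smul_eq_of_one
        (u := fun y => f y • w y) (tsupport_smul_subset_left _ _) a1]
    rw [e, norm_smul]
    by_cases hy : y ∈ tsupport a
    · exact mul_le_mul_of_nonneg_right (p2 y hy).le (norm_nonneg _)
    · simp [v, image_eq_zero_of_notMem_tsupport hy]
  have m3 : ∀ {f} (hf : Tf I univ f) {T : M → V →L[ℝ] V} (hT : Sm I T),
      (∀ w ∈ 𝒲, (fun y => T y (w y)) ∈ Submodule.span ℝ 𝒲) → ∀ x ∈ S, r.mg hf hT x ∈ S := by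
    refine fun {f} hf T hT hw x => map_cl (isClosed_cl _) _ ?_
    rintro x ⟨a, ha, w, hw', hx⟩
    refine m2 _ ((g.tf ha).mul hf.sm) _ (hw w hw') _ ?_
    simpa [mul_smul] using hx.mg hf hT
  have m4 := fun {f} (hf : Tf I univ f) => m3 hf sm_one fun _ hw => Submodule.subset_span hw
  have cut : ∀ φ : Tst I M V, ∃ f, ∃ hf : Tf I univ f, r.mg hf sm_one (r.j φ) = r.j φ := fun φ => by
    obtain ⟨f, hf, f1⟩ := exists_tf_one (I := I) φ.2.2.1 isOpen_univ (subset_univ _)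
    exact ⟨f, hf, (L2D.mg_j _ _ _ _).trans
      (congrArg _ (Subtype.ext (funext (smul_eq_of_one Subset.rfl f1))))⟩
  have hi : ∀ {f w x}, Tf I univ f → Sm I w → r.Rp x (fun y => f y • w y) → r.Inf x := by
    intro f w x hf hw hx
    rw [hx.unique (r.rp_j ⟨_, smul_mem_tst hf.sm hf.hcs hw⟩)]
    exact r.inf_j h.mc.sm _
  have mG : ∀ x ∈ S, r.G x ∈ S := by
    refine fun x => map_cl (isClosed_cl _) _ ?_
    rintro x ⟨a, ha, w, hw, hx⟩
    have h1 := c.mul a (g.sub ha) w hw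
    have h2 := (h.res_rp (hi (g.tf ha) (c.sm w hw) hx) (c.sm _ h1) hx).2.2
    rw [← Submodule.starProjection_eq_self_iff]
    refine r.ext fun φ => ?_
    obtain ⟨f, hf, e⟩ := cut φ
    have ad := r.mg_adj hf sm_one sm_one fun _ _ _ => rfl
    rw [← e, ad, ad, ← proj_comm _ _ _ ad (m4 hf) (m4 hf), Submodule.starProjection_eq_self_iff.2
      (m2 f hf _ (Submodule.subset_span (c.res _ h1)) _ (h2.mg hf sm_one))]
  let 𝒲' : Set (M → V) :=
    {w | Sm I w ∧ ∀ f, Tf I univ f → ∀ x, (r.Rp x fun y => f y • w y) → x ∈ S}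
  have sub : ∀ w ∈ 𝒲, w ∈ 𝒲' := fun w hw =>
    ⟨c.sm w hw, fun f hf => m2 f hf w (Submodule.subset_span hw)⟩
  have eS : r.Sp univ 𝒲' = S := le_antisymm
    (cl_le (isClosed_cl _) fun x ⟨f, hf, w, hw, hx⟩ => hw.2 f hf x hx)
    (cl_le (isClosed_cl _) fun x ⟨a, ha, w, hw, hx⟩ => mem_cl ⟨a, g.tf ha, w, sub w hw, hx⟩)
  have hW : r.Wds univ 𝒲' := ⟨isOpen_univ, by simp, fun w hw => hw.1, fun f hf w hw x hx => by
    have h1 := h.res_rp (hi hf hw.1 hx) (sm_smul hf.sm hw.1) hx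
    exact ⟨_, Submodule.subset_span ⟨h1.1.1, fun f' hf' y hy => hy.unique (h1.2.2.mg hf' sm_one) ▸
      m4 hf' _ (mG _ (hw.2 f hf x hx))⟩, h1.2.2⟩⟩
  obtain ⟨π, hπ, hP⟩ := hW.exists_prj h.mc.sm h.proj
  have t : ∀ {T : M → V →L[ℝ] V}, Sm I T → (∀ w ∈ 𝒲, (fun y => T y (w y)) ∈ Submodule.span ℝ 𝒲) →
      ∀ w ∈ 𝒲', (fun y => T y (w y)) ∈ Submodule.span ℝ 𝒲' := fun {T} hT h1 w hw => by
    refine Submodule.subset_span ⟨hT.clm_apply hw.1, fun f hf x hx => ?_⟩
    obtain ⟨f', hf', f1⟩ := exists_tf_one (I := I) hf.hcs isOpen_univ (subset_univ _)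
    have j := r.rp_j ⟨_, smul_mem_tst hf.sm hf.hcs hw.1⟩
    rw [hx.unique (y := r.mg hf' hT _) (by
      convert j.mg hf' hT using 1
      funext y
      rw [← map_smul, ← map_smul, smul_eq_of_one (u := fun y => f y • w y)
        (tsupport_smul_subset_left _ _) f1])]
    exact m3 hf' hT h1 _ (hw.2 f hf _ j)
  refine ⟨π, ⟨hπ.sm, hπ.symm, hπ.idem, hπ.par, fun w hw => hπ.fix w (sub w hw),
    fun T T' hT hT' ht a1 a2 => hπ.comm T T' hT hT' ht (t hT a1) (t hT' a2),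
    fun η hη O hO ho => hπ.orth η hη O hO fun w hw y hy => ?_⟩, fun k u hu hπu => ?_⟩
  · obtain ⟨f, hf, f1⟩ := exists_tf (I := I) (hO.mem_nhds hy.1)
    have := eq_zero_of_tst (V := ℝ) F.μ isOpen_univ dense_univ (hf.sm.mul (sm_inner hη hw.1))
      fun φ hφ _ => by
        have hf' := hf.mul hφ.1
        let z : Tst I M V := ⟨_, smul_mem_tst hf'.sm hf'.hcs hη⟩
        obtain ⟨b, hb, b1⟩ := exists_tf_one (I := I) hf.hcs isOpen_univ (subset_univ _)
        have j := r.rp_j ⟨_, smul_mem_tst hb.sm hb.hcs hw.1⟩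
        have h3 : S ≤ (ℝ ∙ r.j z)ᗮ := cl_le (Submodule.isClosed_orthogonal _) <| by
          rintro x ⟨a, -, w, hw, hx⟩
          rw [SetLike.mem_coe, Submodule.mem_orthogonal_singleton_iff_inner_right, hx]
          refine integral_eq_zero_of_ae (Eventually.of_forall fun t => ?_)
          by_cases ht : t ∈ tsupport f
          · simp [z, real_inner_smul_left, real_inner_smul_right, ho w hw t ⟨hf.sub ht, trivial⟩]
          · simp [z, image_eq_zero_of_notMem_tsupport ht]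
        have := Submodule.mem_orthogonal_singleton_iff_inner_right.1 (h3 (hw.2 b hb _ j))
        rw [j] at this
        refine Eq.trans (integral_congr_ae (Eventually.of_forall fun t => ?_)) this
        by_cases ht : t ∈ tsupport f
        · simp [z, b1 t ht, real_inner_smul_left, mul_comm, mul_left_comm, mul_assoc]
        · simp [z, image_eq_zero_of_notMem_tsupport ht]
    simpa [f1] using congrFun this y
  let D : ∀ j, Set (F.H j (triv M V)) := fun j =>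
    {y | r.Inf (F.incl j 0 _ y) ∧ ∃ w ∈ 𝒲, r.Rp (F.incl j 0 _ y) w}
  have lev : ∀ j, ∀ y, F.incl (2 * j) 0 _ y ∈ S → y ∈ cl (D (2 * j)) := by
    intro j
    induction j with
    | zero =>
      intro y hy
      rw [incl_self] at hy
      refine cl_le (isClosed_cl _) ?_ hy
      rintro x ⟨f, hf, w, hw, hx⟩
      refine mem_cl ?_
      change r.Inf (F.incl 0 0 _ x) ∧ ∃ w ∈ 𝒲, r.Rp (F.incl 0 0 _ x) w
      rw [incl_self]
      exact ⟨hi (g.tf hf) (c.sm w hw) hx, _, c.mul f (g.sub hf) w hw, hx⟩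
    | succ j ih =>
      intro (y : F.H (2 * j + 2) _) hy
      have e : ∀ z, r.G (F.incl (2 * j) 0 _ z) = F.incl (2 * j + 2) 0 _ (GH F A _ z) := h.G0_incl _
      rw [← h.ell.G_Q _ y] at hy ⊢
      refine map_cl (isClosed_cl _) (GH F A _) ?_ (ih _ ?_)
      · rintro z ⟨h1, w, hw, h2⟩
        exact mem_cl ⟨e z ▸ h1.G, _, c.res w hw, e z ▸ (h.res_rp h1 (c.sm w hw) h2).2.2⟩
      · rw [← Submodule.starProjection_eq_self_iff] at hy ⊢
        refine r.G_inj h.mc.sm ?_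
        rw [← proj_comm _ _ _ r.symm mG mG, e]
        exact hy
  obtain ⟨a, ha, a1⟩ := g.one _ hu.2.1
  have hg := g.tf ha
  have hs := fun j => rep_smulH (F := F.toPre) (k := j) (p := triv M V) (Cb_of_hcs hg.sm hg.hcs)
  have h3 := lev k (F.toH _ _ ⟨u, hu⟩) (by
    rw [incl_toH (Nat.zero_le _), ← eS, ← Submodule.starProjection_eq_self_iff]
    exact (hP ⟨u, hu⟩).trans (congrArg _ (Subtype.ext (funext hπu))))
  have h4 := map_cl (U := SpH F.toPre k _ (LocA 𝒞 𝒲)) (isClosed_cl _)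
    (smulH F.toPre k _ a ∘L F.incl (2 * k) k _) (fun y hy => ?_) h3
  · rw [ContinuousLinearMap.comp_apply, incl_toH (by omega),
      RepT_toH' (hs k) ⟨u, hu⟩ ⟨u, hu⟩ (funext (smul_eq_of_one Subset.rfl a1))] at h4
    exact mem_Ap.2 ⟨hu, h4⟩
  · obtain ⟨-, w, hw, h2⟩ := hy
    refine mem_cl ⟨⟨_, smul_mem_tst hg.sm hg.hcs (c.sm w hw)⟩, ⟨a, ha, w, hw, rfl⟩,
      incl_injective (Nat.zero_le k) ?_⟩
    rw [incl_toH (Nat.zero_le _), ContinuousLinearMap.comp_apply,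
      Rep_incl (hs k) (hs 0) (Nat.zero_le k) (Nat.zero_le k), incl_incl (by omega) (Nat.zero_le _),
      smulH_zero hg]
    exact (r.rp_j _).unique (h2.mg hg sm_one)

variable (F A 𝒞 𝒲) in
/-- the projector of words over an algebra -/
structure PrA (π : M → V →L[ℝ] V) : Prop extends IsPrj F A univ 𝒲 π where
  loc : ∀ {ι' W : Type} [Fintype ι'] [NormedAddCommGroup W] [InnerProductSpace ℝ W]
    [FiniteDimensional ℝ W] (F' : Pre I M ι') (k : ℕ) (𝒯 : Set (M → W)) (T : M → V →L[ℝ] W), Sm I T →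
    (∀ a ∈ 𝒞, ∀ w ∈ 𝒲, (fun x => a x • T x (w x)) ∈ Ap F' k 𝒯) →
    ∀ f, Tf I univ f → ∀ b, Sm I b → (fun x => f x • T x (π x (b x))) ∈ Ap F' k 𝒯

theorem ClA.exists_pra (c : ClA 𝒢 𝒲 F A) (g : Gn I 𝒢 𝒞) (h : RH F A) :
    ∃ π, PrA 𝒞 𝒲 F A π := by
  obtain ⟨π, p, hp⟩ := c.exists_prj g h
  refine ⟨π, p, fun F' k 𝒯 T hT hw f hf b hb => ?_⟩
  have s := hT.clm_apply (p.sm.clm_apply hb)
  obtain ⟨a, ha, a1⟩ := g.one _ hf.hcs
  have hg := g.tf ha
  obtain ⟨L, hL⟩ := rep_loc F.toPre F' k (p := triv M V) (q := triv M _) (sm_smul hg.sm hT)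
    hg.hcs.smul_right fun _ _ _ => rfl
  refine mem_Ap.2 ⟨smul_mem_tst hf.sm hf.hcs s, Ap.map_H hL (isClosed_cl _) ?_
    (hp k _ (smul_mem_tst hf.sm hf.hcs (p.sm.clm_apply hb)) fun x => by rw [map_smul, p.idem]) _
    (funext fun x => ?_)⟩
  · rintro _ ⟨a', ha', w, hw', rfl⟩ - v hv
    obtain ⟨h1, h2⟩ := mem_Ap.1 (hw a ha _ (c.mul a' (g.sub ha') w hw'))
    rwa [Subtype.ext hv (a2 := ⟨_, h1⟩)]
  · rw [smul_apply, map_smul]
    exact (smul_eq_of_one (u := fun x => f x • T x (π x (b x)))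
      (tsupport_smul_subset_left _ _) a1 x).symm

end Crest.Agent.X212.Wrd81
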