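import Mathlib

/-!
# X212 / WORDS, part 1 (helper81): the commutant lemma, format-free.

`H` is the space of `L²` sections, `S` the smooth sections, `R` the smooth functions,
`L = 1 + ∇^*∇`, `G = L⁻¹`.  A closed subspace `V` which is stable under `G` and under
multiplication by functions has an orthogonal projector which preserves the smooth sections, is
`R`-linear, pointwise symmetric and idempotent, and commutes with every `∇_{grad f}`.
-/

set_option autoImplicit false
set_option linter.unusedSectionVars false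
open scoped RealInnerProductSpace

noncomputable section
namespace Crest.Agent.X212.Wrd81

section hilbert
variable {H : Type*} [NormedAddCommGroup H] [InnerProductSpace ℝ H] [CompleteSpace H]

/-- closed linear span -/
def cl (W : Set H) : Submodule ℝ H := (Submodule.span ℝ W).topologicalClosure

lemma isClosed_cl (W : Set H) : IsClosed (cl W : Set H) :=
  Submodule.isClosed_topologicalClosure _

instance (W : Set H) : CompleteSpace (cl W) := (isClosed_cl W).completeSpace_coe

instance (W : Set H) : (cl W).HasOrthogonalProjection := inferInstance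

lemma mem_cl {W : Set H} {w : H} (h : w ∈ W) : w ∈ cl W :=
  Submodule.le_topologicalClosure _ (Submodule.subset_span h)

/-- a closed subspace containing `W` contains `cl W` -/
lemma cl_le {W : Set H} {U : Submodule ℝ H} (hU : IsClosed (U : Set H)) (h : W ⊆ U) :
    cl W ≤ U :=
  Submodule.topologicalClosure_minimal _ (Submodule.span_le.2 h) hU

lemma map_cl {H' : Type*} [NormedAddCommGroup H'] [InnerProductSpace ℝ H'] {W : Set H}
    {U : Submodule ℝ H'} (hU : IsClosed (U : Set H')) (T : H →L[ℝ] H')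
    (hW : ∀ w ∈ W, T w ∈ U) {x : H} (hx : x ∈ cl W) : T x ∈ U := by
  have : cl W ≤ U.comap (T : H →ₗ[ℝ] H') :=
    cl_le (hU.preimage T.continuous) (fun w hw => hW w hw)
  exact this hx

/-- a subspace stable under `T` and under an adjoint `T'` of `T` reduces `T` -/
lemma proj_comm (V : Submodule ℝ H) [V.HasOrthogonalProjection] (T T' : H →L[ℝ] H)
    (adj : ∀ x y, ⟪T x, y⟫ = ⟪x, T' y⟫) (hT : ∀ x ∈ V, T x ∈ V) (hT' : ∀ x ∈ V, T' x ∈ V)
    (x : H) : V.starProjection (T x) = T (V.starProjection x) := by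
  have h1 : T (V.starProjection x) ∈ V := hT _ (V.starProjection_apply_mem x)
  have h2 : T x - T (V.starProjection x) ∈ Vᗮ := by
    rw [← map_sub, Submodule.mem_orthogonal']
    intro u hu
    rw [adj]
    exact Submodule.inner_left_of_mem_orthogonal (hT' u hu) (V.sub_starProjection_mem_orthogonal x)
  exact Submodule.eq_starProjection_of_mem_orthogonal h1 h2

/-- the operators commuting with a fixed operator form a closed set -/
lemma isClosed_comm (P : H →L[ℝ] H) : IsClosed {T : H →L[ℝ] H | P * T = T * P} :=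
  isClosed_eq (continuous_const.mul continuous_id) (continuous_id.mul continuous_const)

/-- Stone–Weierstrass: an operator commuting with the multiplication by a point separating family
of continuous functions commutes with the multiplication by every continuous function. -/
lemma comm_all {M : Type*} [TopologicalSpace M] [CompactSpace M]
    (m : C(M, ℝ) →ₐ[ℝ] (H →L[ℝ] H)) (hm : Continuous m) (P : H →L[ℝ] H) (F : Set C(M, ℝ))
    (sep : ∀ x y : M, x ≠ y → ∃ f ∈ F, f x ≠ f y) (hF : ∀ f ∈ F, P * m f = m f * P)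
    (f : C(M, ℝ)) : P * m f = m f * P := by
  let A : Subalgebra ℝ C(M, ℝ) := (Subalgebra.centralizer ℝ {P}).comap m
  have hA : ∀ g, g ∈ A ↔ P * m g = m g * P := by
    intro g
    simp [A, Subalgebra.mem_centralizer_iff]
  have hcl : IsClosed (A : Set C(M, ℝ)) := by
    have : (A : Set C(M, ℝ)) = m ⁻¹' {T : H →L[ℝ] H | P * T = T * P} := by
      ext g; exact hA g
    rw [this]
    exact (isClosed_comm P).preimage hm
  have hs : A.SeparatesPoints := by
    intro x y hxy
    obtain ⟨g, hg, hne⟩ := sep x y hxy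
    exact ⟨g, ⟨g, (hA g).2 (hF g hg), rfl⟩, hne⟩
  have htop := ContinuousMap.subalgebra_topologicalClosure_eq_top_of_separatesPoints A hs
  have hle : A.topologicalClosure ≤ A := Subalgebra.topologicalClosure_minimal le_rfl hcl
  rw [htop] at hle
  exact (hA f).1 (hle Algebra.mem_top)

end hilbert

/-- Resolvent data: smooth sections `S` inside `L²` sections `H`, `L = 1 + ∇^*∇` on `S`,
`G = L⁻¹` on `H`, with elliptic regularity in the weakest form. -/
structure Res (S H : Type*) [AddCommGroup S] [Module ℝ S] [NormedAddCommGroup H]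
    [InnerProductSpace ℝ H] where
  ι : S →ₗ[ℝ] H
  inj : Function.Injective ι
  L : S →ₗ[ℝ] S
  G : H →L[ℝ] H
  symm : ∀ x y, ⟪G x, y⟫ = ⟪x, G y⟫
  Ginj : Function.Injective G
  hGL : ∀ s, G (ι (L s)) = ι s
  reg : ∀ x : H, (∀ k : ℕ, ∃ w, x = (G ^ k) w) → ∃ s, ι s = x

section res
variable {S H : Type*} [AddCommGroup S] [Module ℝ S] [NormedAddCommGroup H]
  [InnerProductSpace ℝ H]

lemma Res.pow_GL (r : Res S H) (k : ℕ) (s : S) : (r.G ^ k) (r.ι ((r.L ^ k) s)) = r.ι s := by
  induction k generalizing s with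
  | zero => simp
  | succ k ih =>
    rw [pow_succ', pow_succ, mul_apply_eq_comp, Module.End.mul_apply, ih, r.hGL]

lemma Res.pow_comm (r : Res S H) {P : H →L[ℝ] H} (hP : ∀ x, P (r.G x) = r.G (P x)) (k : ℕ)
    (x : H) : P ((r.G ^ k) x) = (r.G ^ k) (P x) := by
  induction k generalizing x with
  | zero => simp
  | succ k ih => rw [pow_succ', mul_apply_eq_comp, hP, ih,
      mul_apply_eq_comp]

/-- `G` preserves the smooth sections -/
lemma Res.exists_G (r : Res S H) (s : S) : ∃ t, r.ι t = r.G (r.ι s) := by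
  obtain ⟨t, ht⟩ := r.reg (r.G (r.ι s)) (fun k => ⟨r.G (r.ι ((r.L ^ k) s)), by
    rw [← r.pow_comm (P := r.G) (fun _ => rfl), r.pow_GL]⟩)
  exact ⟨t, ht⟩

/-- a bounded operator mapping smooth sections to smooth sections, as a map of `S` -/
def Res.lift (r : Res S H) (P : H →L[ℝ] H) (h : ∀ s, ∃ t, r.ι t = P (r.ι s)) : S →ₗ[ℝ] S where
  toFun s := (h s).choose
  map_add' s t := r.inj (by
    rw [(h (s + t)).choose_spec, map_add r.ι (h s).choose, (h s).choose_spec, (h t).choose_spec,
      map_add, map_add])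
  map_smul' c s := r.inj (by
    rw [RingHom.id_apply, (h (c • s)).choose_spec, map_smul r.ι c (h s).choose, (h s).choose_spec,
      map_smul, map_smul])

lemma Res.ι_lift (r : Res S H) (P : H →L[ℝ] H) (h : ∀ s, ∃ t, r.ι t = P (r.ι s)) (s : S) :
    r.ι (r.lift P h s) = P (r.ι s) := (h s).choose_spec

/-- the resolvent on smooth sections -/
def Res.GS (r : Res S H) : S →ₗ[ℝ] S := r.lift r.G r.exists_G

lemma Res.ι_GS (r : Res S H) (s : S) : r.ι (r.GS s) = r.G (r.ι s) := r.ι_lift _ _ s

lemma Res.GS_L (r : Res S H) (s : S) : r.GS (r.L s) = s := r.inj (by rw [r.ι_GS, r.hGL])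

lemma Res.L_GS (r : Res S H) (s : S) : r.L (r.GS s) = s :=
  r.inj (r.Ginj (by rw [r.hGL, r.ι_GS]))

/-- an operator commuting with `G` preserves the smooth sections -/
lemma Res.exists_of_comm (r : Res S H) {P : H →L[ℝ] H} (hP : ∀ x, P (r.G x) = r.G (P x))
    (s : S) : ∃ t, r.ι t = P (r.ι s) :=
  r.reg _ (fun k => ⟨P (r.ι ((r.L ^ k) s)), by rw [← r.pow_comm hP, r.pow_GL]⟩)

/-- an operator commuting with `G` commutes with `L` on smooth sections -/
lemma Res.comm_L (r : Res S H) {P : H →L[ℝ] H} (hP : ∀ x, P (r.G x) = r.G (P x))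
    {Q : S →ₗ[ℝ] S} (hQ : ∀ s, r.ι (Q s) = P (r.ι s)) (s : S) : Q (r.L s) = r.L (Q s) :=
  r.inj (r.Ginj (by rw [hQ, ← hP, r.hGL, r.hGL, hQ]))

end res

section leibniz
variable {R S : Type*} [CommRing R] [AddCommGroup S] [Module ℝ S] [Module R S]

/-- Leibniz: if `L (f s) = f L s - 2 Gr f s + Λ f s` then an `R`-linear map commuting with `L`
commutes with `Gr f = ∇_{grad f}`. -/
lemma comm_grad {L Q : S →ₗ[ℝ] S} {f lam : R} {Gr : S → S}
    (hL : ∀ s, L (f • s) = f • L s - (2 : ℝ) • Gr s + lam • s)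
    (hQL : ∀ s, Q (L s) = L (Q s)) (hQR : ∀ (g : R) s, Q (g • s) = g • Q s) (s : S) :
    Q (Gr s) = Gr (Q s) := by
  have h1 := hQL (f • s)
  rw [hL, hQR, hL, map_add, map_sub, hQR, hQR, hQL, map_smul] at h1
  have h2 : (2 : ℝ) • Q (Gr s) = (2 : ℝ) • Gr (Q s) := by
    have := add_right_cancel h1
    exact sub_right_injective this
  exact smul_right_injective S (two_ne_zero) h2

/-- every covariant derivative `D = ∑ h_i ∇_{grad f_i}` commutes with `Q` -/
lemma comm_D {Q : S →ₗ[ℝ] S} {ι : Type*} (I : Finset ι) (h : ι → R) (Gr : ι → S → S) {D : S → S}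
    (hD : ∀ s, D s = ∑ i ∈ I, h i • Gr i s) (hQ : ∀ i ∈ I, ∀ s, Q (Gr i s) = Gr i (Q s))
    (hQR : ∀ (g : R) s, Q (g • s) = g • Q s) (s : S) : Q (D s) = D (Q s) := by
  rw [hD, hD, map_sum]
  exact Finset.sum_congr rfl fun i hi => by rw [hQR, hQ i hi]

/-- pointwise symmetry from `L²` symmetry -/
lemma symm_pt {Q : S →ₗ[ℝ] S} (B : S → S → R) (I : R → ℝ)
    (hB : ∀ (g : R) s t, B (g • s) t = g * B s t) (hI : ∀ a b, I (a - b) = I a - I b)
    (hpos : ∀ g, I (g * g) = 0 → g = 0) (hQR : ∀ (g : R) s, Q (g • s) = g • Q s)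
    (hs : ∀ s t, I (B (Q s) t) = I (B s (Q t))) (s t : S) : B (Q s) t = B s (Q t) := by
  rw [← sub_eq_zero]
  apply hpos
  set g := B (Q s) t - B s (Q t) with hg
  have : g * g = B (Q (g • s)) t - B (g • s) (Q t) := by
    rw [hQR, hB, hB, ← mul_sub]
  rw [this, hI, hs, sub_self]

/-- tensoriality: an `R`-linear map of a module generated by `e i` with coefficient functionals
depending only on the value at the point is a field of linear maps -/
lemma tensorial {M V ι : Type*} [AddCommGroup V] [Module ℝ V] [Fintype ι] {Q : S →ₗ[ℝ] S}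
    (ev : S → M → V) (evR : R → M → ℝ) (ev_sum : ∀ (u : ι → S) x, ev (∑ i, u i) x = ∑ i, ev (u i) x)
    (ev_smul : ∀ (g : R) s x, ev (g • s) x = evR g x • ev s x)
    (e : ι → S) (c : ι → S → R) (l : ι → V →ₗ[ℝ] ℝ) (hc : ∀ i s x, evR (c i s) x = l i (ev s x))
    (gen : ∀ s, s = ∑ i, c i s • e i) (hQR : ∀ (g : R) s, Q (g • s) = g • Q s) (s : S) (x : M) :
    ev (Q s) x = (∑ i, (l i).smulRight (ev (Q (e i)) x)) (ev s x) := by
  conv_lhs => rw [gen s, map_sum]
  simp only [hQR]
  rw [ev_sum, LinearMap.sum_apply]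
  exact Finset.sum_congr rfl fun i _ => by rw [ev_smul, hc, LinearMap.smulRight_apply]

end leibniz

end Crest.Agent.X212.Wrd81
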