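import Crest.Agent.X212.Wrd81.Ap

/-!
# X212 / WORDS, part 10 (helper81): approximation does not depend on the frame.
-/

set_option autoImplicit false
set_option linter.unusedSectionVars false
noncomputable section
open scoped Manifold ContDiff Topology InnerProductSpace NNReal
open MeasureTheory Set Function Filter

namespace Crest.Agent.X212.Wrd81
open An Sob92

variable {E : Type} [NormedAddCommGroup E] [NormedSpace ℝ E] [FiniteDimensional ℝ E]
  [MeasurableSpace E] [BorelSpace E]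
  {HM : Type} [TopologicalSpace HM] {I : ModelWithCorners ℝ E HM} [I.Boundaryless]
  {M : Type} [TopologicalSpace M] [ChartedSpace HM M] [IsManifold I ∞ M]
  [MeasurableSpace M] [T2Space M] [BorelSpace M] [SecondCountableTopology M]
  {ι : Type} [Fintype ι] {ι' : Type} [Fintype ι']
  {V : Type} [NormedAddCommGroup V] [InnerProductSpace ℝ V] [FiniteDimensional ℝ V]
  {W : Type} [NormedAddCommGroup W] [InnerProductSpace ℝ W] [FiniteDimensional ℝ W]

lemma exists_tf_one {K O : Set M} (hK : IsCompact K) (hO : IsOpen O) (h : K ⊆ O) :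
    ∃ g, Tf I O g ∧ ∀ x ∈ K, g x = 1 :=
  let ⟨g, g1, g2, g3, g4⟩ := exists_cut (I := I) hK hO h; ⟨g, ⟨g1, g2, g3⟩, g4⟩

lemma smul_eq_of_one {N : Type} [NormedAddCommGroup N] [NormedSpace ℝ N] {g : M → ℝ} {u : M → N}
    {K : Set M} (hu : tsupport u ⊆ K) (h : ∀ x ∈ K, g x = 1) (x : M) : g x • u x = u x := by
  by_cases hx : x ∈ tsupport u
  · rw [h x (hu hx), one_smul]
  · simp [image_eq_zero_of_notMem_tsupport hx]

/-- the Sobolev norms of two frames are comparable on a compact set -/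
theorem nrm_loc (F : Pre I M ι) (F' : Pre I M ι') {K : Set M} (hK : IsCompact K) (k : ℕ) :
    ∃ c, 0 ≤ c ∧ ∀ u : M → V, Sm I u → tsupport u ⊆ K → F'.nrm k u ≤ c * F.nrm k u := by
  obtain ⟨c, hc⟩ := Prm93.meas_le_compact F F' hK
  have h0 : ∀ u : M → V, Sm I u → tsupport u ⊆ K → F'.nrm 0 u ≤ √c * F.nrm 0 u := by
    intro u hu hs
    rw [Pre.nrm, Pre.nrm, ← Real.sqrt_mul c.coe_nonneg]
    refine Real.sqrt_le_sqrt ?_
    have := integral_mono_measure (f := fun x => ⟪u x, u x⟫_ℝ) hc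
      (Eventually.of_forall fun _ => real_inner_self_nonneg)
      ((F.integrable_inner hu.continuous (hK.of_isClosed_subset (isClosed_tsupport u) hs)
        hu.continuous).smul_measure_nnreal)
    rwa [integral_smul_nnreal_measure, setIntegral_eq_integral_of_forall_compl_eq_zero
      fun x hx => by simp [image_eq_zero_of_notMem_tsupport fun h => hx (hs h)]] at this
  induction k with
  | zero => exact ⟨_, Real.sqrt_nonneg _, h0⟩
  | succ k ih =>
    obtain ⟨d, d0, ih⟩ := ih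
    obtain ⟨g, hg, g1⟩ := exists_tf_one (I := I) hK isOpen_univ (subset_univ _)
    obtain ⟨hm, hA⟩ := Prm93.mix_fT F F'
    obtain ⟨C, hC⟩ := Prm93.Cb_unif (F := F)
      (f := fun (s : ι' × ι) x => g x * Met55.fT F.e (F'.e s.1) x s.2)
      fun s => Cb_of_hcs (hg.sm.mul (hA _ _)) hg.hcs.mul_right
    have hK' := cK_nonneg (ι := ι) k
    refine ⟨√c + Fintype.card ι' * (d * (Fintype.card ι * (cK ι k * |C k|))), by positivity,
      fun u hu hs => ?_⟩
    have hc : HasCompactSupport u := hK.of_isClosed_subset (isClosed_tsupport u) hs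
    have h1 : ∀ a, F.nrm k (F'.D a u) ≤
        Fintype.card ι * (cK ι k * |C k|) * F.nrm (k + 1) u := fun a => by
      have e : F'.D a u = fun x => ∑ b, (g x * Met55.fT F.e (F'.e a) x b) • F.D b u x := by
        rw [hm.D]
        funext x
        refine Finset.sum_congr rfl fun b _ => ?_
        rw [mul_comm, mul_smul, smul_eq_of_one ((F.tsupport_D u b).trans hs) g1]
      rw [e]
      refine (nrm_sum_le Finset.univ k
        (u := fun b x => (g x * Met55.fT F.e (F'.e a) x b) • F.D b u x)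
        (fun b _ => sm_smul (hC (a, b)).1 (F.sm_D hu b))
        fun b _ => (F.hcs_D hc b).smul_left).trans ?_
      refine (Finset.sum_le_sum fun b _ => (nrm_smul (hC (a, b)).1 (F.sm_D hu b) ((hC (a, b)).2 k)
        (FL_of_hcs k (F.sm_D hu b) (F.hcs_D hc b))).trans
        (mul_le_mul_of_nonneg_left (nrm_D_le k u b) (by positivity))).trans (le_of_eq ?_)
      simp [mul_assoc]
    have h2 := (h0 u hu hs).trans
      (mul_le_mul_of_nonneg_left (nrm_mono (Nat.zero_le (k + 1)) u) (Real.sqrt_nonneg _))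
    have h3 := Finset.sum_le_sum fun a (_ : a ∈ Finset.univ) =>
      (ih _ (F'.sm_D hu a) ((F'.tsupport_D u a).trans hs)).trans
        (mul_le_mul_of_nonneg_left (h1 a) d0)
    rw [Finset.sum_const, Finset.card_univ, nsmul_eq_mul] at h3
    refine (Prm93.nrm_succ_le k u).trans ((add_le_add h2 h3).trans (le_of_eq ?_))
    ring

/-- multiplication by a compactly supported field between the scales of two frames -/
theorem rep_loc (F : Pre I M ι) (F' : Pre I M ι') (k : ℕ) {p : M → V →L[ℝ] V}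
    {q : M → W →L[ℝ] W} {T : M → V →L[ℝ] W} (hT : Sm I T) (hc : HasCompactSupport T)
    (hm : Maps p q T) :
    ∃ L : F.H k p →L[ℝ] F'.H k q, F.RepT F' L fun u x => T x (u x) := by
  obtain ⟨c, c0, h⟩ := nrm_loc (V := W) F F' hc k
  have h1 := rep_mulH (F := F) (k := k) (Cb_of_hcs hT hc) hm
  refine ⟨_, (rep_liftT (C := c * ‖F.mulH k p q T‖) (fun u hu => RepT_mem h1 ⟨u, hu⟩)
    (fun u _ v _ => funext fun x => map_add _ _ _) (fun r u _ => funext fun x => map_smul _ _ _)
    (by positivity) fun u hu => ?_).1⟩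
  refine (h _ (hT.clm_apply hu.1) (closure_mono fun x hx e => hx (by simp [e]))).trans ?_
  rw [mul_assoc]
  refine mul_le_mul_of_nonneg_left ?_ c0
  have := (F.mulH k p q T).le_opNorm (F.toH k p ⟨u, hu⟩)
  rwa [RepT_toH h1, Pre.norm_toH, Pre.norm_toH] at this

variable {F : Pre I M ι} {F' : Pre I M ι'} {k : ℕ} {𝒯 : Set (M → V)} {𝒯' : Set (M → W)}
  {u : M → V} {O : Set M} {T : M → V →L[ℝ] W}

lemma Ap.loc_H {q : M → W →L[ℝ] W} (hT : Sm I T) (hq : ∀ x ∈ O, ∀ v, q x (T x v) = T x v)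
    {U : Submodule ℝ (F'.H k q)} (hU : IsClosed (U : Set (F'.H k q))) (hO : IsOpen O)
    (h : ∀ g, Tf I O g → ∀ v ∈ 𝒯, v ∈ Tst I M V → ∀ w : Sec I q,
      (w.1 = fun x => g x • T x (v x)) → F'.toH k q w ∈ U)
    (hu : u ∈ Ap F k 𝒯) (hs : tsupport u ⊆ O) (w : Sec I q) (hw : w.1 = fun x => T x (u x)) :
    F'.toH k q w ∈ U := by
  obtain ⟨g, hg, g1⟩ := exists_tf_one (I := I) (mem_Ap.1 hu).1.2.1 hO hs
  obtain ⟨L, hL⟩ := rep_loc F F' k (p := triv M V) (q := q) (sm_smul hg.sm hT) hg.hcs.smul_right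
    fun x v _ => by
      by_cases hx : x ∈ O
      · simp [hq x hx]
      · simp [image_eq_zero_of_notMem_tsupport fun h => hx (hg.sub h)]
  exact Ap.map_H hL hU (h g hg) hu w (hw.trans (funext fun x => by
    rw [smul_apply, ← map_smul, smul_eq_of_one Subset.rfl g1]))

/-- **Transfer** along a smooth field, to any frame. -/
theorem Ap.loc (hT : Sm I T) (hO : IsOpen O)
    (h : ∀ g, Tf I O g → ∀ v ∈ 𝒯, v ∈ Tst I M V → (fun x => g x • T x (v x)) ∈ Ap F' k 𝒯')
    (hu : u ∈ Ap F k 𝒯) (hs : tsupport u ⊆ O) : (fun x => T x (u x)) ∈ Ap F' k 𝒯' := by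
  have h1 := (mem_Ap.1 hu).1
  refine mem_Ap.2 ⟨mem_tst (hT.clm_apply h1.1) (h1.2.1.mono fun x hx e => hx (by simp [e])),
    Ap.loc_H hT (fun _ _ _ => rfl) (isClosed_cl _) hO (fun g hg v h2 h3 w hw => ?_) hu hs _ rfl⟩
  obtain ⟨h4, h5⟩ := mem_Ap.1 (h g hg v h2 h3)
  rwa [Subtype.ext hw (a2 := ⟨_, h4⟩)]

/-- **Export to a bundle**: `f • y` lies in every closed subspace containing the cut terms. -/
theorem Ap.smulH_loc {q : M → V →L[ℝ] V} (hq : Sm I q) (hi : ∀ x v, q x (q x v) = q x v)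
    (hO : IsOpen O) (h : ∀ u ∈ Sec I q, tsupport u ⊆ O → u ∈ Ap F k 𝒯)
    {U : Submodule ℝ (F.H k q)} (hU : IsClosed (U : Set (F.H k q)))
    (hT : ∀ g, Tf I O g → ∀ v ∈ 𝒯, ∀ w : Sec I q, (w.1 = fun x => g x • q x (v x)) →
      F.toH k q w ∈ U) {f : M → ℝ} (hf : Tf I O f) (y : F.H k q) : smulH F k q f y ∈ U := by
  have hs := rep_smulH (F := F) (k := k) (p := q) (Cb_of_hcs hf.sm hf.hcs)
  induction y using H_ind with
  | hP => exact hU.preimage (smulH F k q f).continuous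
  | h u =>
    have h1 := (tsupport_smul_subset_left f u.1).trans hf.sub
    rw [RepT_toH hs]
    exact Ap.loc_H hq (fun x _ => hi x) hU hO (fun g hg v h2 _ => hT g hg v h2)
      (h _ (RepT_mem hs u) h1) h1 _ (funext fun x => ((RepT_mem hs u).2.2 x).symm)

section prj
variable {F : Fr I M ι} {A : ι → M → V →L[ℝ] V} {K Ω : Set M} {𝒲 : Set (M → V)}
  {π : M → V →L[ℝ] V}

/-- images of test sections of `π` are approximable if the images of the words are -/
theorem Prj.loc (h : Prj K Ω F A 𝒲 π) (hΩ : IsOpen Ω) (hT : Sm I T)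
    (hw : ∀ g, Tf I Ω g → ∀ w ∈ 𝒲, (fun x => g x • T x (w x)) ∈ Ap F' k 𝒯') {f : M → ℝ}
    (hf : Tf I Ω f) {a : M → V} (ha : Sm I a) :
    (fun x => f x • T x (π x (a x))) ∈ Ap F' k 𝒯' := by
  have hs := (tsupport_smul_subset_left f fun x => π x (a x)).trans hf.sub
  simpa only [map_smul] using Ap.loc (F' := F') (𝒯' := 𝒯') hT hΩ (by
    rintro g hg _ ⟨f', hf', w, h1, rfl⟩ -
    simpa only [map_smul, smul_smul] using hw _ (hf'.mul hg.sm) w h1)
    (h.ap k _ (smul_mem_tst hf.sm hf.hcs (h.sm.clm_apply ha)) hs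
      fun x => by rw [map_smul, h.idem]) hs

lemma Prj.ne_zero' (h : Prj K Ω F A 𝒲 π) {C : Set M} (hC : IsPreconnected C) {w : M → V}
    (hw : w ∈ 𝒲) {x y : M} (hy : y ∈ C) (hK : y ∈ K) (h0 : w y ≠ 0) (hx : x ∈ C) : π x ≠ 0 :=
  fun e => h0 (by
    rw [← h.fix w hw y hK, zero_const h.sm.continuous h.idem hC hx hy e, zero_apply])

end prj

end Crest.Agent.X212.Wrd81
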