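import Crest.Agent.X212.Wrd81.L2

/-!
# X212 / WORDS, part 6 (helper81): the closed span of a family of words which is stable under the
resolvent is the space of sections of a smooth parallel subbundle.
-/

set_option autoImplicit false
set_option linter.unusedSectionVars false
noncomputable section
open scoped Manifold ContDiff Topology InnerProductSpace
open MeasureTheory Set Function Filter

namespace Crest.Agent.X212.Wrd81
open Crest.Agent.X212.An

variable {E : Type} [NormedAddCommGroup E] [NormedSpace ℝ E] [FiniteDimensional ℝ E]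
  [MeasurableSpace E] [BorelSpace E]
  {HM : Type} [TopologicalSpace HM] {I : ModelWithCorners ℝ E HM}
  {M : Type} [TopologicalSpace M] [ChartedSpace HM M] [IsManifold I ∞ M]
  [MeasurableSpace M] [T2Space M] [BorelSpace M] [SecondCountableTopology M]
  {ι : Type} [Fintype ι]
  {V : Type} [NormedAddCommGroup V] [InnerProductSpace ℝ V] [FiniteDimensional ℝ V]
  {H : Type} [NormedAddCommGroup H] [InnerProductSpace ℝ H] [CompleteSpace H]

variable (I) in
/-- test functions supported in `Ω` -/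
structure Tf (Ω : Set M) (f : M → ℝ) : Prop where
  sm : Sm I f
  hcs : HasCompactSupport f
  sub : tsupport f ⊆ Ω

lemma Tf.mul {Ω : Set M} {f g : M → ℝ} (hf : Tf I Ω f) (hg : Sm I g) :
    Tf I Ω fun x => g x * f x :=
  ⟨hg.mul hf.sm, hf.hcs.mul_left, tsupport_mul_subset_right.trans hf.sub⟩

lemma Tf.mono {Ω Ω' : Set M} {f : M → ℝ} (hf : Tf I Ω f) (h : Ω ⊆ Ω') : Tf I Ω' f :=
  ⟨hf.sm, hf.hcs, hf.sub.trans h⟩

lemma exists_tf {O : Set M} {x : M} (hO : O ∈ 𝓝 x) : ∃ f : M → ℝ, Tf I O f ∧ f x = 1 :=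
  let ⟨f, h1, h2, h3, h4⟩ := exists_bump (I := I) hO
  ⟨f, ⟨h1, h2, h3⟩, h4.eq_of_nhds⟩

/-- fields which agree on test sections agree -/
lemma field_ext {N : Type} [NormedAddCommGroup N] [NormedSpace ℝ N] {S T : V →L[ℝ] N} {x : M}
    {O : Set M} (hO : O ∈ 𝓝 x)
    (h : ∀ u ∈ Tst I M V, tsupport u ⊆ O → S (u x) = T (u x)) : S = T := by
  obtain ⟨f, hf, h1⟩ := exists_tf (I := I) hO
  ext v
  simpa [h1] using h _ (smul_mem_tst hf.sm hf.hcs (contMDiff_const (c := v)))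
    ((tsupport_smul_subset_left _ _).trans hf.sub)

/-- the rank of a continuous field of idempotents is locally constant -/
lemma rank_const {X : Type*} [TopologicalSpace X] {π : X → V →L[ℝ] V} (hc : Continuous π)
    (hπ : ∀ x v, π x (π x v) = π x v) {K : Set X} (hK : IsPreconnected K) {x y : X} (hx : x ∈ K)
    (hy : y ∈ K) : Module.finrank ℝ (π x).range = Module.finrank ℝ (π y).range := by
  have ht : ∀ x, LinearMap.trace ℝ V (π x) = Module.finrank ℝ (π x).range := fun x =>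
    LinearMap.IsProj.trace ⟨fun v => ⟨v, rfl⟩, by rintro _ ⟨v, rfl⟩; exact hπ x v⟩
  let t : (V →L[ℝ] V) →L[ℝ] ℝ :=
    LinearMap.toContinuousLinearMap (LinearMap.trace ℝ V ∘ₗ ContinuousLinearMap.coeLM ℝ)
  have hd : IsDiscrete (range ((↑) : ℕ → ℝ)) :=
    Nat.isClosedEmbedding_coe_real.isEmbedding.isInducing.isDiscrete_range
  have := hK.constant_of_mapsTo hd (f := fun x => t (π x)) (t.continuous.comp hc).continuousOn
    (fun x _ => ⟨_, (ht x).symm⟩) hx hy
  exact_mod_cast (ht x).symm.trans (this.trans (ht y))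

lemma zero_const {X : Type*} [TopologicalSpace X] {π : X → V →L[ℝ] V} (hc : Continuous π)
    (hπ : ∀ x v, π x (π x v) = π x v) {K : Set X} (hK : IsPreconnected K) {x y : X} (hx : x ∈ K)
    (hy : y ∈ K) (h : π x = 0) : π y = 0 := by
  have := rank_const hc hπ hK hx hy
  rw [h, ContinuousLinearMap.toLinearMap_zero, LinearMap.range_zero, finrank_bot, eq_comm,
    Submodule.finrank_eq_zero, LinearMap.range_eq_bot] at this
  exact ContinuousLinearMap.coe_injective this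

/-- transposition as a continuous linear map -/
def trL : (V →L[ℝ] V) →L[ℝ] V →L[ℝ] V := LinearMap.toContinuousLinearMap
  { toFun := Op.tr
    map_add' := fun S T => by ext; simp [Op.tr]
    map_smul' := fun c T => by ext; simp [Op.tr] }

lemma inner_trL (T : V →L[ℝ] V) (v w : V) : ⟪T v, w⟫_ℝ = ⟪v, trL T w⟫_ℝ :=
  (LinearMap.adjoint_inner_right (T : V →ₗ[ℝ] V) v w).symm

lemma sm_trL {T : M → V →L[ℝ] V} (hT : Sm I T) : Sm I fun x => trL (T x) :=
  trL.contMDiff.comp hT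

namespace L2D
variable {μ : Measure M} [IsFiniteMeasureOnCompacts μ] (r : L2D I μ V H)

/-- multiplication by `g • T`, `g` a test function -/
def mg {g : M → ℝ} (hg : Tf I univ g) {T : M → V →L[ℝ] V} (hT : Sm I T) : H →L[ℝ] H :=
  (r.exists_mul_of_hcs (sm_smul hg.sm hT) hg.hcs.smul_right).choose

variable {g : M → ℝ} (hg : Tf I univ g) {T : M → V →L[ℝ] V} (hT : Sm I T)

lemma mg_j (u : Tst I M V) : r.mg hg hT (r.j u) = r.j (tstMul (sm_smul hg.sm hT) u) :=
  (r.exists_mul_of_hcs (sm_smul hg.sm hT) hg.hcs.smul_right).choose_spec u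

lemma mg_adj {T' : M → V →L[ℝ] V} (hT' : Sm I T') (ht : ∀ x v w, ⟪T x v, w⟫_ℝ = ⟪v, T' x w⟫_ℝ)
    (x y : H) : ⟪r.mg hg hT x, y⟫_ℝ = ⟪x, r.mg hg hT' y⟫_ℝ :=
  mul_adj (fun x v w => by simp [real_inner_smul_left, real_inner_smul_right, ht])
    (r.mg_j hg hT) (r.mg_j hg hT') x y

variable {r} in
lemma Rp.mg {x : H} {u : M → V} (hx : r.Rp x u) :
    r.Rp (r.mg hg hT x) fun y => g y • T y (u y) :=
  hx.mul (hT' := sm_smul hg.sm (sm_trL hT))
    (fun x v w => by simp [real_inner_smul_left, real_inner_smul_right, inner_trL])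
    (r.mg_j hg hT) (r.mg_j hg (sm_trL hT))

lemma j_inj [μ.IsOpenPosMeasure] : Injective r.j := fun u v h =>
  Subtype.ext ((r.rp_j u).eq (h ▸ r.rp_j v) u.2.1 v.2.1)

end L2D

lemma sm_one : Sm I fun _ : M => (1 : V →L[ℝ] V) := contMDiff_const

variable (V H) in
/-- resolvent data on `L²` -/
structure RsD (F : Fr I M ι) (A : ι → M → V →L[ℝ] V) extends L2D I F.μ V H where
  G : H →L[ℝ] H
  symm : ∀ x y, ⟪G x, y⟫_ℝ = ⟪x, G y⟫_ℝ
  hG : ∀ u v : Tst I M V, v.1 = lap1 F A u.1 → G (j v) = j u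
  reg : ∀ x, (∀ k : ℕ, ∃ w, x = (G ^ k) w) → ∃ u, Sm I u ∧ toL2D.Rp x u

namespace RsD
variable {F : Fr I M ι} {A : ι → M → V →L[ℝ] V} (r : RsD V H F A) (hA : ∀ a, Sm I (A a))

/-- `1 + ∇^*∇` on test functions -/
def lapT (F : Fr I M ι) (hA : ∀ a, Sm I (A a)) (u : Tst I M V) : Tst I M V :=
  ⟨lap1 F A u.1, mem_tst (sm_lap1 F hA u.2.1) (hcs_lap1 F A u.2.2.1)⟩

lemma G_lap (u : Tst I M V) : r.G (r.j (lapT F hA u)) = r.j u := r.hG _ _ rfl

include hA in
lemma G_inj : Injective r.G := (injective_iff_map_eq_zero _).2 fun x hx =>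
  r.ext fun φ => by rw [← r.G_lap hA, r.symm, hx, inner_zero_right, inner_zero_right]

/-- `H^∞` -/
def Inf (x : H) : Prop := ∀ k : ℕ, ∃ w, x = (r.G ^ k) w

include hA in
lemma inf_j (u : Tst I M V) : r.Inf (r.j u) := by
  intro k
  suffices ∃ v, r.j u = (r.G ^ k) (r.j v) from let ⟨v, hv⟩ := this; ⟨_, hv⟩
  induction k with
  | zero => exact ⟨u, rfl⟩
  | succ k ih =>
    obtain ⟨v, hv⟩ := ih
    exact ⟨lapT F hA v, by rw [pow_succ, mul_apply_eq_comp, r.G_lap, hv]⟩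

variable {r} in
lemma Inf.map {x : H} (hx : r.Inf x) {P : H →L[ℝ] H} (hP : ∀ x, P (r.G x) = r.G (P x)) :
    r.Inf (P x) := fun k => by
  obtain ⟨w, rfl⟩ := hx k
  refine ⟨P w, ?_⟩
  clear hx
  induction k with
  | zero => rfl
  | succ k ih => rw [pow_succ', mul_apply_eq_comp, mul_apply_eq_comp, hP, ih]

variable {r} in
lemma Inf.G {x : H} (hx : r.Inf x) : r.Inf (r.G x) := hx.map fun _ => rfl

variable [F.μ.IsOpenPosMeasure]

include hA in
/-- a bounded operator which commutes with the resolvent and with the test functions supported in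
a dense open set is a smooth parallel field of endomorphisms -/
theorem exists_field (hPA : ∀ a x, ∑ b, F.P a b x • A b x = A a x) {Ω : Set M} (hΩ : IsOpen Ω)
    (hd : Dense Ω) {P : H →L[ℝ] H} (hP : ∀ x, P (r.G x) = r.G (P x))
    (hm : ∀ g (hg : Tf I univ g), tsupport g ⊆ Ω →
      ∀ x, P (r.mg hg sm_one x) = r.mg hg sm_one (P x)) :
    ∃ (π : M → V →L[ℝ] V) (hπ : Sm I π), (∀ u, P (r.j u) = r.j (L2D.tstMul hπ u)) ∧
      ∀ a x, F.D a π x = π x * A a x - A a x * π x := by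
  choose Q hQ hR using fun u : Tst I M V => r.reg _ ((r.inf_j hA u).map hP)
  have hf : ∀ g, Tf I Ω g → ∀ u v : Tst I M V, (v.1 = fun x => g x • u.1 x) →
      Q v = fun x => g x • Q u x := by
    intro g hg u v hv
    have h1 := (hR u).mg (hg.mono (subset_univ _)) sm_one
    rw [← hm _ _ hg.sub, L2D.mg_j] at h1
    have e : L2D.tstMul (sm_smul hg.sm sm_one) u = v := Subtype.ext hv.symm
    rw [e] at h1
    exact (hR v).eq h1 (hQ v) (sm_smul hg.sm (hQ u))
  have hQ0 : Q 0 = 0 := (hR 0).eq (by simpa using r.rp_j 0) (hQ 0) contMDiff_const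
  have hc : ∀ u : Tst I M V, HasCompactSupport (Q u) := by
    intro u
    refine HasCompactSupport.intro u.2.2.1 fun x hx => ?_
    have hO : IsOpen (tsupport u.1)ᶜ := (isClosed_tsupport _).isOpen_compl
    refine (show EqOn (Q u) (fun _ => 0) (closure ((tsupport u.1)ᶜ ∩ Ω)) from
      EqOn.closure (fun y hy => ?_) (hQ u).continuous continuous_const)
      (hd.open_subset_closure_inter hO hx)
    obtain ⟨g, hg, h1⟩ := exists_tf (I := I) ((hO.inter hΩ).mem_nhds hy)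
    have h2 := congrFun (hf g (hg.mono inter_subset_right) u 0 (funext fun z => by
      by_cases hz : z ∈ tsupport u.1
      · have : g z = 0 := image_eq_zero_of_notMem_tsupport fun h => (hg.sub h).1 hz
        simp [this]
      · simp [image_eq_zero_of_notMem_tsupport hz])) y
    rw [hQ0, h1, one_smul] at h2
    exact h2.symm
  have hj : ∀ u, r.j ⟨Q u, mem_tst (hQ u) (hc u)⟩ = P (r.j u) := fun u =>
    (r.rp_j _).unique (hR u)
  let Q' : Tst I M V →ₗ[ℝ] Tst I M V :=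
    { toFun := fun u => ⟨Q u, mem_tst (hQ u) (hc u)⟩
      map_add' := fun u v => r.j_inj (by rw [map_add, hj, hj, hj, map_add, map_add])
      map_smul' := fun c u => r.j_inj (by
        rw [map_smul, hj, hj, map_smul, map_smul, RingHom.id_apply]) }
  have hj' : ∀ u, r.j (Q' u) = P (r.j u) := hj
  obtain ⟨π, hπ, h1, -, -⟩ := exists_tensor (adm_sec (triv M V)) contMDiff_const (fun _ _ => rfl)
    (Q := Q') fun f hf' => commF_all (adm_sec _) hΩ hd
      (fun g h1 h2 h3 u v hv => hf g ⟨h1, h2, h3⟩ u v hv) hf'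
  have h2 : ∀ u, Q' u = L2D.tstMul hπ u := fun u => Subtype.ext (funext (h1 u))
  refine ⟨π, hπ, fun u => by rw [← hj', h2], parallel_of_comm F hA hPA (p := triv M V)
    contMDiff_const (fun _ _ => rfl) (fun a x => ?_) hπ (fun _ _ => rfl) fun u hu x => ?_⟩
  · rw [Pre.D, Sob92.dv_const]
    exact (sub_self _).symm
  · have h3 : Q' (lapT F hA ⟨u, hu⟩) = lapT F hA (Q' ⟨u, hu⟩) :=
      r.j_inj (r.G_inj hA (by rw [r.G_lap, hj', hj', ← hP, r.G_lap]))
    rw [h2, h2] at h3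
    exact congrFun (congrArg Subtype.val h3) x

/-- a family of words supported in `Ω` -/
structure Wds (Ω : Set M) (𝒲 : Set (M → V)) : Prop where
  op : IsOpen Ω
  null : F.μ Ωᶜ = 0
  sm : ∀ w ∈ 𝒲, Sm I w
  G : ∀ f, Tf I Ω f → ∀ w ∈ 𝒲, ∀ x, r.Rp x (fun y => f y • w y) →
    ∃ w' ∈ Submodule.span ℝ 𝒲, r.Rp (r.G x) w'

/-- the closed span of the words -/
def Sp (Ω : Set M) (𝒲 : Set (M → V)) : Submodule ℝ H :=
  cl {x | ∃ f, Tf I Ω f ∧ ∃ w ∈ 𝒲, r.Rp x fun y => f y • w y}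

instance (Ω : Set M) (𝒲 : Set (M → V)) : (r.Sp Ω 𝒲).HasOrthogonalProjection :=
  inferInstanceAs (cl _).HasOrthogonalProjection

variable {r} {Ω : Set M} {𝒲 : Set (M → V)} (h : r.Wds Ω 𝒲)
include h

lemma Wds.dense : Dense Ω := F.μ.dense_of_ae h.null

lemma Wds.sm_span {w : M → V} (hw : w ∈ Submodule.span ℝ 𝒲) : Sm I w := by
  induction hw using Submodule.span_induction with
  | mem w hw => exact h.sm w hw
  | zero => exact contMDiff_const
  | add u v _ _ hu hv => exact hu.add hv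
  | smul c u _ hu => exact sm_smul (f := fun _ => c) contMDiff_const hu

lemma Wds.mem_span {w : M → V} (hw : w ∈ Submodule.span ℝ 𝒲) {f : M → ℝ} (hf : Tf I Ω f)
    {x : H} (hx : r.Rp x fun y => f y • w y) : x ∈ r.Sp Ω 𝒲 := by
  induction hw using Submodule.span_induction generalizing x with
  | mem w hw => exact mem_cl ⟨f, hf, w, hw, hx⟩
  | zero =>
    rw [hx.unique (y := 0) (fun φ => by simp)]
    exact zero_mem _
  | add u v hu hv iu iv =>
    have h1 := r.rp_j ⟨_, smul_mem_tst hf.sm hf.hcs (h.sm_span hu)⟩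
    have h2 := r.rp_j ⟨_, smul_mem_tst hf.sm hf.hcs (h.sm_span hv)⟩
    have h3 := h1.add h2 (sm_smul hf.sm (h.sm_span hu)) (sm_smul hf.sm (h.sm_span hv))
    rw [hx.unique (y := _ + _) (by convert h3 using 1; funext y; simp)]
    exact add_mem (iu h1) (iv h2)
  | smul c u hu iu =>
    have h1 := r.rp_j ⟨_, smul_mem_tst hf.sm hf.hcs (h.sm_span hu)⟩
    rw [hx.unique (y := c • _) (by convert h1.smul c using 1; funext y; simp [smul_comm c])]
    exact Submodule.smul_mem _ c (iu h1)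

lemma Wds.mg_mem {g : M → ℝ} (hg : Tf I univ g) {T : M → V →L[ℝ] V} (hT : Sm I T)
    (hw : ∀ w ∈ 𝒲, (fun y => T y (w y)) ∈ Submodule.span ℝ 𝒲) {x : H} (hx : x ∈ r.Sp Ω 𝒲) :
    r.mg hg hT x ∈ r.Sp Ω 𝒲 := by
  refine map_cl (isClosed_cl _) _ ?_ hx
  rintro x ⟨f, hf, w, hw', hx⟩
  refine h.mem_span (hw w hw') (hf.mul hg.sm) ?_
  simpa [mul_smul] using hx.mg hg hT

lemma Wds.mg_comm {g : M → ℝ} (hg : Tf I univ g) (x : H) :
    (r.Sp Ω 𝒲).starProjection (r.mg hg sm_one x) =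
      r.mg hg sm_one ((r.Sp Ω 𝒲).starProjection x) :=
  proj_comm _ _ _ (r.mg_adj hg sm_one sm_one fun _ _ _ => rfl)
    (fun _ => h.mg_mem hg sm_one fun _ hw => Submodule.subset_span hw)
    (fun _ => h.mg_mem hg sm_one fun _ hw => Submodule.subset_span hw) x

/-- an element all of whose localisations to `Ω` lie in the span lies in the span -/
lemma Wds.mem_of_loc {y : H}
    (hy : ∀ g (hg : Tf I univ g), tsupport g ⊆ Ω → r.mg hg sm_one y ∈ r.Sp Ω 𝒲) :
    y ∈ r.Sp Ω 𝒲 := by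
  rw [← Submodule.starProjection_eq_self_iff, eq_comm, ← sub_eq_zero]
  refine r.eq_zero_of_orth h.op h.null fun φ hφ => ?_
  obtain ⟨g, h1, h2, h3, h4⟩ := exists_cut (I := I) φ.2.2.1 h.op hφ
  have hg : Tf I univ g := ⟨h1, h2, subset_univ _⟩
  have e : r.mg hg sm_one (r.j φ) = r.j φ := by
    rw [L2D.mg_j]
    congr 1
    refine Subtype.ext (funext fun z => ?_)
    change g z • φ.1 z = φ.1 z
    by_cases hz : z ∈ tsupport φ.1
    · rw [h4 z hz, one_smul]
    · simp [image_eq_zero_of_notMem_tsupport hz]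
  rw [← e, r.mg_adj hg sm_one sm_one fun _ _ _ => rfl, map_sub, ← h.mg_comm,
    Submodule.starProjection_eq_self_iff.2 (hy g hg h3), sub_self, inner_zero_right]

lemma Wds.mem_of_rp {w : M → V} (hw : w ∈ Submodule.span ℝ 𝒲) {y : H} (hy : r.Rp y w) :
    y ∈ r.Sp Ω 𝒲 :=
  h.mem_of_loc fun _ hg hs => h.mem_span hw ⟨hg.sm, hg.hcs, hs⟩ (hy.mg hg sm_one)

lemma Wds.G_mem {x : H} (hx : x ∈ r.Sp Ω 𝒲) : r.G x ∈ r.Sp Ω 𝒲 := by
  refine map_cl (isClosed_cl _) _ ?_ hx
  rintro x ⟨f, hf, w, hw, hx⟩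
  obtain ⟨w', h1, h2⟩ := h.G f hf w hw x hx
  exact h.mem_of_rp h1 h2

end RsD

/-- the parallel projector of a family of words -/
structure IsPrj (F : Fr I M ι) (A : ι → M → V →L[ℝ] V) (Ω : Set M) (𝒲 : Set (M → V))
    (π : M → V →L[ℝ] V) : Prop where
  sm : Sm I π
  symm : ∀ x v w, ⟪π x v, w⟫_ℝ = ⟪v, π x w⟫_ℝ
  idem : ∀ x v, π x (π x v) = π x v
  par : ∀ a x, F.D a π x = π x * A a x - A a x * π x
  fix : ∀ w ∈ 𝒲, ∀ x, π x (w x) = w x
  comm : ∀ T T' : M → V →L[ℝ] V, Sm I T → Sm I T' → (∀ x v w, ⟪T x v, w⟫_ℝ = ⟪v, T' x w⟫_ℝ) →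
    (∀ w ∈ 𝒲, (fun y => T y (w y)) ∈ Submodule.span ℝ 𝒲) →
    (∀ w ∈ 𝒲, (fun y => T' y (w y)) ∈ Submodule.span ℝ 𝒲) → ∀ x, π x * T x = T x * π x
  orth : ∀ η : M → V, Sm I η → ∀ O : Set M, IsOpen O →
    (∀ w ∈ 𝒲, ∀ x ∈ O ∩ Ω, ⟪η x, w x⟫_ℝ = 0) → ∀ x ∈ O, π x (η x) = 0

/-- **Density of words.** -/
theorem RsD.Wds.exists_prj {F : Fr I M ι} {A : ι → M → V →L[ℝ] V} {r : RsD V H F A}
    [F.μ.IsOpenPosMeasure] {Ω : Set M} {𝒲 : Set (M → V)} (h : r.Wds Ω 𝒲) (hA : ∀ a, Sm I (A a))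
    (hPA : ∀ a x, ∑ b, F.P a b x • A b x = A a x) :
    ∃ (π : M → V →L[ℝ] V) (hπ : IsPrj F A Ω 𝒲 π),
      ∀ u, (r.Sp Ω 𝒲).starProjection (r.j u) = r.j (L2D.tstMul hπ.sm u) := by
  set P := (r.Sp Ω 𝒲).starProjection with hP
  obtain ⟨π, hπ, h1, h2⟩ := r.exists_field hA hPA h.op h.dense (P := P)
    (proj_comm _ _ _ r.symm (fun _ => h.G_mem) fun _ => h.G_mem) fun g hg _ => h.mg_comm hg
  have ev : ∀ {u v : Tst I M V}, r.j u = r.j v → ∀ x, u.1 x = v.1 x := fun e x =>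
    congrFun (congrArg Subtype.val (r.j_inj e)) x
  have dn : ∀ {N : Type} [NormedAddCommGroup N] {a b : M → N}, Continuous a → Continuous b →
      ∀ {O : Set M}, IsOpen O → (∀ x ∈ O ∩ Ω, a x = b x) → ∀ x ∈ O, a x = b x :=
    fun ha hb O hO e x hx => EqOn.closure e ha hb (h.dense.open_subset_closure_inter hO hx)
  refine ⟨π, ⟨hπ, fun x v w => ?_, fun x v => ?_, h2, fun w hw x => ?_,
    fun T T' hT hT' ht a1 a2 x => ?_, fun η hη O hO ho => ?_⟩, h1⟩
  · have : π x = trL (π x) := field_ext (I := I) univ_mem fun u hu _ => by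
      refine ev (u := L2D.tstMul hπ ⟨u, hu⟩) (v := L2D.tstMul (sm_trL hπ) ⟨u, hu⟩)
        (r.ext fun φ => ?_) x
      rw [← h1, ← Submodule.inner_starProjection_left_eq_right, h1, r.inner_j, r.inner_j]
      exact integral_congr_ae (Eventually.of_forall fun y => inner_trL _ _ _)
    rw [inner_trL, ← this]
  · have : π x ∘L π x = π x := field_ext (I := I) univ_mem fun u hu _ =>
      ev (u := L2D.tstMul hπ (L2D.tstMul hπ ⟨u, hu⟩)) (v := L2D.tstMul hπ ⟨u, hu⟩) (by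
        rw [← h1, ← h1]
        exact Submodule.starProjection_eq_self_iff.2 (Submodule.starProjection_apply_mem _ _)) x
    exact congrArg (· v) this
  · refine dn (hπ.clm_apply (h.sm w hw)).continuous (h.sm w hw).continuous isOpen_univ
      (fun y hy => ?_) x (mem_univ x)
    obtain ⟨f, hf, f1⟩ := exists_tf (I := I) (h.op.mem_nhds hy.2)
    let u : Tst I M V := ⟨_, smul_mem_tst hf.sm hf.hcs (h.sm w hw)⟩
    have := ev (u := L2D.tstMul hπ u) (v := u) (by
      rw [← h1]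
      exact Submodule.starProjection_eq_self_iff.2 (mem_cl ⟨f, hf, w, hw, r.rp_j u⟩)) y
    simpa [u, L2D.tstMul, f1] using this
  · obtain ⟨g, hg, g1⟩ := exists_tf (I := I) (univ_mem : univ ∈ 𝓝 x)
    refine field_ext (I := I) (x := x) univ_mem fun u hu _ => ?_
    have := proj_comm _ _ _ (r.mg_adj hg hT hT' ht) (fun _ => h.mg_mem hg hT a1)
      (fun _ => h.mg_mem hg hT' a2) (r.j ⟨u, hu⟩)
    rw [← hP, h1, L2D.mg_j, L2D.mg_j, h1] at this
    simpa [L2D.tstMul, g1] using ev this x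
  · refine dn (hπ.clm_apply hη).continuous continuous_const hO fun y hy => ?_
    obtain ⟨g, hg, g1⟩ := exists_tf (I := I) ((hO.inter h.op).mem_nhds hy)
    let u : Tst I M V := ⟨_, smul_mem_tst hg.sm hg.hcs hη⟩
    have h3 : r.Sp Ω 𝒲 ≤ (ℝ ∙ r.j u)ᗮ := by
      refine cl_le (Submodule.isClosed_orthogonal _) ?_
      rintro z ⟨f, hf, w, hw, hz⟩
      rw [SetLike.mem_coe, Submodule.mem_orthogonal_singleton_iff_inner_right, hz]
      refine integral_eq_zero_of_ae (Eventually.of_forall fun t => ?_)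
      change ⟪g t • η t, f t • w t⟫_ℝ = 0
      by_cases ht : t ∈ tsupport g
      · simp [real_inner_smul_left, real_inner_smul_right, ho w hw t (hg.sub ht)]
      · simp [image_eq_zero_of_notMem_tsupport ht]
    have h4 : P (r.j u) = r.j 0 := by
      rw [map_zero, hP, Submodule.starProjection_apply_eq_zero_iff, Submodule.mem_orthogonal']
      exact fun z hz => Submodule.mem_orthogonal_singleton_iff_inner_right.1 (h3 hz)
    rw [h1] at h4
    simpa [u, L2D.tstMul, g1] using ev h4 y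

namespace IsPrj
variable {F : Fr I M ι} {A : ι → M → V →L[ℝ] V} {Ω : Set M} {𝒲 : Set (M → V)}
  {π : M → V →L[ℝ] V} (h : IsPrj F A Ω 𝒲 π)
include h

/-- minimality -/
lemma le {q : M → V →L[ℝ] V} (hq : Sm I q) (hs : ∀ x v w, ⟪q x v, w⟫_ℝ = ⟪v, q x w⟫_ℝ)
    (hw : ∀ w ∈ 𝒲, ∀ x, q x (w x) = w x) (x : M) (v : V) :
    π x (q x v) = π x v ∧ q x (π x v) = π x v := by
  have h1 : ∀ v, π x (q x v) = π x v := fun v => by
    have := h.orth (fun y => q y v - v) ((hq.clm_apply contMDiff_const).sub contMDiff_const) univ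
      isOpen_univ (fun w hw' y _ => by rw [inner_sub_left, hs, hw w hw', sub_self]) x (mem_univ x)
    rwa [map_sub, sub_eq_zero] at this
  exact ⟨h1 v, ext_inner_right ℝ fun w => by rw [hs, h.symm, h1, h.symm]⟩

/-- bilinear form of the density -/
lemma orth₂ (hsm : ∀ w ∈ 𝒲, Sm I w) {ζ : M → V →L[ℝ] V} (hζ : Sm I ζ) {O : Set M} (hO : IsOpen O)
    (ho : ∀ u ∈ 𝒲, ∀ v ∈ 𝒲, ∀ x ∈ O ∩ Ω, ⟪ζ x (u x), v x⟫_ℝ = 0) {x : M} (hx : x ∈ O) (b : V) :
    π x (ζ x (π x b)) = 0 := by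
  refine ext_inner_right ℝ fun c => ?_
  have := h.orth (fun y => trL (ζ y) (π y c)) ((sm_trL hζ).clm_apply
    (h.sm.clm_apply contMDiff_const)) O hO (fun u hu y hy => by
      rw [real_inner_comm, ← inner_trL, ← h.symm,
        h.orth _ (hζ.clm_apply (hsm u hu)) O hO (ho u hu) y hy.1, inner_zero_left]) x hx
  rw [h.symm, inner_trL, h.symm, this, inner_zero_right, inner_zero_left]

/-- if the projector vanishes at a point, the words vanish on its component -/
lemma zero_of {K : Set M} (hK : IsPreconnected K) {x y : M} (hx : x ∈ K) (hy : y ∈ K)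
    (h0 : π x = 0) {w : M → V} (hw : w ∈ 𝒲) : w y = 0 := by
  rw [← h.fix w hw, zero_const h.sm.continuous h.idem hK hx hy h0, zero_apply]

end IsPrj

end Crest.Agent.X212.Wrd81
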