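import Crest.Agent.X212.Wrd81.Dens
import Crest.Agent.X212.Sob92.Ev
import Crest.Agent.X212.Mp86.Res
import Crest.Agent.X212.Cht98.Br
import Crest.Agent.X212.Mon62.Abs

/-!
# X212 / WORDS, part 7 (helper81): the resolvent on the Sobolev scale, its identification with
`Fr.res`, and the density of words in every `H k`.
-/

set_option autoImplicit false
set_option linter.unusedSectionVars false
noncomputable section
open scoped Manifold ContDiff Topology InnerProductSpace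
open MeasureTheory Set Function Filter

namespace Crest.Agent.X212.Wrd81
open An Sob92

variable {E : Type} [NormedAddCommGroup E] [NormedSpace ℝ E] [FiniteDimensional ℝ E]
  [MeasurableSpace E] [BorelSpace E]
  {HM : Type} [TopologicalSpace HM] {I : ModelWithCorners ℝ E HM} [I.Boundaryless]
  {M : Type} [TopologicalSpace M] [ChartedSpace HM M] [IsManifold I ∞ M]
  [MeasurableSpace M] [T2Space M] [BorelSpace M] [SecondCountableTopology M]
  {ι : Type} [Fintype ι]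
  {V : Type} [NormedAddCommGroup V] [InnerProductSpace ℝ V] [FiniteDimensional ℝ V]

instance (F : Pre I M ι) : F.μ.IsOpenPosMeasure := Cht98.openPos F

lemma lap1_eq (F : Fr I M ι) (A : ι → M → V →L[ℝ] V) (u : M → V) :
    lap1 F A u = fun x => u x + Wz78.lap I F.e F.dv A u x := funext fun _ => sub_eq_add_neg _ _

/-- `1 + ∇^*∇ : H (j + 2) → H j` is bijective for all `j` -/
def Ell (F : Fr I M ι) (A : ι → M → V →L[ℝ] V) : Prop :=
  ∀ j, ∃ Q : F.H (j + 2) (triv M V) →L[ℝ] F.H j (triv M V),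
    F.Rep Q (fun u x => u x + Wz78.lap I F.e F.dv A u x) ∧ Bijective Q

/-- the hypotheses of the theory of the resolvent -/
structure RH (F : Fr I M ι) (A : ι → M → V →L[ℝ] V) : Prop where
  sup : ∃ S, Sup F.toPre S
  bmp : Mp86.Bumps I F.e F.dv
  mc : Mp86.Mc I A
  proj : ∀ a x, ∑ b, F.P a b x • A b x = A a x
  ell : Ell F A

section scale
variable (F : Fr I M ι) (A : ι → M → V →L[ℝ] V)

/-- `1 + ∇^*∇` on the scale -/
def QH (j : ℕ) : F.H (j + 2) (triv M V) →L[ℝ] F.H j (triv M V) :=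
  F.lift (j + 2) j _ _ (lap1 F A)

/-- the resolvent on the scale -/
def GH (j : ℕ) : F.H j (triv M V) →L[ℝ] F.H (j + 2) (triv M V) := (QH F A j).inverse

variable {F A} (h : Ell F A)
include h

lemma Ell.spec (j : ℕ) : F.Rep (QH F A j) (lap1 F A) ∧ Bijective (QH F A j) := by
  obtain ⟨Q, h1, h2⟩ := h j
  have h3 : F.Rep Q (lap1 F A) := RepT_congr h1 fun u => (lap1_eq F A u.1).symm
  rw [QH, Pre.lift, h3.liftT_eq]
  exact ⟨h3, h2⟩

lemma Ell.Q_G (j : ℕ) (y : F.H j (triv M V)) : QH F A j (GH F A j y) = y :=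
  Mon62.apply_inverse (Mon62.isInvertible_of_bij (h.spec j).2) y

lemma Ell.G_Q (j : ℕ) (y : F.H (j + 2) (triv M V)) : GH F A j (QH F A j y) = y :=
  Mon62.inverse_apply (Mon62.isInvertible_of_bij (h.spec j).2) y

lemma Ell.incl_G {j k : ℕ} (hj : j ≤ k) (y : F.H k (triv M V)) :
    F.incl (k + 2) (j + 2) _ (GH F A k y) = GH F A j (F.incl k j _ y) :=
  (h.spec j).2.1 (by rw [← Rep_incl (h.spec k).1 (h.spec j).1 (by omega) hj, h.Q_G, h.Q_G])

end scale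

variable {F : Fr I M ι} {A : ι → M → V →L[ℝ] V}

variable (V) in
/-- `H 0` as an `L²` space -/
def l2d (F : Pre I M ι) : L2D I F.μ V (F.H 0 (triv M V)) :=
  ⟨F.toH 0 _, F.inner_toH 0 _, F.dense_toH 0 _⟩

lemma rp_val {F : Pre I M ι} {S : ℝ} (hS : Sup F S) {k : ℕ} (hk : 4 ≤ k) (y : F.H k (triv M V)) :
    (l2d V F).Rp (F.incl k 0 _ y) (F.val k _ y) := fun φ => by
  have := FiniteDimensional.complete ℝ V
  change ⟪F.toH 0 _ φ, _⟫_ℝ = _
  rw [← inner_toL2, toL2_incl (Nat.zero_le k), L2.inner_def]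
  refine integral_congr_ae ?_
  filter_upwards [toL2_toH (F := F) (k := 0) φ, val_ae hS hk y] with x h1 h2
  rw [h1, h2]

namespace RH
variable (h : RH F A)
include h

lemma inner_Q (u v : F.H 2 (triv M V)) :
    ⟪F.incl 2 0 _ u, QH F A 0 v⟫_ℝ = ⟪QH F A 0 u, F.incl 2 0 _ v⟫_ℝ := by
  refine H_eq₂ (f := fun u v => ⟪F.incl 2 0 _ u, QH F A 0 v⟫_ℝ)
    (g := fun u v => ⟪QH F A 0 u, F.incl 2 0 _ v⟫_ℝ) (by fun_prop) (by fun_prop) (fun u v => ?_) u v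
  simp only [incl_toH (Nat.zero_le 2), RepT_toH (h.ell.spec 0).1, Pre.inner_toH]
  exact (ibp_lap1 F h.mc.sm h.mc.sk u.2.1 u.2.2.1 v.2.1).symm

lemma G0_incl (k : ℕ) (y : F.H k (triv M V)) :
    F.incl 2 0 _ (GH F A 0 (F.incl k 0 _ y)) = F.incl (k + 2) 0 _ (GH F A k y) := by
  rw [← h.ell.incl_G (Nat.zero_le k), incl_incl (by omega) (Nat.zero_le _)]

lemma lev {x : F.H 0 (triv M V)}
    (hx : ∀ k : ℕ, ∃ w, x = ((F.incl 2 0 _ ∘L GH F A 0) ^ k) w) (k : ℕ) :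
    ∃ y, F.incl k 0 _ y = x := by
  obtain ⟨w, rfl⟩ := hx k
  have : ∀ k : ℕ, ∃ y, F.incl (2 * k) 0 _ y = ((F.incl 2 0 _ ∘L GH F A 0) ^ k) w := by
    intro k
    induction k with
    | zero => exact ⟨w, incl_self w⟩
    | succ k ih =>
      obtain ⟨y, hy⟩ := ih
      exact ⟨GH F A (2 * k) y, by
        rw [pow_succ', mul_apply_eq_comp, ← hy, ContinuousLinearMap.comp_apply, h.G0_incl]; rfl⟩
  obtain ⟨y, hy⟩ := this k
  exact ⟨F.incl (2 * k) k _ y, by rw [incl_incl (by omega) (Nat.zero_le _), hy]⟩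

lemma cb_of_lev {x : F.H 0 (triv M V)} (hx : ∀ k, ∃ y, F.incl k 0 _ y = x) :
    ∃ u, F.Cb u ∧ (l2d V F.toPre).Rp x u := by
  have := FiniteDimensional.complete ℝ V
  obtain ⟨S, hS⟩ := h.sup
  obtain ⟨y, rfl⟩ := hx 4
  refine ⟨_, Cb_val hS le_rfl fun j hj => ?_, rp_val hS le_rfl y⟩
  obtain ⟨g, hg⟩ := hx j
  exact ⟨g, incl_injective (Nat.zero_le 4) (by rw [incl_incl hj (Nat.zero_le _), hg])⟩

/-- the resolvent data -/
def rsd : RsD V (F.H 0 (triv M V)) F A where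
  toL2D := l2d V F.toPre
  G := F.incl 2 0 _ ∘L GH F A 0
  symm x y := by
    have := h.inner_Q (GH F A 0 x) (GH F A 0 y)
    rwa [h.ell.Q_G, h.ell.Q_G] at this
  hG u v hv := by
    change F.incl 2 0 _ (GH F A 0 (F.toH 0 _ v)) = F.toH 0 _ u
    rw [← RepT_toH' (h.ell.spec 0).1 u v hv.symm, h.ell.G_Q, incl_toH (Nat.zero_le _)]
  reg x hx := let ⟨u, ⟨_, h1⟩, h2⟩ := h.cb_of_lev (h.lev hx); ⟨u, h1.1, h2⟩

/-- on `H^∞` the resolvent is `Fr.res` -/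
theorem res_rp {x : F.H 0 (triv M V)} (hx : h.rsd.Inf x) {w : M → V} (hw : Sm I w)
    (hr : h.rsd.Rp x w) :
    F.IsRes A w (F.res A w) ∧ F.Cb (F.res A w) ∧ h.rsd.Rp (h.rsd.G x) (F.res A w) := by
  obtain ⟨u, ⟨C, h1⟩, h2⟩ := h.cb_of_lev (h.lev hx.G)
  have h3 : h.rsd.Rp x (lap1 F A u) := fun φ => by
    rw [← ibp_lap1 F h.mc.sm h.mc.sk φ.2.1 φ.2.2.1 h1.1]
    have := h2 (RsD.lapT F h.mc.sm φ)
    rw [← h.rsd.G_lap h.mc.sm, h.rsd.symm]
    exact this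
  have h4 : F.IsRes A w u := ⟨h1.1, ⟨C 0, CB_zero.1 (h1.2 0)⟩, fun x => by
    rw [hr.eq h3 hw (sm_lap1 F h.mc.sm h1.1), lap1_eq]⟩
  rw [Mp86.res_eq h.bmp h.mc h4]
  exact ⟨h4, ⟨C, h1⟩, h2⟩

theorem isRes_tst {w : M → V} (hw : Sm I w) (hc : HasCompactSupport w) :
    F.IsRes A w (F.res A w) ∧ F.Cb (F.res A w) ∧ F.IsRes A (F.res A w) (F.res A (F.res A w)) := by
  have h0 := h.rsd.inf_j h.mc.sm ⟨w, mem_tst hw hc⟩
  obtain ⟨h1, h2, h3⟩ := h.res_rp h0 hw (h.rsd.rp_j ⟨w, mem_tst hw hc⟩)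
  exact ⟨h1, h2, (h.res_rp h0.G h1.1 h3).1⟩

end RH

/-- a family of words closed under test functions and the resolvent -/
structure Cls (F : Fr I M ι) (A : ι → M → V →L[ℝ] V) (Ω : Set M) (𝒲 : Set (M → V)) : Prop where
  op : IsOpen Ω
  null : F.μ Ωᶜ = 0
  sm : ∀ w ∈ 𝒲, Sm I w
  mul : ∀ f, Tf I Ω f → ∀ w ∈ 𝒲, (fun x => f x • w x) ∈ 𝒲
  res : ∀ w ∈ 𝒲, F.res A w ∈ 𝒲

/-- the closed span in `H k` of the sections of `q` which belong to `𝒯` -/
def SpH (F : Pre I M ι) (k : ℕ) (q : M → V →L[ℝ] V) (𝒯 : Set (M → V)) : Submodule ℝ (F.H k q) :=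
  cl {y | ∃ v : Sec I q, v.1 ∈ 𝒯 ∧ F.toH k q v = y}

/-- the words multiplied by test functions -/
def Loc (I : ModelWithCorners ℝ E HM) (Ω : Set M) (𝒲 : Set (M → V)) : Set (M → V) :=
  {v | ∃ f, Tf I Ω f ∧ ∃ w ∈ 𝒲, v = fun x => f x • w x}

lemma smulH_zero {F : Pre I M ι} {g : M → ℝ} (hg : Tf I univ g) :
    smulH F 0 (triv M V) g = (l2d V F).mg hg sm_one :=
  Pre.clm_ext fun u => by
    rw [RepT_toH (rep_smulH (Cb_of_hcs hg.sm hg.hcs))]
    exact ((l2d V F).mg_j hg sm_one u).symm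

/-- **Density of words in every Sobolev space.** -/
theorem Cls.exists_prj {Ω : Set M} {𝒲 : Set (M → V)} (c : Cls F A Ω 𝒲) (h : RH F A) :
    ∃ π, IsPrj F A Ω 𝒲 π ∧ ∀ (k : ℕ) (u : Tst I M V), tsupport u.1 ⊆ Ω →
      (∀ x, π x (u.1 x) = u.1 x) → F.toH k _ u ∈ SpH F.toPre k _ (Loc I Ω 𝒲) := by
  set r := h.rsd
  have hi : ∀ {f w x}, Tf I Ω f → w ∈ 𝒲 → r.Rp x (fun y => f y • w y) → r.Inf x := by
    intro f w x hf hw hx
    rw [hx.unique (r.rp_j ⟨_, smul_mem_tst hf.sm hf.hcs (c.sm w hw)⟩)]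
    exact r.inf_j h.mc.sm _
  have hW : r.Wds Ω 𝒲 := ⟨c.op, c.null, c.sm, fun f hf w hw x hx =>
    ⟨_, Submodule.subset_span (c.res _ (c.mul f hf w hw)),
      (h.res_rp (hi hf hw hx) (sm_smul hf.sm (c.sm w hw)) hx).2.2⟩⟩
  obtain ⟨π, hπ, hP⟩ := hW.exists_prj h.mc.sm h.proj
  refine ⟨π, hπ, fun k u hu hπu => ?_⟩
  let D : ∀ j, Set (F.H j (triv M V)) := fun j =>
    {y | r.Inf (F.incl j 0 _ y) ∧ ∃ w ∈ 𝒲, r.Rp (F.incl j 0 _ y) w}
  have step : ∀ j, (∀ y, F.incl j 0 _ y ∈ r.Sp Ω 𝒲 → y ∈ cl (D j)) →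
      ∀ y, F.incl (j + 2) 0 _ y ∈ r.Sp Ω 𝒲 → y ∈ cl (D (j + 2)) := by
    intro j ih y hy
    have e : ∀ z, r.G (F.incl j 0 _ z) = F.incl (j + 2) 0 _ (GH F A j z) := h.G0_incl j
    rw [← h.ell.G_Q j y] at hy ⊢
    refine map_cl (isClosed_cl _) (GH F A j) ?_ (ih _ ?_)
    · rintro z ⟨h1, w, hw, h2⟩
      refine mem_cl ⟨e z ▸ h1.G, _, c.res w hw, e z ▸ (h.res_rp h1 (c.sm w hw) h2).2.2⟩
    · rw [← Submodule.starProjection_eq_self_iff] at hy ⊢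
      refine r.G_inj h.mc.sm ?_
      rw [← proj_comm _ _ _ r.symm (fun _ => hW.G_mem) fun _ => hW.G_mem, e, hy]
  have lev : ∀ j, ∀ y, F.incl (2 * j) 0 _ y ∈ r.Sp Ω 𝒲 → y ∈ cl (D (2 * j)) := by
    intro j
    induction j with
    | zero =>
      intro y hy
      rw [incl_self] at hy
      refine cl_le (isClosed_cl _) ?_ hy
      rintro x ⟨f, hf, w, hw, hx⟩
      refine mem_cl ?_
      change r.Inf (F.incl 0 0 _ x) ∧ ∃ w ∈ 𝒲, r.Rp (F.incl 0 0 _ x) w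
      rw [incl_self]
      exact ⟨hi hf hw hx, _, c.mul f hf w hw, hx⟩
    | succ j ih => exact step _ ih
  obtain ⟨g, g1, g2, g3, g4⟩ := exists_cut (I := I) u.2.2.1 c.op hu
  have hg : Tf I univ g := ⟨g1, g2, subset_univ _⟩
  have hs := fun j => rep_smulH (F := F.toPre) (k := j) (p := triv M V) (Cb_of_hcs g1 g2)
  have h3 := lev k (F.toH _ _ u) (by
    rw [incl_toH (Nat.zero_le _), ← Submodule.starProjection_eq_self_iff]
    exact (hP u).trans (congrArg _ (Subtype.ext (funext hπu))))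
  have h4 := map_cl (U := SpH F.toPre k _ (Loc I Ω 𝒲)) (isClosed_cl _)
    (smulH F.toPre k _ g ∘L F.incl (2 * k) k _) (fun y hy => ?_) h3
  · rwa [ContinuousLinearMap.comp_apply, incl_toH (by omega), RepT_toH' (hs k) u u] at h4
    funext z
    by_cases hz : z ∈ tsupport u.1
    · rw [g4 z hz, one_smul]
    · simp [image_eq_zero_of_notMem_tsupport hz]
  · obtain ⟨-, w, hw, h2⟩ := hy
    refine mem_cl ⟨⟨_, smul_mem_tst g1 g2 (c.sm w hw)⟩, ⟨g, ⟨g1, g2, g3⟩, w, hw, rfl⟩,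
      incl_injective (Nat.zero_le k) ?_⟩
    rw [incl_toH (Nat.zero_le _), ContinuousLinearMap.comp_apply,
      Rep_incl (hs k) (hs 0) (Nat.zero_le k) (Nat.zero_le k), incl_incl (by omega) (Nat.zero_le _),
      smulH_zero hg]
    exact (r.rp_j _).unique (h2.mg hg sm_one)

end Crest.Agent.X212.Wrd81
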