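import Crest.Agent.X212.Wrd81.Loc
import Crest.Agent.X212.An.CutT

/-!
# X212 / WORDS, part 30 (helper81): the cuts of a part; density with cuts.
-/

set_option autoImplicit false
set_option linter.unusedSectionVars false
noncomputable section
open scoped Manifold ContDiff Topology InnerProductSpace
open MeasureTheory Set Function Filter

namespace Crest.Agent.X212.Wrd81
open An M Nd18 Sob92 Mod61 Hol14

variable {Wi : Type} {X : Mf 4} {A κ lam : Type} [Fintype A] [Fintype κ] [Fintype lam]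
  [DecidableEq lam] {M : Mark X A κ} {W : World M} {N : ML M lam} {Λ : Lns W N} {A' h : Type}
  [Fintype A'] [DecidableEq A'] [Fintype h] {r n m : ℕ} {J : Job Wi Λ A' h r n} {c : M.Cl}
  {σ : Cel A'} {π : Reg A} {T : Type} [NormedAddCommGroup T] [NormedSpace ℝ T]
  {𝔉 : Mod61.Fam (W.Z c).I (W.Z c).M (Option κ) (lam ⊕ lam) T} {p : Prt A A' h}
  {s : T → A' → ℝ} {hh : Type} [Fintype hh] {j : hh → h}

/-- a connected neighbourhood of a cut lies in one piece -/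
theorem nb_piece {P : Set (Reg A)} (hP : ∀ π ∈ P, M.sys.Piece c.1 π) {S : Set X.M}
    (hS : IsPreconnected S) (h0 : S.Nonempty) (k : S ⊆ ⋃ π ∈ P, M.sys.U π) :
    ∃ π ∈ P, S ⊆ M.sys.U π := by
  obtain ⟨x, hx⟩ := h0
  obtain ⟨π, h1, h2⟩ := mem_iUnion₂.1 (k hx)
  refine ⟨π, h1, hS.subset_left_of_subset_union (v := ⋃ π' ∈ P \ {π}, M.sys.U π')
    (M.sys.isOpen_U π) (isOpen_biUnion fun _ _ => M.sys.isOpen_U _) ?_ (fun y hy => ?_) ⟨x, hx, h2⟩⟩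
  · rw [disjoint_iUnion₂_right]
    have := M.con
    exact fun π' h' => disjoint_left.2 fun _ a b => h'.2 ((hP π' h'.1).unique c.2 (hP π h1) b a)
  · obtain ⟨π', h3, h4⟩ := mem_iUnion₂.1 (k hy)
    by_cases e : π' = π
    exacts [.inl (e ▸ h4), .inr (mem_biUnion (show π' ∈ P \ {π} from ⟨h3, e⟩) h4)]

variable (J s j) in
/-- `Ξ` describes the cuts `j i` of the job over the parameters `s t` -/
structure LkC (Ξ : CTh 𝔉 r Wi hh) : Prop where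
  inj : Injective j
  k : ∀ i, Ξ.k i = J.cut c (j i)
  σ : ∀ i w, ∀ t ∈ 𝔉.Q, ∀ x, Ξ.σ i w t x =
    J.cc (j i) w (s t) • x.tc 𝔉.B (𝔉.G t).F (Ξ.k i) ((J.tp c).tc (J.tc (j i) w))

theorem LkC.tot {Ξ : CTh 𝔉 r Wi hh} (C : LkC J s j Ξ) (q : Wi →₀ ℝ) (i : hh) {t : T} (ht : t ∈ 𝔉.Q) :
    Ξ.tot q i t = fun x => q.sum fun w a => (a * J.cc (j i) w (s t)) •
      x.tc 𝔉.B (𝔉.G t).F (Ξ.k i) ((J.tp c).tc (J.tc (j i) w)) :=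
  funext fun x => Finset.sum_congr rfl fun w _ =>
    (congrArg (q w • ·) (C.σ i w t ht x)).trans (smul_smul _ _ _)

theorem LkC.ev {Ξ : CTh 𝔉 r Wi hh} (C : LkC J s j Ξ) (i : hh) (w : Wi) {o : Ref 𝔉} (y : Pnt o r) :
    evC (Ξ.σ i w) y = J.cc (j i) w (s y.t) • (y.cfg.tc 𝔉.B (𝔉.G y.t).F (Ξ.k i)
      ((J.tp c).tc (J.tc (j i) w)) : CL (HH o (Ξ.k i)) (HH o (Ξ.k i))) := C.σ i w _ y.ht _

theorem lkC_ofT (hj : Injective j) : LkC J s j (.ofT 𝔉 (fun i => J.cut c (j i))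
    (fun i w => (J.tp c).tc (J.tc (j i) w)) fun i w t => J.cc (j i) w (s t)) :=
  ⟨hj, fun _ => rfl, fun _ _ _ _ _ => rfl⟩

open Classical in
variable (J c) in
/-- the term of a cut on `Z c` -/
def tmJ (i : h) (w : Wi) : Tc (W.Z c).M (lam ⊕ lam) r :=
  if ∃ Ω, XiIn (W.Z c).I Ω ((J.tp c).tc (J.tc i w)).ξ then (J.tp c).tc (J.tc i w) else ⟨0, 0, 0, .one⟩

variable (J 𝔉 s j) in
/-- the cuts `j i` of the job -/
abbrev cth : CTh 𝔉 r Wi hh :=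
  .ofT 𝔉 (fun i => J.cut c (j i)) (fun i => tmJ J c (j i)) fun i w t => J.cc (j i) w (s t)

namespace Lk
variable {e : T → PtX (W.Z c).M (Option κ) (lam ⊕ lam) r n m}
  {τ : Wi → T → PtX (W.Z c).M (Option κ) (lam ⊕ lam) r n m} (L : Lk J σ 𝔉 p s e τ)
include L

theorem lkC (hj : Injective j) : LkC J s j (cth J 𝔉 s j) :=
  ⟨hj, fun _ => rfl, fun i w t ht x => by
    by_cases k : J.cc (j i) w (s t) = 0
    · exact ContinuousLinearMap.ext fun v => by simp only [tmC, k, zero_smul]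
    · simp only [tmC, tmJ, if_pos (L.ok.tc_in L.mem (L.ov t ht) k)]⟩

variable (hj : ∀ i, J.nb (j i) ⊆ ⋃ π ∈ p.P, M.sys.U π)
include hj

theorem cut_ok (i : hh) (t : T) (ht : t ∈ 𝔉.Q) : (J.cut c (j i)).OK 𝔉.B (𝔉.G t).F := by
  rw [L.B, L.G t ht]
  exact L.ok.ct σ L.mem _ (L.ov t ht).1 c (L.ov t ht).2 _ (Job.unc_of L.pc (hj i))

end Lk

section th
variable [CompleteSpace T] {Θ : Th 𝔉 r n m Wi} {Adm : (Wi →₀ ℝ) → Prop}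
  (L : Lk J σ 𝔉 p s Θ.e Θ.τ)
include L

/-- **the cuts of a part satisfy the axioms** -/
theorem Lk.cth_ok [∀ a, (Θ.ref a).B0] (hk : 7 ≤ Θ.k) (H : ∀ a, Mon62.Hy (Θ.ref a))
    (ex : ∀ a (y : Pnt (Θ.ref a) r), Eqv71.Ex (𝔉.G y.t).F y.cfg 𝔉.Om)
    (hj : ∀ i, J.nb (j i) ⊆ ⋃ π ∈ p.P, M.sys.U π) (hs : ContDiffOn ℝ ∞ s 𝔉.Q) :
    (cth J 𝔉 s j).OK Θ :=
  CTh.ofT_ok hk L.fam H ex (L.cut_ok hj) (fun i => L.Om ▸ L.ok.cut_sub (hj i))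
    (fun i w => by
      unfold tmJ
      split_ifs with k
      exacts [k, ⟨∅, trivial⟩]) fun i w => (L.ok.cc _ w).comp_contDiffOn hs

theorem Lk.cth_compact [CompactSpace (W.Z c).M] [∀ a, (Θ.ref a).B0] (hk : 7 ≤ Θ.k)
    (hj : ∀ i, J.nb (j i) ⊆ ⋃ π ∈ p.P, M.sys.U π) (hs : ContDiffOn ℝ ∞ s 𝔉.Q) :
    (cth J 𝔉 s j).OK Θ :=
  L.cth_ok hk (fun _ => Mon62.hy_compact L.fam _) (fun _ y => Eqv71.ex_of_compact L.fam.B
    (L.fam.G _ y.ht) (L.fam.tameG _ y.ht).choose_spec L.fam.Om (y.ad0 L.fam)) hj hs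

variable {Ξ : CTh 𝔉 r Wi hh} (C : LkC J s j Ξ) (H : Ξ.OK Θ) (hΘ : Θ.OK Adm) {q : Wi →₀ ℝ}
  {x : Ξ.X Θ} (hx : (H.ext hΘ).prob.Sol q x)
include C hx

/-- **density in the rows of the cuts** -/
theorem Lk.ontoC (h1 : ∃ S, hΘ.Q.Onto q ⟨x.1, x.2.1⟩ S)
    (h2 : ∀ i, ∃ π ∈ p.P, J.nb (j i) ⊆ M.sys.U π ∧ J.RichC (s x.2.1.t) π (j i) ∧
      (((∃ z ∈ W.pc c π, x.2.1.cfg.Φ z ≠ 0) ∧ ∃ d, CoIn X.I (M.sys.U π) d ∧
        x.2.1.cfg.co (𝔉.G x.2.1.t).F ((J.tp c).co d) ≠ 0) ∨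
      ¬Lin (𝔉.G x.2.1.t).F x.2.1.cfg (W.pc c π) ∧
        ∃ z ∈ W.pc c π, x.2.1.cfg.m.Fg (𝔉.G x.2.1.t).F x.2.1.cfg.W z ≠ 0)) :
    ∃ S, (H.ext hΘ).prob.Onto q x S := by
  have b := (x.2.1.ad0 L.fam).ok
  have t := x.2.1.ht
  refine H.onto hΘ hx h1 (P := fun i w => J.co w (s x.2.1.t) = 0 ∧ J.Nn w (s x.2.1.t) ∧
    ∀ i', i' ≠ j i → J.cc i' w (s x.2.1.t) = 0) (fun i w e => ⟨?_, fun i' hi => ?_⟩)
    fun i N hN hA hT => ?_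
  · have k := (hΘ.repτ x.1 w).2 x.2.1
    exact (k.zero_iff L.fam hΘ.k4).1 (L.τ_zero hΘ.k4 e.1 e.2.1 k)
  · exact (C.ev i' w x.2.1).trans (ContinuousLinearMap.ext fun v =>
      smul_eq_zero_of_left (e.2.2 _ (C.inj.ne hi)) _)
  obtain ⟨π, hπ, k1, k2, k3⟩ := h2 i
  have a := L.pcs x.2.1 hπ
  have a' := L.inv x.2.1 hπ
  have k0 : (J.ct (j i)).x0 ∈ M.sys.U π := k1 ((L.ok.nb _).2.sub ⟨(0, 0), rfl⟩)
  have x0 : (Ξ.k i).x0 ∈ W.φ c '' M.sys.U π ∩ W.pc c π := by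
    rw [C.k]; exact ⟨⟨_, k0, rfl⟩, .inl ⟨_, k0, rfl⟩⟩
  have S := ((H.sol_iff hΘ q x).1 hx).2 i
  have o := H.ok i _ t
  refine den_tc L.fam.B b o (cn0_of a.conn) ?_ (fun e => by simpa [e] using S.1) S.2
    ⟨.one, trivial, rfl⟩ (k3.elim (fun ⟨h1, d, h2, h3⟩ => a'.spn_irr a x0 subset_rfl
      (pc_cmp _ (L.pc π hπ) h1) h2 h3) fun h1 => a'.spn_full a x0 subset_rfl (full_of_not_lin a.hB
        a.ok a.conn (Cyl58.isConnected_pc _ (L.pc π hπ)).2 h1.1 h1.2)) hN hA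
    fun u v ξ' ⟨ξ, h1, h2⟩ => ?_
  · rw [C.tot q i t]
    exact On.sum _ fun w _ => (on_tc L.fam.B b o _).smul _
  · obtain ⟨w, e1, e2, e3, e4, e5⟩ := k2 ⟨u, v, 1, ξ⟩ h1
    have := (N.smul_mem_iff e2).1 ((congrArg (· (x.2.2 i) ∈ N) (C.ev i w x.2.1)).mp (hT w ⟨e3, e5, e4⟩))
    have e : x.2.1.cfg.tc 𝔉.B (𝔉.G x.2.1.t).F (Ξ.k i) ((J.tp c).tc (J.tc (j i) w)) =
        x.2.1.cfg.tc 𝔉.B (𝔉.G x.2.1.t).F (Ξ.k i) ⟨u, v, 1, ξ'⟩ := by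
      simp only [e1, Cfg.tc, Tp.tc, h2]
    exact (congrArg (fun A : CL (HH _ (Ξ.k i)) (HH _ (Ξ.k i)) => A (x.2.2 i) ∈ N) e).mp this

/-- **DENS with cuts at the representative of an object of the stratum** -/
theorem Lk.densC (hp : J.POK σ c p) (hc : ∀ i, IsPreconnected (J.nb i)) (hR : J.PRich σ c p)
    (hj : ∀ i, j i ∈ p.H) (ha : Adm q) (hs : s x.2.1.t ∈ Job.cl σ) {y₀ : J.Obc c}
    (h0 : y₀.x.Adm (J.B c) (J.G c y₀.s)) (h1 : J.Θ y₀.s ∈ M.O c.1) (hI : Job.In p y₀)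
    (hf : FrEq J c p y₀.s (s x.2.1.t)) {u : (W.Z c).M → CL y₀.x.m.V x.2.1.cfg.m.V} {ζ : Circle}
    (he : EqOn 𝔉.B (𝔉.G x.2.1.t).F 𝔉.Om y₀.x x.2.1.cfg u ζ)
    {φ : EuclideanSpace ℂ (Fin r) → Fin m → ℝ}
    (hφ : ∀ y : Pnt (Θ.ref x.1) r, (Θ.e y.t).R y.cfg = φ y.z)
    (hρ : ∀ ρ, ∃ ζ, HasDerivAt (fun s : ℝ => φ (x.2.1.z + s • ζ)) ρ 0) :
    ∃ S, (H.ext hΘ).prob.Onto q x S := by
  refine L.ontoC C H hΘ hx (L.dens (x := ⟨x.1, x.2.1⟩) hΘ hR ha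
    ((hΘ.sol_iff q _).2 ((H.sol_iff hΘ q x).1 hx).1) hs h0 h1 hI hf he hφ hρ) fun i => ?_
  have h2 := hj i
  obtain ⟨π, hπ, h3⟩ := nb_piece L.pc (hc _) ⟨_, (L.ok.nb _).2.sub ⟨(0, 0), rfl⟩⟩ (hp.nb _ h2)
  have k := L.same (π := π) ⟨Eqv71.ad0 h0, h1⟩ hf he hπ
  refine ⟨π, hπ, h3, hR.C _ hs (L.ov _ x.2.1.ht).2 π hπ _ h2 h3, ?_⟩
  by_cases b : π ∈ p.P'
  · refine .inl ⟨k.sp.1 (hI.sp π b), by_contra fun a => ?_⟩
    have z : x.2.1.cfg.z = 0 := by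
      ext i
      exact by_contra fun e => a ⟨.z i, trivial, e⟩
    have : (ζ : ℂ) ^ 2 • y₀.x.z = 0 := he.z.symm.trans z
    rw [smul_eq_zero_iff_right (pow_ne_zero _ ζ.coe_ne_zero)] at this
    rcases h0.z with e | e
    exacts [(hR.z e).1.le b, by simp [this] at e]
  · have := not_or.1 (hI.ir π hπ b)
    rw [k.lin, k.flat] at this
    exact .inr ⟨this.1, by simpa only [not_forall, exists_prop] using this.2⟩

end th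

end Crest.Agent.X212.Wrd81
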