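import Crest.Agent.X212.Wrd81.Par

/-!
# X212 / WORDS, part 5 (helper81): `L²` tools.  Integration by parts, cut-offs, weak
representatives, multiplication operators, resolvent data.
-/

set_option autoImplicit false
set_option linter.unusedSectionVars false
noncomputable section
open scoped Manifold ContDiff Topology InnerProductSpace
open MeasureTheory Set Function Filter

namespace Crest.Agent.X212.Wrd81
open Crest.Agent.X212.An

variable {E : Type} [NormedAddCommGroup E] [NormedSpace ℝ E] [FiniteDimensional ℝ E]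
  [MeasurableSpace E] [BorelSpace E]
  {HM : Type} [TopologicalSpace HM] {I : ModelWithCorners ℝ E HM}
  {M : Type} [TopologicalSpace M] [ChartedSpace HM M] [IsManifold I ∞ M]
  [MeasurableSpace M] [T2Space M] [BorelSpace M] {ι : Type} [Fintype ι]
  {V : Type} [NormedAddCommGroup V] [InnerProductSpace ℝ V]

/-- skew connection form -/
def Skw (A : ι → M → V →L[ℝ] V) : Prop := ∀ a x v w, ⟪A a x v, w⟫_ℝ = -⟪v, A a x w⟫_ℝ

lemma sm_inner {u v : M → V} (hu : Sm I u) (hv : Sm I v) : Sm I fun x => ⟪u x, v x⟫_ℝ :=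
  Sob92.smooth_bil (innerSL ℝ) hu hv

lemma hcs_inner {u : M → V} (hc : HasCompactSupport u) (v : M → V) :
    HasCompactSupport fun x => ⟪u x, v x⟫_ℝ := hc.mono fun x hx h => hx (by simp [h])

lemma tsupport_cov (F : Pre I M ι) (A : ι → M → V →L[ℝ] V) (u : M → V) (a : ι) :
    tsupport (cov F A a u) ⊆ tsupport u := by
  refine closure_minimal (fun x hx => ?_) (isClosed_tsupport u)
  by_contra h
  apply hx
  have h1 : F.D a u x = 0 := Sob92.dv_eq_zero_of_notMem h
  simp [cov, h1, image_eq_zero_of_notMem_tsupport h]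

lemma hcs_cov (F : Pre I M ι) (A : ι → M → V →L[ℝ] V) {u : M → V} (hc : HasCompactSupport u)
    (a : ι) : HasCompactSupport (cov F A a u) :=
  hc.of_isClosed_subset (isClosed_tsupport _) (tsupport_cov F A u a)

lemma hcs_lap1 (F : Fr I M ι) (A : ι → M → V →L[ℝ] V) {u : M → V} (hc : HasCompactSupport u) :
    HasCompactSupport (lap1 F A u) := by
  refine HasCompactSupport.intro hc fun x hx => ?_
  have h1 : ∀ a, cov F.toPre A a u x = 0 := fun a =>
    image_eq_zero_of_notMem_tsupport fun h => hx (tsupport_cov _ A u a h)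
  have h2 : ∀ a, cov F.toPre A a (cov F.toPre A a u) x = 0 := fun a =>
    image_eq_zero_of_notMem_tsupport fun h => hx (tsupport_cov _ A u a (tsupport_cov _ A _ a h))
  simp [lap1, h1, h2, image_eq_zero_of_notMem_tsupport hx]

lemma ibp_cov (F : Fr I M ι) {A : ι → M → V →L[ℝ] V} (hA : ∀ a, Sm I (A a)) (hs : Skw A)
    {φ u : M → V} (hφ : Sm I φ) (hc : HasCompactSupport φ) (hu : Sm I u) (a : ι) :
    ∫ x, ⟪cov F.toPre A a φ x, u x⟫_ℝ ∂F.μ + ∫ x, ⟪φ x, cov F.toPre A a u x⟫_ℝ ∂F.μ =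
      -∫ x, F.dv a x * ⟪φ x, u x⟫_ℝ ∂F.μ := by
  rw [← F.ibp a _ (sm_inner hφ hu) (hcs_inner hc u), ← integral_add
    (F.integrable_inner (sm_cov _ hA hφ a).continuous (hcs_cov _ A hc a) hu.continuous)
    (F.integrable_inner hφ.continuous hc (sm_cov _ hA hu a).continuous)]
  refine integral_congr_ae (Eventually.of_forall fun x => ?_)
  have : Sob92.dv I (F.e a) (fun y => ⟪φ y, u y⟫_ℝ) x =
      ⟪Sob92.dv I (F.e a) φ x, u x⟫_ℝ + ⟪φ x, Sob92.dv I (F.e a) u x⟫_ℝ :=
    Sob92.dv_bil (e := F.e a) (innerSL ℝ) (md hφ x) (md hu x)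
  simp only [cov, Pre.D, this, inner_add_left, inner_add_right, hs a x]
  ring

lemma integrable_dv (F : Fr I M ι) {φ u : M → V} (hφ : Sm I φ) (hc : HasCompactSupport φ)
    (hu : Sm I u) (a : ι) : Integrable (fun x => F.dv a x * ⟪φ x, u x⟫_ℝ) F.μ :=
  ((F.dv_sm a).continuous.mul (sm_inner hφ hu).continuous).integrable_of_hasCompactSupport
    (hcs_inner hc u).mul_left

/-- `1 + ∇^*∇` is formally self-adjoint -/
lemma ibp_lap1 (F : Fr I M ι) {A : ι → M → V →L[ℝ] V} (hA : ∀ a, Sm I (A a)) (hs : Skw A)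
    {φ u : M → V} (hφ : Sm I φ) (hc : HasCompactSupport φ) (hu : Sm I u) :
    ∫ x, ⟪lap1 F A φ x, u x⟫_ℝ ∂F.μ = ∫ x, ⟪φ x, lap1 F A u x⟫_ℝ ∂F.μ := by
  have i0 := F.integrable_inner hφ.continuous hc hu.continuous
  have i1 := fun a => F.integrable_inner (sm_cov _ hA (sm_cov _ hA hφ a) a).continuous
    (hcs_cov F.toPre A (hcs_cov F.toPre A hc a) a) hu.continuous
  have i2 := fun a => integrable_dv F (sm_cov _ hA hφ a) (hcs_cov F.toPre A hc a) hu a
  have i3 := fun a => F.integrable_inner hφ.continuous hc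
    (sm_cov F.toPre hA (sm_cov F.toPre hA hu a) a).continuous
  have i4 := fun a => integrable_dv F hφ hc (sm_cov F.toPre hA hu a) a
  simp only [lap1, inner_sub_left, inner_sub_right, sum_inner, inner_sum, inner_add_left,
    inner_add_right, real_inner_smul_left, real_inner_smul_right]
  have j1 : ∀ a, Integrable (fun x => ⟪cov F.toPre A a (cov F.toPre A a φ) x, u x⟫_ℝ +
      F.dv a x * ⟪cov F.toPre A a φ x, u x⟫_ℝ) F.μ := fun a => (i1 a).add (i2 a)
  have j3 : ∀ a, Integrable (fun x => ⟪φ x, cov F.toPre A a (cov F.toPre A a u) x⟫_ℝ +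
      F.dv a x * ⟪φ x, cov F.toPre A a u x⟫_ℝ) F.μ := fun a => (i3 a).add (i4 a)
  rw [integral_sub i0 (integrable_finsetSum _ fun a _ => j1 a),
    integral_sub i0 (integrable_finsetSum _ fun a _ => j3 a),
    integral_finsetSum _ fun a _ => j1 a, integral_finsetSum _ fun a _ => j3 a]
  congr 1
  refine Finset.sum_congr rfl fun a _ => ?_
  rw [integral_add (i1 a) (i2 a), integral_add (i3 a) (i4 a)]
  have h1 := ibp_cov F hA hs (sm_cov _ hA hφ a) (hcs_cov F.toPre A hc a) hu a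
  have h2 := ibp_cov F hA hs hφ hc (sm_cov F.toPre hA hu a) a
  linarith

/-- compactly supported smooth functions with values in `V` -/
abbrev Tst (I : ModelWithCorners ℝ E HM) (M V : Type) [TopologicalSpace M] [ChartedSpace HM M]
    [NormedAddCommGroup V] [InnerProductSpace ℝ V] : Submodule ℝ (M → V) := Sec I (triv M V)

lemma mem_tst {u : M → V} (hu : Sm I u) (hc : HasCompactSupport u) : u ∈ Tst I M V :=
  ⟨hu, hc, fun _ => rfl⟩

lemma smul_mem_tst {f : M → ℝ} (hf : Sm I f) (hc : HasCompactSupport f) {u : M → V}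
    (hu : Sm I u) : (fun x => f x • u x) ∈ Tst I M V := mem_tst (sm_smul hf hu) hc.smul_right

/-- a smooth function orthogonal to all test functions supported in a dense open set vanishes -/
lemma eq_zero_of_tst (μ : Measure M) [IsFiniteMeasureOnCompacts μ] [μ.IsOpenPosMeasure]
    {Ω : Set M} (hΩ : IsOpen Ω) (hd : Dense Ω) {u : M → V} (hu : Sm I u)
    (h : ∀ φ ∈ Tst I M V, tsupport φ ⊆ Ω → ∫ x, ⟪φ x, u x⟫_ℝ ∂μ = 0) : u = 0 := by
  refine Continuous.ext_on hd hu.continuous continuous_const fun x hx => ?_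
  by_contra hne
  obtain ⟨χ, hχ, hc, hs, h1⟩ := exists_bump (I := I) (hΩ.mem_nhds hx)
  have h0 := h _ (smul_mem_tst (hχ.mul hχ) hc.mul_right hu)
    ((tsupport_smul_subset_left _ _).trans (tsupport_mul_subset_left.trans hs))
  have hpos : 0 < ∫ y, ⟪(χ * χ) y • u y, u y⟫_ℝ ∂μ := by
    refine Continuous.integral_pos_of_hasCompactSupport_nonneg_nonzero (x := x)
      (sm_inner (sm_smul (hχ.mul hχ) hu) hu).continuous
      (hcs_inner (HasCompactSupport.smul_right hc.mul_right) u) (fun y => ?_) ?_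
    · simp only [real_inner_smul_left, Pi.mul_apply]
      exact mul_nonneg (mul_self_nonneg _) real_inner_self_nonneg
    · have : χ x = 1 := h1.eq_of_nhds
      simpa [this] using hne
  exact hpos.ne' h0

variable [SecondCountableTopology M]

/-- cut-off functions -/
lemma exists_cut {K Ω : Set M} (hK : IsCompact K) (hΩ : IsOpen Ω) (h : K ⊆ Ω) :
    ∃ g : M → ℝ, Sm I g ∧ HasCompactSupport g ∧ tsupport g ⊆ Ω ∧ ∀ x ∈ K, g x = 1 := by
  have : LocallyCompactSpace M := Manifold.locallyCompact_of_finiteDimensional I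
  obtain ⟨L, hL, hKL, hLΩ⟩ := exists_compact_between hK hΩ h
  obtain ⟨f, h0, h1, -⟩ := exists_contMDiffMap_zero_one_of_isClosed I (n := ⊤)
    (isOpen_interior (s := L)).isClosed_compl hK.isClosed
    (disjoint_compl_left_iff_subset.2 hKL)
  have hs : tsupport f ⊆ L := closure_minimal (fun x hx => by
    by_contra hx'
    exact hx (h0 fun h => hx' (interior_subset h))) hL.isClosed
  exact ⟨f, f.contMDiff, hL.of_isClosed_subset (isClosed_tsupport _) hs, hs.trans hLΩ, h1⟩

/-- test functions can be approximated in `L²` by test functions supported in an open set of full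
measure -/
lemma exists_approx (μ : Measure M) [IsFiniteMeasureOnCompacts μ] {Ω : Set M} (hΩ : IsOpen Ω)
    (h0 : μ Ωᶜ = 0) {φ : M → V} (hφ : φ ∈ Tst I M V) :
    ∃ ψ : ℕ → M → V, (∀ n, ψ n ∈ Tst I M V ∧ tsupport (ψ n) ⊆ Ω) ∧
      Tendsto (fun n => ∫ x, ⟪φ x - ψ n x, φ x - ψ n x⟫_ℝ ∂μ) atTop (𝓝 0) := by
  have : LocallyCompactSpace M := Manifold.locallyCompact_of_finiteDimensional I
  obtain ⟨h, hs, hsm, hp⟩ := hΩ.exists_contMDiff_support_eq I (n := ⊤)
  let g : ℕ → M → ℝ := fun n x => Real.smoothTransition (n * h x - 1)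
  have hg : ∀ n, Sm I (g n) := fun n =>
    (Real.smoothTransition.contDiff (n := ⊤)).contMDiff.comp
      ((contMDiff_const.mul hsm).sub contMDiff_const)
  have hgs : ∀ n, tsupport (g n) ⊆ Ω := by
    intro n
    have hc : IsClosed {x | 1 ≤ (n : ℝ) * h x} :=
      isClosed_le continuous_const (continuous_const.mul hsm.continuous)
    refine (closure_minimal (fun x hx => ?_) hc).trans fun x hx => ?_
    · by_contra hx'
      exact hx (Real.smoothTransition.zero_of_nonpos (by simp at hx'; linarith))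
    · rw [← hs]
      intro h0
      simp [h0] at hx
      linarith
  refine ⟨fun n x => g n x • φ x, fun n => ⟨mem_tst (sm_smul (hg n) hφ.1) hφ.2.1.smul_left,
    (tsupport_smul_subset_left _ _).trans (hgs n)⟩, ?_⟩
  have e : ∀ n x, ⟪φ x - g n x • φ x, φ x - g n x • φ x⟫_ℝ = (1 - g n x) ^ 2 * ⟪φ x, φ x⟫_ℝ := by
    intro n x
    have : φ x - g n x • φ x = (1 - g n x) • φ x := by rw [sub_smul, one_smul]
    rw [this, real_inner_smul_left, real_inner_smul_right]; ring
  simp only [e]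
  have hi : Integrable (fun x => ⟪φ x, φ x⟫_ℝ) μ :=
    (sm_inner hφ.1 hφ.1).continuous.integrable_of_hasCompactSupport (hcs_inner hφ.2.1 φ)
  have := tendsto_integral_of_dominated_convergence (μ := μ)
    (F := fun n x => (1 - g n x) ^ 2 * ⟪φ x, φ x⟫_ℝ) (f := fun _ => (0 : ℝ))
    (fun x => ⟪φ x, φ x⟫_ℝ)
    (fun n => (((continuous_const.sub (hg n).continuous).pow 2).mul
      (sm_inner hφ.1 hφ.1).continuous).aestronglyMeasurable) hi
    (fun n => Eventually.of_forall fun x => by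
      have h1 : 0 ≤ g n x := Real.smoothTransition.nonneg _
      have h2 : g n x ≤ 1 := Real.smoothTransition.le_one _
      have h3 : 0 ≤ ⟪φ x, φ x⟫_ℝ := real_inner_self_nonneg
      rw [Real.norm_of_nonneg (by positivity)]
      have : (1 - g n x) ^ 2 ≤ 1 := by nlinarith
      nlinarith)
    (by
      have : ∀ᵐ x ∂μ, x ∈ Ω := h0
      filter_upwards [this] with x hx
      have hx' : 0 < h x := lt_of_le_of_ne (hp x) (by rw [← hs] at hx; exact Ne.symm hx)
      refine tendsto_const_nhds.congr' ?_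
      have := (tendsto_natCast_atTop_atTop (R := ℝ)).atTop_mul_const hx'
      filter_upwards [this.eventually_ge_atTop 2] with n hn
      have : g n x = 1 := Real.smoothTransition.one_of_one_le (by linarith)
      simp [this])
  simpa using this

/-- an `L²` space: a Hilbert space containing the test functions as a dense subspace -/
structure L2D (I : ModelWithCorners ℝ E HM) (μ : Measure M) (V H : Type) [NormedAddCommGroup V]
    [InnerProductSpace ℝ V] [NormedAddCommGroup H] [InnerProductSpace ℝ H] where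
  j : Tst I M V →ₗ[ℝ] H
  inner_j : ∀ u v, ⟪j u, j v⟫_ℝ = ∫ x, ⟪u.1 x, v.1 x⟫_ℝ ∂μ
  dense : DenseRange j

namespace L2D
variable {μ : Measure M} {H : Type} [NormedAddCommGroup H] [InnerProductSpace ℝ H]
  (r : L2D I μ V H)

/-- `u` represents `x` -/
def Rp (x : H) (u : M → V) : Prop := ∀ φ : Tst I M V, ⟪r.j φ, x⟫_ℝ = ∫ y, ⟪φ.1 y, u y⟫_ℝ ∂μ

lemma rp_j (u : Tst I M V) : r.Rp (r.j u) u.1 := fun φ => r.inner_j φ u

lemma ext {x y : H} (h : ∀ φ, ⟪r.j φ, x⟫_ℝ = ⟪r.j φ, y⟫_ℝ) : x = y := by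
  have h1 : ∀ z, ⟪z, x⟫_ℝ = ⟪z, y⟫_ℝ := fun z => congrFun
    (r.dense.equalizer (g := fun z => ⟪z, x⟫_ℝ) (h := fun z => ⟪z, y⟫_ℝ) (by fun_prop)
      (by fun_prop) (funext h)) z
  exact ext_inner_left ℝ h1

variable {r}

lemma Rp.unique {x y : H} {u : M → V} (hx : r.Rp x u) (hy : r.Rp y u) : x = y :=
  r.ext fun φ => by rw [hx, hy]

variable [IsFiniteMeasureOnCompacts μ]

lemma integrable {φ u : M → V} (hφ : φ ∈ Tst I M V) (hu : Sm I u) :
    Integrable (fun y => ⟪φ y, u y⟫_ℝ) μ :=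
  (sm_inner hφ.1 hu).continuous.integrable_of_hasCompactSupport (hcs_inner hφ.2.1 u)

lemma Rp.add {x y : H} {u v : M → V} (hx : r.Rp x u) (hy : r.Rp y v) (hu : Sm I u)
    (hv : Sm I v) : r.Rp (x + y) (u + v) := fun φ => by
  rw [inner_add_right, hx, hy, ← integral_add (integrable φ.2 hu) (integrable φ.2 hv)]
  simp only [Pi.add_apply, inner_add_right]

lemma Rp.smul {x : H} {u : M → V} (hx : r.Rp x u) (c : ℝ) : r.Rp (c • x) (c • u) := fun φ => by
  rw [real_inner_smul_right, hx, ← integral_const_mul]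
  simp only [Pi.smul_apply, real_inner_smul_right]

lemma Rp.eq [μ.IsOpenPosMeasure] {x : H} {u v : M → V} (hx : r.Rp x u) (hy : r.Rp x v)
    (hu : Sm I u) (hv : Sm I v) : u = v := by
  rw [← sub_eq_zero]
  refine eq_zero_of_tst μ isOpen_univ dense_univ (hu.sub hv) fun φ hφ _ => ?_
  simp only [Pi.sub_apply, inner_sub_right]
  rw [integral_sub (integrable hφ hu) (integrable hφ hv), ← hx ⟨φ, hφ⟩, ← hy ⟨φ, hφ⟩, sub_self]

variable (r)

/-- an element orthogonal to the test functions supported in an open set of full measure is zero -/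
lemma eq_zero_of_orth {Ω : Set M} (hΩ : IsOpen Ω) (h0 : μ Ωᶜ = 0) {z : H}
    (h : ∀ φ : Tst I M V, tsupport φ.1 ⊆ Ω → ⟪r.j φ, z⟫_ℝ = 0) : z = 0 := by
  refine r.ext fun φ => ?_
  obtain ⟨ψ, hψ, ht⟩ := exists_approx μ hΩ h0 φ.2
  have h1 : Tendsto (fun n => r.j ⟨ψ n, (hψ n).1⟩) atTop (𝓝 (r.j φ)) := by
    rw [tendsto_iff_norm_sub_tendsto_zero]
    have e : ∀ n, ‖r.j ⟨ψ n, (hψ n).1⟩ - r.j φ‖ =
        √(∫ x, ⟪φ.1 x - ψ n x, φ.1 x - ψ n x⟫_ℝ ∂μ) := by
      intro n
      rw [norm_sub_rev, ← map_sub, norm_eq_sqrt_real_inner, r.inner_j]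
      rfl
    simp only [e]
    simpa using ht.sqrt
  have h2 := h1.inner (𝕜 := ℝ) (tendsto_const_nhds (x := z))
  simp only [h ⟨ψ _, (hψ _).1⟩ (hψ _).2] at h2
  rw [inner_zero_right]
  exact tendsto_nhds_unique h2 tendsto_const_nhds

/-- a field of endomorphisms acting on test functions -/
def tstMul {T : M → V →L[ℝ] V} (hT : Sm I T) : Tst I M V →ₗ[ℝ] Tst I M V where
  toFun u := ⟨fun x => T x (u.1 x), mem_tst (hT.clm_apply u.2.1)
    (u.2.2.1.mono fun x hx h => hx (by simp [h]))⟩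
  map_add' u v := Subtype.ext (funext fun x => map_add (T x) _ _)
  map_smul' c u := Subtype.ext (funext fun x => map_smul (T x) _ _)

/-- multiplication by a bounded smooth field of endomorphisms -/
lemma exists_mul [CompleteSpace H] {T : M → V →L[ℝ] V} (hT : Sm I T) {C : ℝ}
    (hC : ∀ x, ‖T x‖ ≤ C) : ∃ m : H →L[ℝ] H, ∀ u, m (r.j u) = r.j (tstMul hT u) := by
  have hb : ∀ u, ‖(r.j ∘ₗ tstMul hT) u‖ ≤ |C| * ‖r.j u‖ := by
    intro u
    refine (abs_le_of_sq_le_sq' ?_ (by positivity)).2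
    rw [mul_pow, ← real_inner_self_eq_norm_sq, ← real_inner_self_eq_norm_sq, LinearMap.comp_apply,
      r.inner_j, r.inner_j, ← integral_const_mul]
    refine integral_mono (integrable (tstMul hT u).2 (tstMul hT u).2.1)
      ((integrable u.2 u.2.1).const_mul _) fun x => ?_
    simp only [real_inner_self_eq_norm_sq, ← mul_pow]
    refine pow_le_pow_left₀ (norm_nonneg _) ?_ 2
    exact ((T x).le_opNorm _).trans
      (mul_le_mul_of_nonneg_right ((hC x).trans (le_abs_self C)) (norm_nonneg _))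
  exact ⟨(r.j ∘ₗ tstMul hT).extendOfNorm r.j, fun u =>
    LinearMap.extendOfNorm_eq r.dense ⟨_, hb⟩ u⟩

lemma exists_mul_of_hcs [CompleteSpace H] {T : M → V →L[ℝ] V} (hT : Sm I T)
    (hc : HasCompactSupport T) : ∃ m : H →L[ℝ] H, ∀ u, m (r.j u) = r.j (tstMul hT u) :=
  let ⟨_, hC⟩ := hT.continuous.bounded_above_of_compact_support hc
  r.exists_mul hT hC

variable {r}

/-- multiplication operators of transposed fields are adjoint -/
lemma mul_adj {T T' : M → V →L[ℝ] V} {hT : Sm I T} {hT' : Sm I T'}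
    (ht : ∀ x v w, ⟪T x v, w⟫_ℝ = ⟪v, T' x w⟫_ℝ) {m m' : H →L[ℝ] H}
    (hm : ∀ u, m (r.j u) = r.j (tstMul hT u)) (hm' : ∀ u, m' (r.j u) = r.j (tstMul hT' u))
    (x y : H) : ⟪m x, y⟫_ℝ = ⟪x, m' y⟫_ℝ := by
  refine r.dense.induction_on₂ (p := fun x y => ⟪m x, y⟫_ℝ = ⟪x, m' y⟫_ℝ)
    (isClosed_eq (by fun_prop) (by fun_prop)) (fun u v => ?_) x y
  rw [hm, hm', r.inner_j, r.inner_j]
  exact integral_congr_ae (Eventually.of_forall fun z => ht z _ _)

/-- multiplication operators act on representatives -/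
lemma Rp.mul {T T' : M → V →L[ℝ] V} {hT : Sm I T} {hT' : Sm I T'}
    (ht : ∀ x v w, ⟪T x v, w⟫_ℝ = ⟪v, T' x w⟫_ℝ) {m m' : H →L[ℝ] H}
    (hm : ∀ u, m (r.j u) = r.j (tstMul hT u)) (hm' : ∀ u, m' (r.j u) = r.j (tstMul hT' u))
    {x : H} {u : M → V} (hx : r.Rp x u) : r.Rp (m x) fun y => T y (u y) := fun φ => by
  rw [real_inner_comm, mul_adj ht hm hm', hm', real_inner_comm, hx]
  refine integral_congr_ae (Eventually.of_forall fun z => ?_)
  change ⟪T' z (φ.1 z), u z⟫_ℝ = ⟪φ.1 z, T z (u z)⟫_ℝ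
  rw [real_inner_comm, ← ht, real_inner_comm]

end L2D

end Crest.Agent.X212.Wrd81
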