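import Crest.Agent.X212.Wrd81.Apx
import Crest.Agent.X212.Nd18.Api
import Crest.Agent.X212.Mon62.REx

/-!
# X212 / WORDS, part 20 (helper81): density of the terms `q2` on the cylinder.
-/

set_option autoImplicit false
set_option linter.unusedSectionVars false
noncomputable section
open scoped Manifold ContDiff Topology InnerProductSpace
open MeasureTheory Set Function Filter

namespace Crest.Agent.X212.Wrd81
open An Sob92 Wz78 Nd18 Cyf70 Dgr80

section gen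
variable {E : Type} [NormedAddCommGroup E] [NormedSpace ℝ E] [FiniteDimensional ℝ E]
  [MeasurableSpace E] [BorelSpace E]
  {HM : Type} [TopologicalSpace HM] {I : ModelWithCorners ℝ E HM} [I.Boundaryless]
  {M : Type} [TopologicalSpace M] [ChartedSpace HM M] [IsManifold I ∞ M]
  [MeasurableSpace M] [T2Space M] [BorelSpace M] [SecondCountableTopology M]
  {ι : Type} [Fintype ι] {lam : Type} [Fintype lam] {r : ℕ}
  {V : Type} [NormedAddCommGroup V] [InnerProductSpace ℝ V] [FiniteDimensional ℝ V]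
  {F : Fr I M ι} {A : ι → M → V →L[ℝ] V} {Ω K : Set M} {𝒲 : Set (M → V)} {π : M → V →L[ℝ] V}

lemma IsPrj.nabE (h : IsPrj F A Ω 𝒲 π) (a : ι) (x : M) : nabE I F.e A a π x = 0 := by
  rw [Wz78.nabE, ← Pre.D_def, h.par]; abel

lemma IsPrj.fix_rhs (h : IsPrj F A Ω 𝒲 π) (hA : ∀ a, Sm I (A a)) {s u : M → V}
    (hu : F.IsRes A s u) (h1 : ∀ x, π x (u x) = u x) (x : M) : π x (s x) = s x := by
  have := Mp86.isRes_map hA h.sm ⟨1, fun x => norm_prj_le (h.symm x) (h.idem x)⟩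
    (fun x => itw_of_nabE fun a => h.nabE a x) hu
  simp only [h1] at this
  exact (this.2.2 x).symm.trans (hu.2.2 x)

lemma ok_tf {O : Set ℝ} {φ : ℝ → ℝ} (h : Tf 𝓘(ℝ, ℝ) O φ) (s : ℝ) :
    YTC.OK ⟨1, fun _ => s, fun x => φ (x 0)⟩ := by
  have a : ContDiff ℝ ∞ fun x : Fin 1 → ℝ => φ (x 0) := h.sm.contDiff.comp (contDiff_apply ℝ ℝ 0)
  exact ⟨a, fun n => (a.continuous_iteratedFDeriv (by exact_mod_cast le_top)
    ).bounded_above_of_compact_support
      ((h.hcs.comp_homeomorph (Homeomorph.funUnique (Fin 1) ℝ)).iteratedFDeriv n)⟩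

variable {c : Cfg M ι lam r} {B : Base M ι lam} {G : Geo I M ι lam}

variable (I) in
/-- smooth letters -/
def LtS : Lt M → Prop
  | .mul f => Sm I f
  | .cl g => Sm I g
  | _ => True

lemma Pc.sw_S (h : Pc c B G K Ω) {u : SW M} (hu : ∀ t ∈ u, LtS I t) :
    Sm I (c.sw G.F u) ∧ ∀ x, c.m.p x (c.sw G.F u x) = c.sw G.F u x := by
  induction u with
  | nil => exact ⟨h.sm, h.pΦ⟩
  | cons t u ih =>
    obtain ⟨a, b⟩ := ih fun t k => hu t (List.mem_cons_of_mem _ k)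
    have ht := hu t List.mem_cons_self
    rw [show c.sw G.F (t :: u) = c.lt G.F t (c.sw G.F u) from rfl]
    generalize c.sw G.F u = w at a b
    cases t with
    | mul f => exact ⟨sm_smul ht a, fun x => (map_smul _ _ _).trans (congrArg _ (b x))⟩
    | cl g => exact ⟨lt_cl G.F g w ▸ (h.sm_cl ht).clm_apply a, fun x => by
        simp only [Cfg.lt, map_sum, map_smul, ← mul_apply_eq_comp, (h.ok.cl x).pl]⟩
    | im => exact ⟨c.m.J.contMDiff.comp a, fun x => by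
        rw [Cfg.lt, ← mul_apply_eq_comp, ← h.ok.Jp, mul_apply_eq_comp, b]⟩
    | G => exact ⟨Mp86.sm_res _ _ _, h.rs.res_prj h.ok.sp h.ok.psym (fun x v => by
        rw [← mul_apply_eq_comp, h.ok.pidem]) h.conn.cc.par b⟩

lemma bdd_Fg {C : ℕ → ℝ} (hF : F.Tame C) (hW : ∀ a, F.Cb (c.W a)) (s : ι × ι) :
    ∃ R, ∀ x, ‖c.m.Fg F c.W x s‖ ≤ R := by
  have m := fun a b => Cb_bil (ContinuousLinearMap.mul ℝ _) (hW a) (hW b)
  obtain ⟨R, hR⟩ := Cb_clm hsL (Cb_sub (Cb_add (Cb_sub (Cb_D (hW s.2) s.1) (Cb_D (hW s.1) s.2))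
    (Cb_sub (m s.1 s.2) (m s.2 s.1))) (Cb_sum Finset.univ fun k _ => Cb_smul ⟨_, hF.c s.1 s.2 k⟩ (hW k)))
  exact ⟨R 0, fun x => (norm_pg x _).trans (CB_zero.1 (hR.2 0) x)⟩

end gen

variable {E3 : Type} [NormedAddCommGroup E3] [NormedSpace ℝ E3] [FiniteDimensional ℝ E3]
  [MeasurableSpace E3] [BorelSpace E3]
  {H3 : Type} [TopologicalSpace H3] {I3 : ModelWithCorners ℝ E3 H3} [I3.Boundaryless]
  {Y : Type} [TopologicalSpace Y] [ChartedSpace H3 Y] [IsManifold I3 ∞ Y] [T2Space Y]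
  [MeasurableSpace Y] [BorelSpace Y] [SecondCountableTopology Y] [CompactSpace Y]
  {κ : Type} [Fintype κ] {lam : Type} [Fintype lam] {ι' : Type} [Fintype ι']
  {N : ND Y lam} {D : YD I3 Y κ lam} {c : Cfg (Y × ℝ) (Option κ) lam 0}

lemma nk_τ : D.nk.τ = Prod.snd := funext fun _ => tf_none

lemma nk_ext (f : Y → ℝ) : D.nk.ext f = fun x => f x.1 := funext fun x => by
  simp [Nk.ext, Nk.χ, YD.nk, ct]

lemma ex_ext (x : Y × ℝ) (b : κ) :
    ∃ h, Sm I3 h ∧ ∀ a, D.Z.D a (D.nk.ext h) x = D.B.P (some b) a x := by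
  obtain ⟨h, hh, e⟩ := exists_tf_D D.F (univ_mem : univ ∈ 𝓝 x.1) b
  refine ⟨h, hh.sm, fun a => ?_⟩
  rw [nk_ext]
  cases a
  exacts [congrFun (D_none_fst D.F.toPre hh.sm) x, (congrFun (D_some_fst D.F.toPre hh.sm _) x).trans (e _)]

lemma D_τ (x : Y × ℝ) (a : Option κ) : D.Z.D a D.nk.τ x = D.B.P none a x := by
  rw [nk_τ]
  cases a
  exacts [(congrFun (D_none_snd D.F.toPre contDiff_id) x).trans (deriv_id _),
    congrFun (D_some_snd D.F.toPre contDiff_id _) x]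

lemma ex_fn (x : Y × ℝ) (b : Option κ) :
    ∃ g, OF I3 g ∧ ∀ a, D.Z.D a (D.nk.fn g) x = D.B.P b a x := by
  cases b with
  | none => exact ⟨none, by simp [OF], D_τ x⟩
  | some b =>
    obtain ⟨h, h1, h2⟩ := ex_ext (D := D) x b
    exact ⟨some h, by simpa [OF] using h1, h2⟩

section defs
variable (N D c)

/-- the smoothed energy, normalised -/
def ee (t : ℝ) : ℝ := wn D.Z.μ Prod.snd N.δ (N.ew D.nk c) t /
  √(1 + wn D.Z.μ Prod.snd N.δ (N.ew D.nk c) t ^ 2)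

def L1 (t : YL Y ⊕ YTC) : Lt (Y × ℝ) := Dgr80.tl D.Z D.nk.τ N.δ c (N.tl D.nk t)

def LA (t : La Y ⊕ YTC) : La (Y × ℝ) := Dgr80.ta D.Z D.nk.τ N.δ c (N.ta D.nk t)

/-- the functions which are letters -/
def GZ : Set (Y × ℝ → ℝ) := {g | Sm (IC I3) g ∧ (∃ t, Sum.elim (YL.OK I3) YTC.OK t ∧
  L1 N D c t = .mul g) ∧ ∃ t, Sum.elim (laOK I3) YTC.OK t ∧ LA N D c t = .mul g}

def CZ : Set (Y × ℝ → ℝ) := {g ∈ GZ N D c | HasCompactSupport g}

/-- spinor words -/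
def WZ : Set (Y × ℝ → c.m.V) := {w | ∃ u, tlOK I3 u ∧ w = c.sw D.Z (u.map (L1 N D c))}

/-- seeds -/
def SZ : Set (Sd (Y × ℝ)) := {s | Sm (IC I3) (c.sd D.Z s) ∧ ∀ C : YTC, C.OK → ∀ h, Sm I3 h →
  ∀ l, taOK I3 l → ∃ T : YW I3 Y, T.1.C = C ∧
    N.tm D.nk c 0 T.1 = .ad D.nk.τ (D.nk.ext h) ⟨s, l.map (LA N D c)⟩}

/-- adjoint words -/
def XZ : Set (Y × ℝ → c.m.A) :=
  {w | ∃ s ∈ SZ N D c, ∃ l, taOK I3 l ∧ w = c.aw D.Z ⟨s, l.map (LA N D c)⟩}

/-- values of terms in the Dirac row -/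
def QD : Set (Y × ℝ → c.m.V) := {v | ∃ T : YW I3 Y, v = (N.q2 (n := 0) D.nk T.1).D c ∧
  (N.q2 (n := 0) D.nk T.1).C c = 0 ∧ ∀ x, c.m.pm D.B x (v x) = v x}

/-- values of terms in the curvature row -/
def QC : Set (Y × ℝ → Fm (Option κ × Option κ) c.m.A) := {v | ∃ T : YW I3 Y,
  v = (N.q2 (n := 0) D.nk T.1).C c ∧ (N.q2 (n := 0) D.nk T.1).D c = 0 ∧
    ∀ x, c.m.p2 D.B x (v x) = v x}

/-- the standing hypotheses -/
structure MH (a : Option κ → Y × ℝ → En lam) : Prop extends Pc c D.B ⟨D.Z, a⟩ univ univ where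
  tame : ∃ C, D.Z.Tame C
  cW : ∀ a, D.Z.Cb (c.W a)
  δ0 : 0 < N.δ
  ew : ∫ x, N.ew D.nk c x ∂D.Z.μ ≠ 0

end defs

lemma vl_eq (C : YTC) : (fun x => (N.tc D.nk C).val D.Z D.nk.τ N.δ c (D.nk.τ x)) =
    fun x => C.k fun i => ee N D c (x.2 + C.s i) := by rw [nk_τ]; rfl

lemma vl_eq' (C : YTC) : (fun x => D.nk.χ x *
    (N.tc D.nk C).val D.Z D.nk.τ N.δ c (D.nk.τ x)) = fun x => C.k fun i => ee N D c (x.2 + C.s i) :=
  funext fun x => by rw [show D.nk.χ x = 1 from ct_none, one_mul, congrFun (vl_eq C) x]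

lemma oc_eq (T : YT Y) (x : Y × ℝ) : N.oc D.nk T c x = ee N D c x.2 / √(1 + ee N D c x.2 ^ 2) *
    T.C.k fun i => ee N D c (x.2 + T.C.s i) := by
  rw [ND.oc, show D.nk.cut 3 _ = 1 from ct_none, one_mul]
  refine (congrFun (vl_eq T.C.out) x).trans ?_
  simp [YTC.out]

namespace MH
variable {a : Option κ → Y × ℝ → En lam} (h : MH N D c a)
include h

lemma e_spec : ContDiff ℝ ∞ (ee N D c) ∧ (∀ t, 0 < ee N D c t) ∧
    Tendsto (ee N D c) atTop (𝓝 0) ∧ Tendsto (ee N D c) atBot (𝓝 0) := by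
  have i := Integrable.of_integral_ne_zero h.ew
  have m : AEStronglyMeasurable (Prod.snd : Y × ℝ → ℝ) D.Z.μ := continuous_snd.aestronglyMeasurable
  have w := WI.of_integrable h.δ0 m i
  have p : ∀ x, 0 ≤ N.ew D.nk c x := fun x => mul_nonneg ct_mem.1 (by unfold Dgr80.ew; positivity)
  have s : ContDiff ℝ ∞ fun t : ℝ => t / √(1 + t ^ 2) := contDiff_id.div
    ((contDiff_const.add (contDiff_id.pow 2)).sqrt fun _ => by positivity) fun _ => by positivity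
  have s0 := s.continuous.tendsto' 0 0 (zero_div _)
  exact ⟨s.comp (w.contDiff_wn h.δ0), fun t => div_pos ((wn_nonneg h.δ0 p t).lt_of_ne' fun e =>
    h.ew (integral_eq_zero_of_ae (w.eq_zero_of_wn h.δ0 p e))) (by positivity),
    s0.comp (tendsto_wn_atTop h.δ0 m i), s0.comp (tendsto_wn_atBot h.δ0 m i)⟩

lemma tc_mem {C : YTC} (hC : C.OK) :
    (fun x : Y × ℝ => C.k fun i => ee N D c (x.2 + C.s i)) ∈ GZ N D c :=
  ⟨sm_snd (f := fun t => C.k fun i => ee N D c (t + C.s i)) (hC.1.comp (contDiff_pi.2 fun _ =>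
    h.e_spec.1.comp (contDiff_id.add contDiff_const))), ⟨.inr C, hC, congrArg _ (vl_eq' C)⟩,
    .inr C, hC, congrArg _ (vl_eq' C)⟩

lemma exists_tf {K : Set (Y × ℝ)} (hK : IsCompact K) :
    ∃ φ, Tf 𝓘(ℝ, ℝ) (Ioi 0) φ ∧ ∀ x ∈ K, φ (ee N D c x.2) = 1 := by
  obtain ⟨φ, h1, h2⟩ := exists_tf_one (I := 𝓘(ℝ, ℝ))
    (hK.image (h.e_spec.1.continuous.comp continuous_snd)) isOpen_Ioi
    (by rintro _ ⟨x, -, rfl⟩; exact h.e_spec.2.1 _)
  exact ⟨φ, h1, fun x hx => h2 _ ⟨x, hx, rfl⟩⟩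

theorem gn : Gn (IC I3) (GZ N D c) (CZ N D c) := by
  refine ⟨fun _ k => k.1, fun x y e => ?_, fun _ k => k.1, fun _ k => k.2, fun K hK => ?_⟩
  · by_cases e1 : x.1 = y.1
    · obtain ⟨s, hs⟩ : ∃ s : ℚ, ee N D c (x.2 + s) ≠ ee N D c (y.2 + s) := by
        by_contra! k
        exact e (Prod.ext e1 (eq_of_translate h.e_spec.1.continuous h.e_spec.2.2.1
          (h.e_spec.2.1 0).ne' k))
      obtain ⟨φ, h1, h2⟩ := Wrd81.exists_tf (I := 𝓘(ℝ, ℝ)) (isOpen_compl_singleton.mem_nhds hs)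
      exact ⟨_, h.tc_mem (ok_tf h1 s), by
        simp [h2, image_eq_zero_of_notMem_tsupport fun k => h1.sub k rfl]⟩
    · obtain ⟨f, h1, h2⟩ := Wrd81.exists_tf (I := I3) (isOpen_compl_singleton.mem_nhds e1)
      exact ⟨fun x => f x.1, ⟨sm_fst h1.sm, ⟨.inl (.mul f), h1.sm, congrArg _ (nk_ext f)⟩,
        .inl (.mul f), h1.sm, congrArg _ (nk_ext f)⟩, by
        simp [h2, image_eq_zero_of_notMem_tsupport fun k => h1.sub k rfl]⟩
  · obtain ⟨φ, h1, h2⟩ := h.exists_tf hK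
    have t : Tendsto (ee N D c) (cocompact ℝ) (𝓝 0) :=
      cocompact_eq_atBot_atTop (α := ℝ) ▸ h.e_spec.2.2.2.sup h.e_spec.2.2.1 |>.mono_right (by simp)
    obtain ⟨T, t1, t2⟩ := mem_cocompact.1 (t ((isClosed_tsupport φ).isOpen_compl.mem_nhds
      fun k => lt_irrefl (0 : ℝ) (h1.sub k)))
    refine ⟨_, ⟨h.tc_mem (ok_tf h1 0), HasCompactSupport.intro (isCompact_univ.prod t1)
      fun x hx => ?_⟩, fun x hx => by simpa using h2 x hx⟩
    simpa using image_eq_zero_of_notMem_tsupport (t2 fun k => hx ⟨trivial, k⟩)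

/-- the outer coefficient can be made `1` on a compact set -/
lemma exists_C {g : Y × ℝ → ℝ} (hg : HasCompactSupport g) : ∃ C : YTC, C.OK ∧
    ∀ T : YT Y, T.C = C → ∀ x {V : Type} [NormedAddCommGroup V] [InnerProductSpace ℝ V] (r : ℝ)
      (v : V), nrm (r • g x • v) = N.oc D.nk T c x • nrm (r • g x • v) := by
  obtain ⟨φ, h1, h2⟩ := h.exists_tf hg
  have s : Tf 𝓘(ℝ, ℝ) (Ioi 0) fun t => φ t * (√(1 + t ^ 2) / t) :=
    ⟨contMDiff_of_tsupport fun t ht => (h1.sm t).mul (ContDiffAt.contMDiffAt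
      (((contDiffAt_const.add (contDiffAt_id.pow 2)).sqrt (by positivity)).div contDiffAt_id
        (h1.sub (tsupport_mul_subset_left ht)).ne')), h1.hcs.mul_right,
      tsupport_mul_subset_left.trans h1.sub⟩
  refine ⟨_, ok_tf s 0, fun T e x V _ _ r v => ?_⟩
  by_cases hx : x ∈ tsupport g
  · have := h.e_spec.2.1 x.2
    rw [oc_eq, e]
    simp only [add_zero, h2 x hx]
    rw [show ee N D c x.2 / √(1 + ee N D c x.2 ^ 2) * (1 * (√(1 + ee N D c x.2 ^ 2) / ee N D c x.2))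
      = 1 by field_simp, one_smul]
  · simp [image_eq_zero_of_notMem_tsupport hx, nrm]

lemma lts {u : List (YL Y ⊕ YTC)} (hu : tlOK I3 u) : ∀ t ∈ u.map (L1 N D c), LtS (IC I3) t := by
  refine List.forall_mem_map.2 fun t ht => ?_
  have := hu t ht
  rcases t with (f | g | _ | _) | C
  exacts [(D.nk.cb_ext this).choose_spec.1, (D.nk.cd_fn this).1, trivial, trivial,
    (congrArg (Sm _) (vl_eq' C)).mpr (h.tc_mem this).1]

omit h in
lemma lt_mem {t : YL Y ⊕ YTC} (ht : Sum.elim (YL.OK I3) YTC.OK t) {w : Y × ℝ → c.m.V}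
    (hw : w ∈ WZ N D c) : c.lt D.Z (L1 N D c t) w ∈ WZ N D c :=
  let ⟨u, hu, e⟩ := hw; ⟨t :: u, List.forall_mem_cons.2 ⟨ht, hu⟩, e ▸ rfl⟩

omit h in
lemma la_mem {t : La Y ⊕ YTC} (ht : Sum.elim (laOK I3) YTC.OK t) {w : Y × ℝ → c.m.A}
    (hw : w ∈ XZ N D c) : c.la D.Z (LA N D c t) w ∈ XZ N D c :=
  let ⟨s, hs, l, hl, e⟩ := hw; ⟨s, hs, t :: l, List.forall_mem_cons.2 ⟨ht, hl⟩, e ▸ rfl⟩

lemma clW : ClA (GZ N D c) (WZ N D c) D.Z c.W :=
  ⟨by rintro _ ⟨u, hu, rfl⟩; exact (h.sw_S (h.lts hu)).1, fun _ ⟨_, ⟨_, ht, e⟩, _⟩ _ hw => by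
    have := lt_mem ht hw
    rwa [e] at this, fun _ => lt_mem (t := .inl .G) trivial⟩

lemma x_spec : ∀ w ∈ XZ N D c, Sm (IC I3) w ∧ ∀ x, w x ∈ c.m.gS x := by
  rintro _ ⟨s, hs, l, hl, rfl⟩
  induction l with
  | nil =>
    refine ⟨hs.1, ?_⟩
    cases s
    exacts [fun _ => q_mem _ _, h.res_g (h.res_g fun x =>
      Submodule.sum_mem _ fun s _ => Submodule.smul_mem _ _ (Fg_mem _ s))]
  | cons t u ih =>
    obtain ⟨a, b⟩ := ih fun t k => hl t (List.mem_cons_of_mem _ k)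
    have ht := hl t List.mem_cons_self
    rcases t with (f | _) | C
    exacts [⟨sm_smul (D.nk.cb_ext ht).choose_spec.1 a, fun x => Submodule.smul_mem _ _ (b x)⟩,
      ⟨Mp86.sm_res _ _ _, h.res_g b⟩,
      ⟨sm_smul ((congrArg (Sm _) (vl_eq' C)).mpr (h.tc_mem ht).1) a, fun x => Submodule.smul_mem _ _ (b x)⟩]

lemma clX : ClA (GZ N D c) (XZ N D c) D.Z (c.m.adW c.W) :=
  ⟨fun w hw => (h.x_spec w hw).1, fun _ ⟨_, _, _, ht, e⟩ _ hw => by
    have := la_mem ht hw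
    rwa [e] at this, fun _ => la_mem (t := .inl .G) trivial⟩

variable [PreconnectedSpace Y]

/-- the spinor words of a free configuration generate everything -/
theorem exists_p (hf : ¬Fix D.Z c univ) : PrA (CZ N D c) (WZ N D c) D.Z c.W c.m.p := by
  obtain ⟨π, p⟩ := h.clW.exists_pra h.gn h.rs
  have k : ∀ {T : Y × ℝ → En (Fin c.m.N)}, Sm (IC I3) T → (∀ x, An.Skw (T x)) →
      (∀ w ∈ WZ N D c, (fun y => T y (w y)) ∈ WZ N D c) → ∀ x, π x * T x = T x * π x :=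
    fun {T} h1 h2 h3 => p.comm T (fun x => -T x) h1 h1.neg
      (fun x v w => by rw [h2, neg_apply, inner_neg_right])
      (fun w hw => Submodule.subset_span (h3 w hw))
      fun w hw => neg_mem (Submodule.subset_span (h3 w hw))
  obtain rfl : π = c.m.p := funext fun x => p_of_not_fix (G := ⟨D.Z, a⟩) h.hB h.ok h.conn
    isPreconnected_univ p.sm (fun x _ => ⟨p.symm x, ContinuousLinearMap.ext (p.idem x),
      ContinuousLinearMap.ext fun v => (p.le h.ok.sp h.ok.psym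
        (by rintro _ ⟨u, hu, rfl⟩; exact (h.sw_S (h.lts hu)).2) x v).2,
      k contMDiff_const (fun _ => h.ok.Jsk) (fun _ => lt_mem (t := .inl .im) trivial) x,
      fun b => by
        obtain ⟨g, hg, e⟩ := ex_fn (D := D) x b
        have := k (h.sm_cl (D.nk.cd_fn hg).1) (fun x v w => by
          simp only [sum_apply, smul_apply, sum_inner, inner_sum, real_inner_smul_left,
            real_inner_smul_right, h.ok.ρsk _ x v, mul_neg, Finset.sum_neg_distrib])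
          (fun w hw => lt_cl D.Z (D.nk.fn g) w ▸ lt_mem (t := .inl (.cl g)) hg hw) x
        simpa only [e, (h.ok.cl x).proj] using this⟩) p.idem p.toIsPrj.nabE
    (fun x _ => p.fix _ ⟨[], (fun _ k => nomatch k), rfl⟩ x) hf x trivial
  exact p

variable {F' : Pre (IC I3) (Y × ℝ) ι'} {k : ℕ}

/-- **Dirac row** -/
theorem ap_D (hf : ¬Fix D.Z c univ) {u : Y × ℝ → c.m.V} (hu : u ∈ Tst (IC I3) _ _)
    (hq : ∀ x, c.m.pm D.B x (u x) = u x) : u ∈ Ap F' k (QD N D c) := by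
  obtain ⟨f, hf', f1⟩ := exists_tf_one (I := IC I3) hu.2.1 isOpen_univ (subset_univ _)
  have s := sm_pm h.ok h.hB
  refine mem_of_eq_of_mem (funext fun x => ?_)
    ((h.exists_p hf).loc F' k (QD N D c) _ s ?_ f hf' u hu.1)
  · have : c.m.p x (u x) = u x := by rw [← hq, ← mul_apply_eq_comp, p_pm h.ok]
    rw [this, hq, smul_eq_of_one Subset.rfl f1]
  rintro g ⟨⟨g1, ⟨t, ht, e⟩, -⟩, g2⟩ _ ⟨v, hv, rfl⟩
  obtain ⟨C, c1, c2⟩ := h.exists_C g2
  refine Ap.of_nrm (smul_mem_tst g1 g2 (s.clm_apply (h.sw_S (h.lts hv)).1)) fun r _ =>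
    ⟨⟨.lin C (.inl (.mul fun _ => r) :: t :: v), c1, List.forall_mem_cons.2 ⟨contMDiff_const,
      List.forall_mem_cons.2 ⟨ht, hv⟩⟩⟩, funext fun x => ?_,
      funext fun _ => by simp [ND.q2, ND.tm, TT.tm, Cfg.tC, nrm], fun x => by
        simp only [map_smul, ← mul_apply_eq_comp, pm_pm h.hB h.ok]⟩
  have e' : N.tm D.nk c 0 (.lin C (.inl (.mul fun _ => r) :: t :: v)) =
      .lin (.mul (fun _ => r) :: .mul g :: v.map (L1 N D c)) := by
    rw [← e, ← nk_ext (D := D) fun _ => r]; simp only [ND.tm, TT.tm, List.map_map]; rfl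
  rw [ND.q2]
  simp only [e']
  refine (c2 (.lin C (.inl (.mul fun _ => r) :: t :: v)) rfl x _ _).trans ?_
  rw [← map_smul, ← map_smul]
  rfl

/-- the adjoint words generate `g` -/
theorem exists_g (hf : ¬Fix D.Z c univ ∨ ¬Lin D.Z c univ ∧ ∃ x, c.m.Fg D.Z c.W x ≠ 0) :
    PrA (CZ N D c) (XZ N D c) D.Z (c.m.adW c.W) c.m.pg := by
  obtain ⟨σ, p⟩ := h.clX.exists_pra h.gn h.ra
  have sg := Std94.sm_pg h.hB h.ok
  have le := p.le sg inner_pg fun w hw x => pg_of_mem ((h.x_spec w hw).2 x)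
  have fx : ∀ s ∈ SZ N D c, ∀ x, σ x (c.sd D.Z s x) = c.sd D.Z s x := fun s hs =>
    p.fix _ ⟨s, hs, [], (fun _ k => nomatch k), rfl⟩
  suffices σ = c.m.pg from this ▸ p
  funext x
  rcases hf with hf | hf
  · have q := h.exists_p hf
    refine ContinuousLinearMap.ext fun z => (sub_eq_zero.1 ?_).symm
    have m : c.m.pg x (z - σ x z) ∈ c.m.gS x := pg_mem x _
    rw [← (le x z).2, ← map_sub]
    refine opL_inj (ContinuousLinearMap.ext fun b => ?_)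
    have := q.orth₂ h.clW.sm (ζ := fun y => opL (c.m.pg y (z - σ y z)))
      (opL.contMDiff.comp (sg.clm_apply (contMDiff_const.sub (p.sm.clm_apply contMDiff_const))))
      isOpen_univ ?_ (mem_univ x) b
    · rw [← mul_apply_eq_comp, ← mul_apply_eq_comp, g_p m, g_p' h.ok m] at this
      rw [this, map_zero, zero_apply]
    · rintro _ ⟨u, hu, rfl⟩ _ ⟨v, hv, rfl⟩ y -
      have := fx (.q (v.map (L1 N D c)) (u.map (L1 N D c))) ⟨(h.sm_qL.clm_apply
        (h.sw_S (h.lts hv)).1).clm_apply (h.sw_S (h.lts hu)).1, fun C c1 g c2 l c3 =>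
          ⟨⟨.ad C g v u l, c1, c2, hv, hu, c3⟩, rfl, by
            simp only [ND.tm, TT.tm, List.map_map]; rfl⟩⟩ y
      simp only [Cfg.sd] at this
      rw [← inner_q, inner_sub_left, p.symm, this, sub_self]
  refine full_of_not_lin (G := ⟨D.Z, a⟩) h.hB h.ok h.conn isPreconnected_univ hf.1
    (hf.2.imp fun _ k => ⟨trivial, k⟩) σ p.sm p.symm p.idem (fun x v => (le x v).2) p.toIsPrj.nabE
    (fun x _ s => ?_) x trivial
  obtain ⟨g, hg, e⟩ := ex_fn (D := D) x s.1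
  obtain ⟨g', hg', e'⟩ := ex_fn (D := D) x s.2
  obtain ⟨C, hC⟩ := h.tame
  have c0 := D.nk.cb_ext (f := fun _ => (1 : ℝ)) contMDiff_const
  have c1 := fun t : _ × _ => Cb_bil (ContinuousLinearMap.mul ℝ ℝ)
    (Cb_bil (ContinuousLinearMap.mul ℝ ℝ) c0 ((D.nk.cd_fn hg).2 t.1)) ((D.nk.cd_fn hg').2 t.2)
  choose R hR using bdd_Fg (c := c) hC h.cW
  choose R' hR' using c1
  have a1 := Mp86.res_spec (Mon62.exists_res_sm hC h.ra.mc.sm h.ra.mc.sk
    (contMDiff_finsetSum fun t _ => sm_smul (hR' t).1 (h.sm_Fg t)) ⟨∑ t, R' t 0 * R t, fun x =>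
      norm_sum_le_of_le _ fun t _ => (norm_smul_le _ _).trans (mul_le_mul (CB_zero.1 ((hR' t).2 0) x)
        (hR t x) (norm_nonneg _) ((norm_nonneg _).trans (CB_zero.1 ((hR' t).2 0) x)))⟩)
  have a2 := Mp86.res_spec (Mon62.exists_res_sm hC h.ra.mc.sm h.ra.mc.sk a1.1 a1.2.1)
  have a3 := p.fix_rhs h.ra.mc.sm a1 (p.fix_rhs h.ra.mc.sm a2 (fx
    (.cv (D.nk.ext fun _ => 1) (D.nk.fn g) (D.nk.fn g')) ⟨a2.1, fun C c1 f c2 l c3 =>
      ⟨⟨.cv C f (fun _ => 1) g g' l, c1, c2, contMDiff_const, hg, hg', c3⟩, rfl, by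
        simp only [ND.tm, List.map_map]; rfl⟩⟩)) x
  have b : ∀ a', ∑ t, D.B.P s.2 t x • c.m.Fg D.Z c.W x (a', t) = c.m.Fg D.Z c.W x (a', s.2) :=
    fun a' => by
      rw [← neg_inj, ← Fg_swap h.hG h.conn, Prod.swap_prod_mk, ← Fg_proj h.hG h.conn,
        ← Finset.sum_neg_distrib]
      exact Finset.sum_congr rfl fun t _ => by rw [← smul_neg, ← Fg_swap h.hG h.conn]; rfl
  simp only [ContinuousLinearMap.mul_apply', nk_ext, one_mul, show D.G.F = D.Z from rfl, e, e',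
    Fintype.sum_prod_type, mul_smul, ← Finset.smul_sum, b] at a3
  rwa [Fg_proj h.hG h.conn] at a3

/-- **Curvature row** -/
theorem ap_C (hf : ¬Fix D.Z c univ ∨ ¬Lin D.Z c univ ∧ ∃ x, c.m.Fg D.Z c.W x ≠ 0)
    {u : Y × ℝ → Fm (Option κ × Option κ) c.m.A} (hu : u ∈ Tst (IC I3) _ _)
    (hq : ∀ x, c.m.p2 D.B x (u x) = u x) : u ∈ Ap F' k (QC N D c) := by
  classical
  have s := Std94.sm_p2 h.hB h.ok
  have i2 := Std94.p2_p2 (m := c.m) h.hB
  have h3 := fun x => inner_idx (sd_symm h.hB x) (inner_pg (m := c.m) x)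
  have sw := fun {g} (hg : Sm I3 g) => h.sm_pw D.nk.sm_τ (D.nk.cb_ext hg).choose_spec.1
  refine mem_of_span (𝒩 := {w | ∃ g, Sm I3 g ∧ ∃ b,
    w = fun x => c.m.p2 D.B x (wg D.Z c.m.A D.nk.τ (D.nk.ext g) x b)}) s h3 i2 ?_ ?_ isOpen_univ ?_
    (fun x _ v hv h0 => ?_) hu.1 hu.2.1 (subset_univ _) hq
  · rintro _ ⟨g, hg, b, rfl⟩
    exact (sw hg).clm_apply contMDiff_const
  · rintro _ ⟨g, hg, b, rfl⟩ x
    exact i2 x _
  · rintro f f1 f2 f3 _ ⟨g, hg, b, rfl⟩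
    refine mem_of_eq_of_mem (funext fun x => ?_) ((h.exists_g hf).loc F' k (QC N D c) _ (sw hg) ?_
      f ⟨f1, f2, f3⟩ _ (contMDiff_const (c := b)))
    · ext1 s
      simp [Md.p2, wg_apply]
    rintro f ⟨⟨g1, -, t, ht, e⟩, g2⟩ _ ⟨σ, hσ, l, hl, rfl⟩
    obtain ⟨C, c1, c2⟩ := h.exists_C g2
    refine Ap.of_nrm (smul_mem_tst g1 g2 ((sw hg).clm_apply (h.x_spec _ ⟨σ, hσ, l, hl, rfl⟩).1))
      fun r _ => ?_
    obtain ⟨T, t1, t2⟩ := hσ.2 C c1 g hg (.inl (.mul fun _ => r) :: t :: l)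
      (List.forall_mem_cons.2 ⟨contMDiff_const, List.forall_mem_cons.2 ⟨ht, hl⟩⟩)
    rw [List.map_cons, List.map_cons, e, show LA N D c (.inl (.mul fun _ => r)) = .mul fun _ => r
      from congrArg _ (nk_ext _)] at t2
    refine ⟨T, funext fun x => ?_, funext fun x => ?_, fun x => by
      simp only [map_smul]; exact congrArg _ (congrArg _ (congrArg _ (i2 x _)))⟩
    · rw [ND.q2]
      simp only [t2, Cfg.tC, ← wg_apply]
      refine (c2 T.1 t1 x _ _).trans ?_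
      rw [← map_smul, ← map_smul]
      rfl
    · simp [ND.q2, t2, Cfg.tD, nrm]
  · ext1 s
    refine congrFun (sd_zero (v := fun s => v s) h.hB (x := x) (a₀ := none)
      (fun a => by cases a <;> simp [YD.B, cP]) (fun s => ?_) fun b hb => ?_) s
    · conv_rhs => rw [← hv]
      simp only [Md.p2, idx_apply]
      exact Finset.sum_congr rfl fun t _ => by rw [pg_of_mem (hv ▸ p2_mem _ t)]
    · obtain ⟨b, rfl⟩ := Option.ne_none_iff_exists'.1 hb
      obtain ⟨g, hg, e⟩ := ex_ext (D := D) x b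
      refine ext_inner_left ℝ fun z => ?_
      have := h0 _ ⟨g, hg, z, rfl⟩
      simp only [Md.p2, h3] at this
      rw [← Md.p2, hv, wg_apply, PiLp.inner_apply, Fintype.sum_prod_type, Fintype.sum_option] at this
      simp only [real_inner_smul_left, e, D_τ] at this
      simpa [inner_sum, real_inner_smul_right, YD.B, cP] using this

end MH

end Crest.Agent.X212.Wrd81
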