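import Crest.Agent.X212.Wrd81.Psh
import Crest.Agent.X212.Hol14.Den
import Crest.Agent.X212.An.Ext
import Crest.Agent.X212.Nd18.Api
import Crest.Agent.X212.Sard93.Fin

/-!
# X212 / WORDS, part 25 (helper81): null sets, rows of cuts, supports of neck terms.
-/

set_option autoImplicit false
set_option linter.unusedSectionVars false
noncomputable section
open scoped Manifold ContDiff Topology InnerProductSpace
open MeasureTheory Set Function Filter

/-- `Onto` for the extended problem from density in each row -/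
theorem Crest.Agent.X212.An.Ext.Ax.onto' {W : Type} {Q : Crest.Agent.X212.Mod61.Prob W} {h : Type}
    [Fintype h] {X : Crest.Agent.X212.An.Ext Q h} {Adm : (W →₀ ℝ) → Prop} (H : X.Ax Adm)
    {q : W →₀ ℝ} {x : X.prob.X} (ha : Adm q) (hx : X.prob.Sol q x) (h1 : ∃ J, Q.Onto q (X.fst x) J)
    (h3 : ∀ i (N : Submodule ℝ (X.K x.1 i)), IsClosed (N : Set (X.K x.1 i)) →
      (∀ χ, X.T x.1 i q (Q.pt x.2.1) χ ∈ N) → (∀ w, Q.τ x.1 w (Q.pt x.2.1) = 0 →
        (∀ i' ≠ i, X.σ x.1 i' w (Q.pt x.2.1) (x.2.2 i') = 0) →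
        X.σ x.1 i w (Q.pt x.2.1) (x.2.2 i) ∈ N) → ∀ χ, χ ∈ N) : ∃ J, X.prob.Onto q x J := by
  classical
  obtain ⟨J, h1⟩ := h1
  have a := Crest.Agent.X212.An.fr_dgl fun i => H.fred q _ i ha ((X.sol_iff q x).1 hx).1
  obtain ⟨J', b⟩ := Crest.Agent.X212.Wrd81.exists_onto (H := Unit) (σ := 0)
    (A := Crest.Agent.X212.An.dgl fun i => X.T x.1 i q (Q.pt x.2.1)) ((a.conj (.refl ℝ _)
      (ContinuousLinearEquiv.prodUnique ℝ _ Unit).symm).congr fun _ => rfl).1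
    (fun w i => if Q.τ x.1 w (Q.pt x.2.1) = 0 then X.σ x.1 i w (Q.pt x.2.1) (x.2.2 i) else 0)
    fun N n1 n2 n3 e => by
      rw [← Finset.univ_sum_single e]
      refine sum_mem fun i _ => h3 i (N.comap (LinearMap.single ℝ _ i))
        (n1.preimage (continuous_single i)) (fun χ => ?_) (fun w w1 w2 => ?_) _
      · refine Submodule.mem_comap.2 (Set.mem_of_eq_of_mem (funext fun j => ?_) (n2 (Pi.single i χ)))
        by_cases k : j = i
        · subst k; simp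
        · simp [k]
      · refine Submodule.mem_comap.2 (Set.mem_of_eq_of_mem (funext fun j => ?_) (n3 w))
        by_cases k : j = i
        · subst k; simp [w1]
        · simp [k, w2 j k]
  refine ⟨_, H.onto hx (J' := J'.filter fun w => Q.τ x.1 w (Q.pt x.2.1) = 0) h1
    (fun w hw => (Finset.mem_filter.1 hw).2) fun f => ?_⟩
  obtain ⟨u, c, k⟩ := b f
  let c' : W → ℝ := fun w => if h : w ∈ J' then c ⟨w, h⟩ else 0
  refine ⟨u, fun w => c' w, fun i => Eq.trans (congrArg₂ (· + ·) rfl ?_) (congrFun k i)⟩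
  rw [Finset.sum_coe_sort _ fun w => c' w • X.σ x.1 i w (Q.pt x.2.1) (x.2.2 i), Finset.sum_filter,
    ← Finset.sum_coe_sort, Finset.sum_apply]
  exact Finset.sum_congr rfl fun w _ => by simp [c']

namespace Crest.Agent.X212.Wrd81
open An Sob92 Mod61 Nd18 Hol14

variable {E : Type} [NormedAddCommGroup E] [NormedSpace ℝ E] [FiniteDimensional ℝ E]
  [MeasurableSpace E] [BorelSpace E]
  {HM : Type} [TopologicalSpace HM] {I : ModelWithCorners ℝ E HM} [I.Boundaryless]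
  {M : Type} [TopologicalSpace M] [ChartedSpace HM M] [IsManifold I ∞ M]
  [MeasurableSpace M] [T2Space M] [BorelSpace M] [SecondCountableTopology M]
  {E' : Type} [NormedAddCommGroup E'] [NormedSpace ℝ E'] [FiniteDimensional ℝ E']
  [MeasurableSpace E'] [BorelSpace E']
  {HM' : Type} [TopologicalSpace HM'] {I' : ModelWithCorners ℝ E' HM'} [I'.Boundaryless]
  {M' : Type} [TopologicalSpace M'] [ChartedSpace HM' M'] [IsManifold I' ∞ M']
  [MeasurableSpace M'] [T2Space M'] [BorelSpace M'] [SecondCountableTopology M']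
  {ι : Type} [Fintype ι] {lam lam' : Type} [Fintype lam] [Fintype lam'] {r n : ℕ}

/-- images of manifolds of smaller dimension are null -/
theorem null_image (hd : Module.finrank ℝ E < Module.finrank ℝ E') (F : Pre I' M' ι) {f : M → M'}
    {U : Set M} (hf : ∀ x ∈ U, ContMDiffAt I I' 1 f x) : F.μ (f '' U) = 0 := by
  refine Sard93.null_image_of_loc fun y hy => ?_
  obtain ⟨O, ρ, h, -⟩ := F.dens (f y)
  have hg := (contMDiffAt_iff.1 (hf y hy)).2
  rw [I.range_eq_univ, contDiffWithinAt_univ] at hg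
  obtain ⟨C, t, ht, hl⟩ := hg.exists_lipschitzOnWith
  have h1 := measure_zero_of_dimH_lt (μ := leb E') (d := Module.finrank ℝ E')
    (by rw [leb, NNReal.coe_natCast]; exact Measure.absolutelyContinuous_isAddHaarMeasure _ _)
    (hl.dimH_image_le.trans_lt ((dimH_mono (subset_univ _)).trans_lt
      (by rw [Real.dimH_univ_eq_finrank]; exact_mod_cast hd)))
  refine ⟨f ⁻¹' O ∩ ((extChartAt I y).source ∩ extChartAt I y ⁻¹' t), inter_mem
    ((hf y hy).continuousAt (h.1.mem_nhds h.2.1)) (inter_mem (extChartAt_source_mem_nhds y)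
      (continuousAt_extChartAt y ht)), ?_⟩
  rw [← Measure.restrict_eq_self (t := O) _ (by rintro _ ⟨z, hz, rfl⟩; exact hz.2.1)]
  refine nonpos_iff_eq_zero.1 ((measure_mono ?_).trans ((Measure.le_map_apply
    (Met55.dens_aem h) _).trans (h.2.2.2 ▸ (withDensity_absolutelyContinuous _ _
      (nonpos_iff_eq_zero.1 ((Measure.restrict_apply_le _ _).trans h1.le))).le)))
  rintro _ ⟨z, hz, rfl⟩
  exact ⟨_, hz.2.2.2, by simp only [comp_apply, (extChartAt I y).left_inv hz.2.2.1]⟩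

variable {Ω Ω₀ : Set M} {Ω' K : Set M'}

theorem RichP.mono {d : Co M lam r} {Av Av' : Tm M lam r n → Prop} (h : RichP I Ω d Av)
    (e : Ω₀ ⊆ Ω) (a : ∀ τ, Av τ → Av' τ) : RichP I Ω₀ d Av' :=
  ⟨fun _ _ h1 h2 => a _ (h.lin _ _ (h1.mono e) (h2.mono e)),
    fun _ _ h1 h2 => a _ (h.anti _ _ (h1.mono e) (h2.mono e)),
    fun _ _ _ _ _ h1 h2 h3 => a _ (h.ad _ _ _ _ _ (h1.mono e) (h2.mono e) (h3.mono e)),
    fun _ _ _ _ _ h1 h2 h3 h4 h5 => a _ (h.adj _ _ _ _ _ (h1.mono e) (h2.mono e) (h3.mono e)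
      (h4.mono e) (h5.mono e))⟩

namespace Inv
variable {t : Tp M M' lam lam'} {t' : Tp M' M lam' lam} {c : Cfg M' ι lam' r} {B : Base M' ι lam'}
  {G : Geo I' M' ι lam'} {x : M'} (h : Inv I I' t t' Ω Ω' B.l) (p : Pc c B G K Ω')
  (hx : x ∈ Ω' ∩ K) (e : Ω ⊆ Ω₀)
include h p hx e

theorem spn_full (hF : Full c G K) :
    Spn c G.F (fun ξ' => ∃ ξ, XiIn I Ω₀ ξ ∧ c.xi G.F (t.xi ξ) = c.xi G.F ξ') x :=
  Hol14.spn_full p hx hF fun ξ k => ⟨.aw (t'.aw ξ), (h.toIn.aw k).mono e, by rw [Tp.xi, h.aw' k]⟩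

theorem spn_irr (hΦ : ∀ x ∈ K, ∃ y ∈ connectedComponent x, c.Φ y ≠ 0) {d : Co M lam r}
    (hd : CoIn I Ω₀ d) (d0 : c.co G.F (t.co d) ≠ 0) :
    Spn c G.F (fun ξ' => ∃ ξ, XiIn I Ω₀ ξ ∧ c.xi G.F (t.xi ξ) = c.xi G.F ξ') x := by
  refine Hol14.spn_irr p hx hΦ d0 (fun u v h1 h2 => ?_) fun s u v h1 h2 h3 =>
    ⟨.qj d (t'.s s) (u.map t'.lt) (v.map t'.lt) [], ⟨hd, (h.s _ h1).mono e, (h.toIn.sw h2).mono e,
      (h.toIn.sw h3).mono e, llIn_nil⟩, ?_⟩
  · have k : AwIn I' Ω' ⟨.q u v, []⟩ := ⟨⟨h1, h2⟩, llIn_nil⟩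
    exact ⟨.aw (t'.aw _), (h.toIn.aw k).mono e, by rw [Tp.xi, h.aw' k]⟩
  · rw [Tp.xi, h.sw' h2, h.sw' h3, h.ts _ h1]
    simp only [Cfg.xi, List.map_nil, wd, List.foldr_nil, Cfg.qj, p.ok.jl]

end Inv

section nk
variable {κ : Type} [Fintype κ] [CompactSpace M] {D : YD I M κ lam} {B : Base M' (Option κ) lam}
  {G : Geo I' M' (Option κ) lam} (N : ND M lam) (K : Nk D B G) (c : Cfg M' (Option κ) lam r)
  {x : M'} (hx : x ∉ K.ψ.target)
include hx

theorem q1_off : (N.q1 K : Pt _ _ _ r n).D c x = 0 ∧ (N.q1 K : Pt _ _ _ r n).C c x = 0 := by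
  have a : ∀ a, G.F.D a K.τ x = 0 := fun a => by
    cases a
    · rw [K.D_τ_none]
      exact image_eq_zero_of_notMem_tsupport fun k =>
        hx (K.dp_sub (by norm_num) (tsupport_dtf K.len k))
    · rw [K.D_τ_some]; rfl
  simp [ND.q1, Dgr80.DG.q1, ND.dg, a, ← Pi.zero_def]

theorem q2_off (T : YT M) : (N.q2 K T : Pt _ _ _ r n).D c x = 0 ∧
    (N.q2 K T : Pt _ _ _ r n).C c x = 0 := by
  have a : K.cut 3 (K.τ x) = 0 := (K.cut_τ (by norm_num) x).trans
    (ct_zero fun k => hx (K.dp_sub (by norm_num) k))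
  simp [ND.q2, ND.oc, a]

end nk

end Crest.Agent.X212.Wrd81
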